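import Crest.Agent.R166.A.Defs

/-! # Part A: finite averages (toolbox, complements the `avg_*`, `frac_*` lemmas of `Gauss3`) -/

set_option autoImplicit false
set_option linter.unusedVariables false
set_option linter.unusedSectionVars false

open MeasureTheory ProbabilityTheory Filter Topology Matrix
open scoped ENNReal BoundedContinuousFunction

namespace Crest.Agent.R166.PA

section
variable {A B K : Type} [Fintype A] [Fintype B] [Fintype K] [DecidableEq K]

theorem avg_sq_le (f : A → ℝ) : avg f ^ 2 ≤ avg fun a => f a ^ 2 := by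
  unfold avg
  rcases Nat.eq_zero_or_pos (Fintype.card A) with h0 | h0
  · simp [h0]
  · have hc : (0 : ℝ) < Fintype.card A := by exact_mod_cast h0
    have h := sq_sum_le_card_mul_sum_sq (s := (Finset.univ : Finset A)) (f := f)
    rw [Finset.card_univ] at h
    rw [div_pow, div_le_div_iff₀ (by positivity) hc]
    nlinarith [mul_le_mul_of_nonneg_right h hc.le]

theorem avg_fst [Nonempty B] (f : A → ℝ) : (avg fun p : A × B => f p.1) = avg f := by
  rw [avg_prod]
  exact avg_congr fun a => avg_const (f a)

theorem avg_reindex [Nonempty A] {K' : Type} [Fintype K'] [DecidableEq K'] {ι : K' → K}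
    (hι : Function.Injective ι) (e : A ≃ A) (F : (K' → A) → ℝ) :
    (avg fun α : K → A => F fun c => e (α (ι c))) = avg F := by
  classical
  let E := Equiv.piEquivPiSubtypeProd (fun k => k ∈ Set.range ι) (fun _ => A)
  let Φ : (Set.range ι → A) ≃ (K' → A) := Equiv.arrowCongr (Equiv.ofInjective ι hι).symm e
  calc (avg fun α : K → A => F fun c => e (α (ι c))) = avg fun α : K → A => F (Φ (E α).1) := rfl
    _ = avg fun p : (Set.range ι → A) × ({k // ¬ k ∈ Set.range ι} → A) => F (Φ p.1) :=
        avg_equiv E fun p => F (Φ p.1)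
    _ = avg fun g => F (Φ g) := avg_fst fun g => F (Φ g)
    _ = avg F := avg_equiv Φ F

theorem frac_fst [Nonempty B] (P : A → Prop) : (frac fun p : A × B => P p.1) = frac P := by
  unfold frac
  exact avg_fst (B := B) (fun a => by classical exact if P a then 1 else 0)

theorem frac_eval (k : K) (P : A → Prop) : (frac fun α : K → A => P (α k)) = frac P := by
  unfold frac
  exact avg_pi_eval k (fun a => by classical exact if P a then 1 else 0)

theorem frac_le_avg {P : A → Prop} {f : A → ℝ} (h0 : ∀ a, 0 ≤ f a) (h : ∀ a, P a → 1 ≤ f a) :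
    frac P ≤ avg f := by
  unfold frac
  refine avg_mono fun a => ?_
  split_ifs with hP
  · exact h a hP
  · exact h0 a

theorem frac_markov {f : A → ℝ} {x : ℝ} (hx : 0 < x) (h0 : ∀ a, 0 ≤ f a) :
    (frac fun a => x < f a) ≤ avg f / x := by
  exact (frac_mono fun a ha => ha.le).trans (frac_le_avg_div h0 hx)

theorem avg_le_add_frac {f : A → ℝ} {P : A → Prop} {x C : ℝ} (hx : 0 ≤ x) (hC : 0 ≤ C)
    (h1 : ∀ a, ¬ P a → f a ≤ x) (h2 : ∀ a, f a ≤ C) : avg f ≤ x + C * frac P := by
  classical
  have h3 : avg f ≤ avg fun a => (if P a then 0 else x) + C * (if P a then 1 else 0) := by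
    refine avg_mono fun a => ?_
    split_ifs with hP
    · simpa using h2 a
    · simpa using h1 a hP
  rw [avg_add, avg_const_mul] at h3
  refine h3.trans (add_le_add (avg_le_of_le hx fun a => ?_) (le_of_eq ?_))
  · split_ifs
    · exact hx
    · exact le_rfl
  · unfold frac
    congr

theorem frac_le_card (S : Finset A) {P : A → Prop} (h : ∀ a, P a → a ∈ S) :
    frac P ≤ S.card / Fintype.card A := by
  classical
  rw [frac_eq_card]
  refine div_le_div_of_nonneg_right ?_ (Nat.cast_nonneg _)
  exact_mod_cast Finset.card_le_card fun a ha => h a (by simpa using ha)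

theorem frac_le_of_update (k : K) {F : (K → A) → Prop} {y : ℝ} (hy : 0 ≤ y)
    (hF : ∀ α, (frac fun a => F (Function.update α k a)) ≤ y) : frac F ≤ y := by
  unfold frac
  rw [avg_pi_update k]
  exact avg_le_of_le hy hF

/-- `E` does not read coordinate `k`, `F` is conditionally rare in coordinate `k` -/
theorem frac_and_le (k : K) {E F : (K → A) → Prop} {y : ℝ} (hy : 0 ≤ y)
    (hE : ∀ α a, E (Function.update α k a) ↔ E α)
    (hF : ∀ α, (frac fun a => F (Function.update α k a)) ≤ y) :
    (frac fun α => E α ∧ F α) ≤ frac E * y := by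
  classical
  unfold frac
  rw [avg_pi_update k, ← avg_mul_const]
  refine avg_mono fun α => ?_
  by_cases h : E α
  · rw [if_pos h, one_mul]
    refine le_trans (le_of_eq ?_) (hF α)
    unfold frac
    refine avg_congr fun a => ?_
    simp [hE, h]
  · rw [if_neg h, zero_mul]
    refine avg_le_of_le le_rfl fun a => ?_
    simp [hE, h]

theorem norm_cavg_le (f : A → ℂ) : ‖cavg f‖ ≤ avg fun a => ‖f a‖ := by
  unfold cavg avg
  rw [norm_div, Complex.norm_natCast]
  exact div_le_div_of_nonneg_right (norm_sum_le _ _) (Nat.cast_nonneg _)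

theorem cavg_sub (f g : A → ℂ) : (cavg fun a => f a - g a) = cavg f - cavg g := by
  unfold cavg; rw [Finset.sum_sub_distrib, sub_div]

theorem cavg_const [Nonempty A] (c : ℂ) : (cavg fun _ : A => c) = c := by
  unfold cavg
  have : (Fintype.card A : ℂ) ≠ 0 := by exact_mod_cast Fintype.card_ne_zero
  rw [Finset.sum_const, Finset.card_univ, nsmul_eq_mul]; field_simp

theorem cavg_prod (f : A × B → ℂ) : cavg f = cavg fun a => cavg fun b => f (a, b) := by
  unfold cavg
  rw [Fintype.sum_prod_type, Fintype.card_prod, ← Finset.sum_div, div_div, Nat.cast_mul, mul_comm]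

theorem inner_cavg (f : A → ℂ) (w : ℂ) : inner ℝ (cavg f) w = avg fun a => inner ℝ (f a) w := by
  unfold cavg avg
  have : (∑ a, f a) / (Fintype.card A : ℂ) = ((Fintype.card A : ℝ)⁻¹) • ∑ a, f a := by
    rw [Complex.real_smul, div_eq_inv_mul]; simp
  rw [this, real_inner_smul_left, sum_inner, div_eq_inv_mul]

end

section
variable {n D : ℕ}

theorem avg_HE_fst (f : Fin n → ℝ) : (avg fun h : HE n D => f h.1) = avg f := by
  exact avg_fst f

theorem avg_HE_snd (π : Equiv.Perm (HE n D)) (f : Fin n → ℝ) :
    (avg fun h : HE n D => f (π h).1) = avg f := by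
  rw [avg_equiv π fun h : HE n D => f h.1]
  exact avg_fst f

/-- neighbours of a uniform vertex, summed over the ports -/
theorem sum_avg_nbr (π : Equiv.Perm (HE n D)) (f : Fin n → ℝ) :
    ∑ i, (avg fun o : Fin n => f (π (o, i)).1) = (D + 1) * avg f := by
  rw [← avg_HE_snd π f, avg_prod, avg_comm]
  have : ((D : ℝ) + 1) ≠ 0 := by positivity
  rw [avg, Fintype.card_fin]
  push_cast
  field_simp

theorem avg2_mono {π : Pairing n D} {F G : Fin n → (Fin (D + 1) → HE n D) → ℝ}
    (h : ∀ o α, StarOK π.1 o α → F o α ≤ G o α) : avg2 π F ≤ avg2 π G := by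
  unfold avg2
  refine avg_mono fun o => avg_mono fun α => ?_
  split_ifs with hs
  · exact h o α hs
  · exact le_rfl

theorem avg2_nonneg {π : Pairing n D} {F : Fin n → (Fin (D + 1) → HE n D) → ℝ}
    (h : ∀ o α, StarOK π.1 o α → 0 ≤ F o α) : 0 ≤ avg2 π F := by
  unfold avg2
  refine avg_nonneg fun o => avg_nonneg fun α => ?_
  split_ifs with hs
  · exact h o α hs
  · exact le_rfl

theorem avg2_le_avg {π : Pairing n D} {F G : Fin n → (Fin (D + 1) → HE n D) → ℝ}
    (h : ∀ o α, StarOK π.1 o α → F o α ≤ G o α) (h0 : ∀ o α, 0 ≤ G o α) :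
    avg2 π F ≤ avg fun o => avg fun α => G o α := by
  unfold avg2
  refine avg_mono fun o => avg_mono fun α => ?_
  split_ifs with hs
  · exact h o α hs
  · exact h0 o α

theorem avg2_add (π : Pairing n D) (F G : Fin n → (Fin (D + 1) → HE n D) → ℝ) :
    (avg2 π fun o α => F o α + G o α) = avg2 π F + avg2 π G := by
  unfold avg2
  rw [← avg_add]
  refine avg_congr fun o => ?_
  rw [← avg_add]
  refine avg_congr fun α => ?_
  split_ifs <;> simp

theorem avg2_sub (π : Pairing n D) (F G : Fin n → (Fin (D + 1) → HE n D) → ℝ) :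
    (avg2 π fun o α => F o α - G o α) = avg2 π F - avg2 π G := by
  unfold avg2
  rw [← avg_sub]
  refine avg_congr fun o => ?_
  rw [← avg_sub]
  refine avg_congr fun α => ?_
  split_ifs <;> simp

theorem avg2_mul_left (π : Pairing n D) (c : ℝ) (F : Fin n → (Fin (D + 1) → HE n D) → ℝ) :
    (avg2 π fun o α => c * F o α) = c * avg2 π F := by
  unfold avg2
  rw [← avg_const_mul]
  refine avg_congr fun o => ?_
  rw [← avg_const_mul]
  refine avg_congr fun α => ?_
  split_ifs <;> simp

theorem avg2_mul_right (π : Pairing n D) (c : ℝ) (F : Fin n → (Fin (D + 1) → HE n D) → ℝ) :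
    (avg2 π fun o α => F o α * c) = avg2 π F * c := by
  unfold avg2
  rw [← avg_mul_const]
  refine avg_congr fun o => ?_
  rw [← avg_mul_const]
  refine avg_congr fun α => ?_
  split_ifs <;> simp

theorem abs_avg2_le (π : Pairing n D) (F : Fin n → (Fin (D + 1) → HE n D) → ℝ) :
    |avg2 π F| ≤ avg2 π fun o α => |F o α| := by
  unfold avg2
  refine (abs_avg_le _).trans (avg_mono fun o => (abs_avg_le _).trans (avg_mono fun α => ?_))
  split_ifs <;> simp

theorem avg2_sq_le (π : Pairing n D) (F : Fin n → (Fin (D + 1) → HE n D) → ℝ) :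
    avg2 π F ^ 2 ≤ avg2 π fun o α => F o α ^ 2 := by
  unfold avg2
  refine (avg_sq_le _).trans (avg_mono fun o => (avg_sq_le _).trans (avg_mono fun α => ?_))
  split_ifs <;> simp

/-- exchangeability (`avg_star`, `avg_comm`) -/
theorem avg2_swap (F : Pairing n D → Pairing n D → Fin n → (Fin (D + 1) → HE n D) → ℝ) :
    (avg fun π => avg2 π fun o α => F π (sw π o α) o α) =
      avg fun π => avg2 π fun o α => F (sw π o α) π o α := by
  unfold avg2
  rw [avg_comm, avg_comm (A := Pairing n D)]
  refine avg_congr fun o => ?_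
  rw [avg_comm, avg_comm (A := Pairing n D)]
  refine avg_congr fun α => ?_
  exact avg_star o α fun π π' => F π π' o α

/-- invalid switches are rare (`frac_not_starOK`) -/
theorem avg2_compl (D : ℕ) : ∃ C : ℝ, 0 < C ∧ ∀ (n : ℕ) (π : Pairing n D)
    (F : Fin n → (Fin (D + 1) → HE n D) → ℝ) (Cf : ℝ), (∀ o α, |F o α| ≤ Cf) →
      |avg2 π F - avg fun o => avg fun α => F o α| ≤ Cf * C / n := by
  classical
  obtain ⟨C, hC⟩ := frac_not_starOK D
  refine ⟨|C| + 1, by positivity, fun n π F Cf hF => ?_⟩
  rcases Nat.eq_zero_or_pos n with rfl | hn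
  · simp [avg2, avg]
  have hCf : 0 ≤ Cf := (abs_nonneg _).trans (hF ⟨0, hn⟩ fun i => (⟨0, hn⟩, i))
  unfold avg2
  rw [← avg_sub]
  refine abs_avg_le_of_le (by positivity) fun o => ?_
  rw [← avg_sub]
  refine (abs_avg_le _).trans ?_
  calc _ ≤ avg fun α => Cf * (if ¬ StarOK π.1 o α then 1 else 0) := by
        refine avg_mono fun α => ?_
        by_cases hs : StarOK π.1 o α
        · simp [hs]
        · simpa [hs] using hF o α
    _ = Cf * frac (fun α => ¬ StarOK π.1 o α) := by
        rw [avg_const_mul]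
        unfold frac
        refine congrArg _ (avg_congr fun α => ?_)
        by_cases hs : StarOK π.1 o α <;> simp [hs]
    _ ≤ Cf * ((|C| + 1) / n) := by
        refine mul_le_mul_of_nonneg_left ((hC n π o).trans ?_) hCf
        exact div_le_div_of_nonneg_right ((le_abs_self C).trans (by linarith)) (Nat.cast_nonneg _)
    _ = _ := by ring

end

end Crest.Agent.R166.PA
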