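import Crest.Agent.R166.A.Edge
import Crest.Agent.R166.A.Avg
import Crest.Agent.R166.PartG

/-! # Part A: the starting height -/

set_option autoImplicit false
set_option linter.unusedVariables false
set_option linter.unusedSectionVars false

open MeasureTheory ProbabilityTheory Filter Topology Matrix
open scoped ENNReal BoundedContinuousFunction

namespace Crest.Agent.R166.PA

/-- `locality_unif`, `gC_edge`, `mE_rec` (`mE π (x,i) = 1/(sω_x - z - ∑_c mE π (π (x, i.succAbove c)))`);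
`starV π x none = ends π h 0`, `starV π x (some i) = ends π h 1` for `h = (x,i)` -/
theorem locality_edge {D : ℕ} (hD : 1 ≤ D) {η A ε : ℝ} (hη : 0 < η) (hε : 0 < ε) : ∃ k : ℕ,
    ∀ s E : ℝ, |s| ≤ A → |E| ≤ A → ∀ (n : ℕ) (π : Pairing n D) (ω : Fin n → J) (h : HE n D),
      TreeLike π.1 h.1 k → ∀ b c,
        ‖res (ham s π.1 ω) (E + η * Complex.I) (ends π.1 h b) (ends π.1 h c) -
          gE (mE s ω (E + η * Complex.I) π h) (mE s ω (E + η * Complex.I) π (π.1 h)) b c‖ ≤ ε := by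
  obtain ⟨k, hk⟩ := locality_unif D (A := A) hη hε
  refine ⟨k, fun s E hs hE n π ω h hT b c => ?_⟩
  obtain ⟨x, i⟩ := h
  have hz : 0 < ((E : ℂ) + η * Complex.I).im := by simpa using hη
  have h1 := hk s E hs hE n π ω x hT (if b = 0 then none else some i) (if c = 0 then none else some i)
  rw [← gC_edge (by simp) hz.le (fun j => mT_im_pos hz _) hD i b c] at h1
  have h2 : mE s ω (E + η * Complex.I) π (x, i) =
      1 / (((s * (ω x : ℝ) : ℝ) : ℂ) - (E + η * Complex.I) -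
        ∑ c, mT s (E + η * Complex.I) (envH π.1 ω (π.1 (x, i.succAbove c)))) := mT_rec hz _
  have h3 : ∀ b : Fin 2, starV π.1 x (if b = 0 then none else some i) = ends π.1 (x, i) b := by
    intro b
    unfold ends
    split_ifs <;> rfl
  rw [h3, h3, ← h2] at h1
  exact h1

/-- at a tree-like `h.1`: `locality_edge`, `mT_small`, `gE_lip`, `edge_bwd`, `norm_zeta_sub_le` (`zeta_self`, `nOf_Mh`) give
`‖Zh‖² ≤ δ₀/2`; `avg_le_add_frac`; Markov with `treeLike_mean`.  `|E| ≤ 2/c₀` by `ref_norm_z_le`. -/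
theorem init {D : ℕ} (hD : 2 ≤ D) {κ c₀ η₁ C₀ : ℝ} (hb : Band D κ c₀ η₁ C₀) {δ₀ : ℝ} (hδ : 0 < δ₀) :
    ∃ s₀ : ℝ, 0 < s₀ ∧ ∀ ε : ℝ, 0 < ε → ∀ᶠ n in atTop, ∀ s : ℝ, |s| ≤ s₀ → ∀ E : ℝ,
      E ^ 2 ≤ 4 * D - κ → ∀ ω : Fin n → J,
        (frac fun π : Pairing n D => δ₀ < sB s ω E η₁ π) ≤ ε := by
  obtain ⟨hc, hη, hη1, hC0, hb⟩ := hb
  obtain ⟨C₁, hC₁, H1⟩ := gE_lip
  obtain ⟨C₂, hC₂, H2⟩ := edge_bwd hc
  set K : ℝ := 2 * (C₂ * (1 + C₁)) with hK
  have hK0 : 0 < K := by positivity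
  set t : ℝ := min 1 (δ₀ / 2) with ht
  have ht0 : 0 < t := lt_min one_pos (by positivity)
  set ε₁ : ℝ := min (1 / 10) (t / K) with hε₁
  have hε0 : 0 < ε₁ := lt_min (by norm_num) (by positivity)
  obtain ⟨s₁, hs₁, H3⟩ := mT_small (D := D) (A := 2 / c₀) hη hε0
  obtain ⟨k, H4⟩ := locality_edge (D := D) (by omega) (A := max 1 (2 / c₀)) hη hε0
  obtain ⟨C, H5⟩ := treeLike_mean D k
  set L : ℝ := (2 / c₀ + 1) ^ 2 with hL
  have hL0 : 0 < L := by positivity
  refine ⟨min s₁ 1, lt_min hs₁ one_pos, fun ε hε => ?_⟩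
  have hev : ∀ᶠ n : ℕ in atTop, C / n / (δ₀ / 2 / L) ≤ ε := by
    have : Tendsto (fun n : ℕ => C / n / (δ₀ / 2 / L)) atTop (𝓝 (0 / (δ₀ / 2 / L))) :=
      (tendsto_const_div_atTop_nhds_zero_nat C).div_const _
    rw [zero_div] at this
    exact (this.eventually (gt_mem_nhds hε)).mono fun n h => h.le
  filter_upwards [hev] with n hn s hs E hE ω
  obtain ⟨hR0, hR⟩ := hb E hE
  obtain ⟨hR, -⟩ := hR η₁ hη le_rfl
  set z : ℂ := E + η₁ * Complex.I with hzd
  set m : ℂ := mz D z with hm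
  have hz : 0 < z.im := by simpa [hzd] using hη
  have hm0 : 0 < m.im := hc.trans_le hR.mim
  have hE2 : |E| ≤ 2 / c₀ := by simpa using ref_norm_z_le hR0 hc
  have hgood : ∀ (π : Pairing n D) (h : HE n D), TreeLike π.1 h.1 k →
      ‖Zh s ω z m π h‖ ^ 2 ≤ δ₀ / 2 := by
    intro π h hT
    have a1 := H4 s E ((hs.trans (min_le_right _ _)).trans (le_max_left _ _))
      (hE2.trans (le_max_right _ _)) n π ω h hT
    have a2 := H1 m (mE s ω z π h) (mE s ω z π (π.1 h)) ε₁ (ref_norm_sq_le hR hD) (min_le_left _ _)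
      (H3 s (hs.trans (min_le_left _ _)) E hE2 _) (H3 s (hs.trans (min_le_left _ _)) E hE2 _)
    have a3 := H2 n z.im (Bz s ω z π) (Bz_dis s ω π z) hz m hR.mim (ref_norm_sq_le hR hD) h.1
      (π.1 h).1 ((1 + C₁) * ε₁) fun b c => by
        rw [← res_eq_Bz, ← ends_eq_two]
        have := norm_sub_le_norm_sub_add_norm_sub
          (res (ham s π.1 ω) z (ends π.1 h b) (ends π.1 h c))
          (gE (mE s ω z π h) (mE s ω z π (π.1 h)) b c) (gE m m b c)
        linarith [a1 b c, a2 b c]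
    have a4 := norm_zeta_sub_le hm0 (ref_norm_le hR hD) (Mh_im_pos s ω π h hz hm0).le hm0.le
    rw [zeta_self, sub_zero, nOf_Mh s ω π h hz hm0] at a4
    have a5 : ‖Zh s ω z m π h‖ ≤ t := by
      have b1 : K * ε₁ ≤ t := by
        have : ε₁ ≤ t / K := min_le_right _ _
        rwa [le_div_iff₀' hK0] at this
      have b2 : ‖Nh s ω z m π h - nOf m m‖ ≤ C₂ * ((1 + C₁) * ε₁) := a3
      have b3 : ‖Zh s ω z m π h‖ ≤ 2 * ‖Nh s ω z m π h - nOf m m‖ := a4
      have b4 : K * ε₁ = 2 * (C₂ * ((1 + C₁) * ε₁)) := by rw [hK]; ring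
      linarith
    have b1 : t ≤ 1 := min_le_left _ _
    have b2 : t ≤ δ₀ / 2 := min_le_right _ _
    nlinarith [norm_nonneg (Zh s ω z m π h)]
  have hsB : ∀ π : Pairing n D, sB s ω E η₁ π ≤
      δ₀ / 2 + L * frac fun x => ¬ TreeLike π.1 x k := by
    intro π
    have a1 := avg_le_add_frac (f := fun h => ‖Zh s ω z m π h‖ ^ 2)
      (P := fun h : HE n D => ¬ TreeLike π.1 h.1 k) (x := δ₀ / 2) (C := L) (by positivity) hL0.le
      (fun h hh => hgood π h (not_not.1 hh)) fun h =>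
        pow_le_pow_left₀ (norm_nonneg _) (norm_Zh_le s ω π h hz hc hR.mim (ref_norm_le hR hD)) 2
    rw [frac_fst (P := fun x => ¬ TreeLike π.1 x k)] at a1
    exact a1
  refine le_trans (frac_mono (Q := fun π : Pairing n D =>
    δ₀ / 2 / L < frac fun x => ¬ TreeLike π.1 x k) fun π hπ => ?_) ?_
  · rw [div_lt_iff₀' hL0]
    linarith [hsB π]
  · refine (frac_markov (by positivity) fun π => frac_nonneg _).trans (le_trans ?_ hn)
    gcongr
    exact H5 n

end Crest.Agent.R166.PA
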