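import Crest.Agent.R166.A.Loc
import Crest.Agent.R166.A.Avg

/-! # Part A: changing the height and the load -/

set_option autoImplicit false
set_option linter.unusedVariables false
set_option linter.unusedSectionVars false

open MeasureTheory ProbabilityTheory Filter Topology Matrix
open scoped ENNReal BoundedContinuousFunction

namespace Crest.Agent.R166.PA

theorem Scale_N {μ : ℝ} (hμ : 0 < μ) {n D : ℕ} (s : ℝ) (ω : Fin n → J) {E η η' a : ℝ} {m m' : ℂ}
    (hη : 0 < η) (hη' : 0 < η') (h1 : η ≤ 1) (ha : |η - η'| ≤ a * η) (ha' : |η - η'| ≤ a * η')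
    (hm : μ ≤ m.im) (hm' : μ ≤ m'.im) (hm1 : ‖m‖ ≤ 1) (π : Pairing n D) (h : HE n D) :
    ‖Nh s ω (E + η * Complex.I) m π h - Nh s ω (E + η' * Complex.I) m' π h‖ ≤
      (a + 2 * ‖m - m'‖) / μ ^ 2 := by
  have a0 : 0 ≤ a := by
    by_contra hc
    have := mul_neg_of_neg_of_pos (not_le.1 hc) hη
    linarith [abs_nonneg (η - η')]
  have μ1 : μ ≤ 1 := hm.trans ((Complex.im_le_norm m).trans hm1)
  have hz : 0 < ((E : ℂ) + η * Complex.I).im := by simpa using hη
  have hz' : 0 < ((E : ℂ) + η' * Complex.I).im := by simpa using hη'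
  have ez : ((E : ℂ) + η * Complex.I).im = η := by simp
  have ez' : ((E : ℂ) + η' * Complex.I).im = η' := by simp
  have hB := Sh_dis (s := s) (ω := ω) (z := E + η * Complex.I) (π := π) (h := h) (hμ.le.trans hm)
  have hB' := Sh_dis (s := s) (ω := ω) (z := E + η' * Complex.I) (π := π) (h := h)
    (hμ.le.trans hm')
  have p1 := Sh_port_fst (s := s) (ω := ω) (π := π) (h := h) hz hμ hm
  have p2 := Sh_port_snd (s := s) (ω := ω) (π := π) (h := h) hz hμ hm
  have p1' := Sh_port_fst (s := s) (ω := ω) (π := π) (h := h) hz' hμ hm'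
  have p2' := Sh_port_snd (s := s) (ω := ω) (π := π) (h := h) hz' hμ hm'
  obtain ⟨d, hd⟩ : ∃ d, d = ‖m - m'‖ := ⟨_, rfl⟩
  have d0 : 0 ≤ d := hd ▸ norm_nonneg _
  obtain ⟨l, hl⟩ : ∃ l, l = (a + 2 * d) / μ := ⟨_, rfl⟩
  have l0 : 0 ≤ l := hl ▸ by positivity
  have hlμ : l * μ = a + 2 * d := by rw [hl]; field_simp
  have hal : a ≤ l := by nlinarith
  have key := hB.diag_pert hz hB' hz'
    (v := fun x => ((η' - η : ℝ) : ℂ) * Complex.I +
      (m' - m) * ((if h.1 = x then 1 else 0) + (if (π.1 h).1 = x then 1 else 0))) (l := l) ?_ ?_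
    h.1 h.1
  · have b1 := Dis1_im_le hB hz hμ p1
    have b2 := Dis1_im_le hB' hz' hμ p1'
    have c1 := hB.im_pos hz h.1
    have c2 := hB'.im_pos hz' h.1
    rw [← hd]
    refine le_of_sq_le_sq (key.trans ?_) (by positivity)
    have e : ((a + 2 * d) / μ ^ 2) ^ 2 = l ^ 2 * (1 / μ * (1 / μ)) := by
      rw [hl]; field_simp
    rw [e]
    gcongr
  · ext i j
    simp only [Matrix.sub_apply, Bz, Jh, Dis2_Jm_apply, Matrix.smul_apply, smul_eq_mul]
    by_cases hij : i = j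
    · subst hij
      simp only [Matrix.one_apply_eq, Matrix.diagonal_apply_eq, and_self]
      push_cast
      ring
    · have e1 : ¬ (h.1 = i ∧ h.1 = j) := fun hh => hij (hh.1.symm.trans hh.2)
      have e2 : ¬ ((π.1 h).1 = i ∧ (π.1 h).1 = j) := fun hh => hij (hh.1.symm.trans hh.2)
      simp [hij, e1, e2]
  · intro x
    have n1 : ‖((η' - η : ℝ) : ℂ) * Complex.I‖ = |η - η'| := by
      rw [norm_mul, Complex.norm_I, mul_one, Complex.norm_real, Real.norm_eq_abs, abs_sub_comm]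
    by_cases hx : h.1 = x ∨ (π.1 h).1 = x
    · have q1 : ((Bz s ω (E + η * Complex.I) π - Jh m π h) x x).im ≤ -μ := by
        rcases hx with rfl | rfl
        exacts [p1, p2]
      have q2 : ((Bz s ω (E + η' * Complex.I) π - Jh m' π h) x x).im ≤ -μ := by
        rcases hx with rfl | rfl
        exacts [p1', p2']
      have n2 : ‖(m' - m) * ((if h.1 = x then 1 else 0) + (if (π.1 h).1 = x then 1 else 0))‖ ≤
          2 * d := by
        rw [norm_mul, norm_sub_rev, ← hd, mul_comm]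
        gcongr
        refine (norm_add_le _ _).trans ?_
        split_ifs <;> norm_num
      have n3 := (norm_add_le _ _).trans (add_le_add n1.le n2)
      have n4 : |η - η'| + 2 * d ≤ l * μ := by nlinarith
      have n5 : μ ^ 2 ≤ ((Bz s ω (E + η * Complex.I) π - Jh m π h) x x).im *
          ((Bz s ω (E + η' * Complex.I) π - Jh m' π h) x x).im := by nlinarith
      calc _ ≤ (l * μ) ^ 2 := by gcongr; exact n3.trans n4
        _ = l ^ 2 * μ ^ 2 := by ring
        _ ≤ _ := by gcongr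
    · push Not at hx
      have q1 := hB.diag x
      have q2 := hB'.diag x
      rw [ez] at q1
      rw [ez'] at q2
      have n5 : η * η' ≤ ((Bz s ω (E + η * Complex.I) π - Jh m π h) x x).im *
          ((Bz s ω (E + η' * Complex.I) π - Jh m' π h) x x).im := by nlinarith
      simp only [if_neg hx.1, if_neg hx.2, add_zero, mul_zero]
      rw [n1]
      calc |η - η'| ^ 2 = |η - η'| * |η - η'| := sq _
        _ ≤ (a * η) * (a * η') := by gcongr
        _ = a ^ 2 * (η * η') := by ring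
        _ ≤ _ := by gcongr

theorem Scale_Z {μ : ℝ} (hμ : 0 < μ) {m m' N N' : ℂ} (hm1 : ‖m‖ ≤ 1) (hm1' : ‖m'‖ ≤ 1)
    (hN : ‖N'‖ ≤ 1 / μ) :
    ‖-m * ((1 - m ^ 2) * N - m) - -m' * ((1 - m' ^ 2) * N' - m')‖ ≤
      2 * ‖N - N'‖ + (4 / μ + 2) * ‖m - m'‖ := by
  have e : -m * ((1 - m ^ 2) * N - m) - -m' * ((1 - m' ^ 2) * N' - m') =
      -(m * (1 - m * m)) * (N - N') +
        ((m * m + m * m' + m' * m' - 1) * N' + (m + m')) * (m - m') := by ring
  have mm : ∀ {u v : ℂ}, ‖u‖ ≤ 1 → ‖v‖ ≤ 1 → ‖u * v‖ ≤ 1 := fun hu hv => by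
    rw [norm_mul]; exact mul_le_one₀ hu (norm_nonneg _) hv
  have b1 : ‖-(m * (1 - m * m))‖ ≤ 2 := by
    rw [norm_neg, norm_mul]
    have : ‖1 - m * m‖ ≤ 2 := by
      refine (norm_sub_le _ _).trans ?_
      rw [norm_one]; linarith [mm hm1 hm1]
    nlinarith [norm_nonneg m, norm_nonneg (1 - m * m)]
  have b2 : ‖m * m + m * m' + m' * m' - 1‖ ≤ 4 := by
    refine (norm_sub_le _ _).trans ?_
    have := norm_add₃_le (a := m * m) (b := m * m') (c := m' * m')
    rw [norm_one]; linarith [mm hm1 hm1, mm hm1 hm1', mm hm1' hm1']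
  have b3 : ‖(m * m + m * m' + m' * m' - 1) * N' + (m + m')‖ ≤ 4 / μ + 2 := by
    refine (norm_add_le _ _).trans (add_le_add ?_ ?_)
    · rw [norm_mul, div_eq_mul_one_div]; gcongr
    · linarith [norm_add_le m m']
  rw [e]
  refine (norm_add_le _ _).trans ?_
  rw [norm_mul, norm_mul]
  gcongr


/-- `Dis.diag_pert`: the two matrices differ by the diagonal `v x = (z' - z) + k_x (m' - m)`, `k_x ∈ {0,1,2}` the
number of loads at `x`; take `l = (a + 2‖m - m'‖)/μ` (`μ ≤ 1`): at an unloaded `x`, `‖v x‖² ≤ a² η η'`; at a loaded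
one both imaginary parts are `≤ -μ` and `‖v x‖ ≤ a + 2‖m - m'‖`. -/
theorem scale_Sh {μ : ℝ} (hμ : 0 < μ) : ∃ C : ℝ, 0 < C ∧
    ∀ (n D : ℕ) (s : ℝ) (ω : Fin n → J) (E η η' a : ℝ) (m m' : ℂ), 0 < η → 0 < η' → η ≤ 1 → η' ≤ 1 →
      |η - η'| ≤ a * η → |η - η'| ≤ a * η' → μ ≤ m.im → μ ≤ m'.im → ‖m‖ ≤ 1 → ‖m'‖ ≤ 1 →
      ∀ (π : Pairing n D) (h : HE n D),
        ‖Nh s ω (E + η * Complex.I) m π h - Nh s ω (E + η' * Complex.I) m' π h‖ ≤ C * (a + ‖m - m'‖) ∧
        ‖Zh s ω (E + η * Complex.I) m π h - Zh s ω (E + η' * Complex.I) m' π h‖ ≤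
          C * (a + ‖m - m'‖) := by
  refine ⟨4 / μ ^ 2 + (4 / μ + 2), by positivity, ?_⟩
  intro n D s ω E η η' a m m' hη hη' h1 h1' ha ha' hm hm' hm1 hm1' π h
  have a0 : 0 ≤ a := by
    by_contra hc
    have := mul_neg_of_neg_of_pos (not_le.1 hc) hη
    linarith [abs_nonneg (η - η')]
  have hz : 0 < ((E : ℂ) + η * Complex.I).im := by simpa using hη
  have hz' : 0 < ((E : ℂ) + η' * Complex.I).im := by simpa using hη'
  have hN := Scale_N hμ s ω (E := E) hη hη' h1 ha ha' hm hm' hm1 π h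
  have d0 := norm_nonneg (m - m')
  have hN' : ‖Nh s ω (E + η * Complex.I) m π h - Nh s ω (E + η' * Complex.I) m' π h‖ ≤
      2 / μ ^ 2 * (a + ‖m - m'‖) := by
    refine hN.trans ?_
    rw [div_mul_eq_mul_div]
    gcongr
    linarith
  have t1 : 0 ≤ 2 / μ ^ 2 * (a + ‖m - m'‖) := by positivity
  have t2 : 0 ≤ (4 / μ + 2) * a := by positivity
  have t3 : 0 ≤ (4 / μ + 2) * ‖m - m'‖ := by positivity
  have e : (4 / μ ^ 2 + (4 / μ + 2)) * (a + ‖m - m'‖) = 2 * (2 / μ ^ 2 * (a + ‖m - m'‖)) +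
      (4 / μ + 2) * a + (4 / μ + 2) * ‖m - m'‖ := by ring
  rw [e]
  refine ⟨by linarith, ?_⟩
  rw [Zh_eq s ω π h hz (hμ.trans_le hm), Zh_eq s ω π h hz' (hμ.trans_le hm')]
  refine (Scale_Z hμ hm1 hm1' (norm_Nh_le s ω π h hz' hμ hm')).trans ?_
  linarith

theorem scale_stB {μ : ℝ} (hμ : 0 < μ) : ∃ C : ℝ, 0 < C ∧
    ∀ (n D : ℕ) (s : ℝ) (ω : Fin n → J) (E η η' a : ℝ) (m m' : ℂ), 0 < η → 0 < η' → η ≤ 1 → η' ≤ 1 →
      |η - η'| ≤ a * η → |η - η'| ≤ a * η' → μ ≤ m.im → μ ≤ m'.im → ‖m‖ ≤ 1 → ‖m'‖ ≤ 1 →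
      ∀ π : Pairing n D,
        |stB s ω (E + η * Complex.I) m π - stB s ω (E + η' * Complex.I) m' π| ≤ C * (a + ‖m - m'‖) := by
  obtain ⟨C, hC, H⟩ := scale_Sh hμ
  refine ⟨2 * (2 / μ + 1) * C, by positivity, ?_⟩
  intro n D s ω E η η' a m m' hη hη' h1 h1' ha ha' hm hm' hm1 hm1' π
  have a0 : 0 ≤ a := by
    by_contra hc
    have := mul_neg_of_neg_of_pos (not_le.1 hc) hη
    linarith [abs_nonneg (η - η')]
  have hz : 0 < ((E : ℂ) + η * Complex.I).im := by simpa using hη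
  have hz' : 0 < ((E : ℂ) + η' * Complex.I).im := by simpa using hη'
  unfold stB
  rw [← avg_sub]
  refine abs_avg_le_of_le (by positivity) fun h => ?_
  have b := (H n D s ω E η η' a m m' hη hη' h1 h1' ha ha' hm hm' hm1 hm1' π h).2
  have b1 := norm_Zh_le (s := s) (ω := ω) (π := π) (h := h) hz hμ hm hm1
  have b2 := norm_Zh_le (s := s) (ω := ω) (π := π) (h := h) hz' hμ hm' hm1'
  have b3 := (abs_norm_sub_norm_le _ _).trans b
  rw [sq_sub_sq, abs_mul, abs_of_nonneg (by positivity), mul_assoc _ C]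
  gcongr
  linarith

end Crest.Agent.R166.PA
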