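import Crest.Agent.R166.A.Mom
import Crest.Agent.R166.A.Scale
import Crest.Agent.R166.A.Init

/-! # Part A: the bootstrap in the height -/

set_option autoImplicit false
set_option linter.unusedVariables false
set_option linter.unusedSectionVars false

open MeasureTheory ProbabilityTheory Filter Topology Matrix
open scoped ENNReal BoundedContinuousFunction

namespace Crest.Agent.R166.PA

/-- the deterministic part -/
theorem boot_det {f : ℝ → ℝ} {η₁ a δ L : ℝ} {N : ℕ} (h1 : 0 < η₁) (ha : 0 < a) (hL : 0 < L)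
    (hN : η₁ / L < (1 + a) ^ (N + 1))
    (hf : ∀ η η', 0 < η → η ≤ η' → η' ≤ η₁ → η' ≤ (1 + a) * η → f η ≤ f η' + δ / 2)
    (h0 : f η₁ ≤ δ / 2)
    (hw : ∀ i ∈ Finset.range (N + 1), ¬ (δ / 2 < f (η₁ / (1 + a) ^ i) ∧ f (η₁ / (1 + a) ^ i) ≤ δ))
    {η : ℝ} (hη : L ≤ η) (hη' : η ≤ η₁) : f η ≤ δ := by
  have ha1 : 1 < 1 + a := by linarith
  have hη0 : 0 < η := hL.trans_le hη
  have hle : ∀ i : ℕ, η₁ / (1 + a) ^ i ≤ η₁ := fun i => div_le_self h1.le (one_le_pow₀ ha1.le)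
  have key : ∀ i : ℕ, i < N + 1 → f (η₁ / (1 + a) ^ i) ≤ δ / 2 := by
    intro i
    induction i with
    | zero => intro _; simpa using h0
    | succ i ih =>
      intro hi
      have h2 := hf (η₁ / (1 + a) ^ (i + 1)) (η₁ / (1 + a) ^ i) (by positivity)
        (div_le_div_of_nonneg_left h1.le (by positivity) (pow_le_pow_right₀ ha1.le (Nat.le_succ i)))
        (hle i) (le_of_eq (by rw [pow_succ]; field_simp))
      by_contra h3
      exact hw (i + 1) (Finset.mem_range.2 hi) ⟨not_le.1 h3, by linarith [ih (by omega)]⟩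
  obtain ⟨i, hi1, hi2⟩ := exists_nat_pow_near ((one_le_div hη0).2 hη') ha1
  have hiN : i < N + 1 := (pow_lt_pow_iff_right₀ ha1).1
    (hi1.trans_lt ((div_le_div_of_nonneg_left h1.le hL hη).trans_lt hN))
  have h2 := hf η (η₁ / (1 + a) ^ i) hη0
    (by rw [le_div_iff₀ (by positivity), mul_comm]; exact (le_div_iff₀ hη0).1 hi1) (hle i)
    (by
      rw [div_le_iff₀ (by positivity)]
      rw [div_lt_iff₀ hη0, pow_succ] at hi2
      linarith)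
  linarith [key i hiN]

/-- `δ = min δ₀ δ₁`; `a > 0` with `C_scale (a + C₀ a) ≤ δ/2`; heights `θ_i = η₁ / (1+a)^i`.  If `sB θ₀ ≤ δ/2` and no `θ_i ≥ K₀/n`
has `sB θ_i ∈ (δ/2, δ]`, then by induction `sB θ_i ≤ δ/2` for these `i` (`scale_stB`, Lipschitz part of `Band`), and every
`η ∈ [K₀/n, η₁]` lies in some `[θ_{i+1}, θ_i]`.  Failure: `init` (with `δ/2`) plus
`∑_{θ_i ≥ K₀/n} C₂/(n θ_i) ≤ C₂ (1+a)/(a K₀)` (`mom_window`, geometric sum).  `s₀ ≤ 1`, `C₁ s₀² ≤ δ`. -/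
theorem boot {D : ℕ} (hD : 2 ≤ D) {κ c₀ η₁ C₀ : ℝ} (hb : Band D κ c₀ η₁ C₀) {δ₀ : ℝ} (hδ : 0 < δ₀) :
    ∃ s₀ : ℝ, 0 < s₀ ∧ ∀ ε : ℝ, 0 < ε → ∃ K₀ : ℝ, 0 < K₀ ∧ ∀ᶠ n in atTop, ∀ s : ℝ, |s| ≤ s₀ →
      ∀ E : ℝ, E ^ 2 ≤ 4 * D - κ → ∀ ω : Fin n → J,
        (frac fun π : Pairing n D => ∃ η : ℝ, K₀ / n ≤ η ∧ η ≤ η₁ ∧ δ₀ < sB s ω E η π) ≤ ε := by
  obtain ⟨hc, h1, h1', hC, hb'⟩ := id hb
  obtain ⟨δ₁, C₁, hδ₁, hC₁, hw⟩ := mom_window hD hc
  obtain ⟨δ, hδ0, hδ1, hδ2⟩ : ∃ δ : ℝ, 0 < δ ∧ δ ≤ δ₀ ∧ δ ≤ δ₁ :=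
    ⟨min δ₀ δ₁, lt_min hδ hδ₁, min_le_left _ _, min_le_right _ _⟩
  obtain ⟨C₂, hC₂, hw⟩ := hw δ hδ0 hδ2
  obtain ⟨C, hC0, hsc⟩ := scale_stB hc
  obtain ⟨s₁, hs₁, hin⟩ := init hD hb (half_pos hδ0)
  obtain ⟨a, ha, ha'⟩ : ∃ a : ℝ, 0 < a ∧ C * (a + C₀ * a) = δ / 2 :=
    ⟨δ / 2 / (C * (1 + C₀)), by positivity, by field_simp⟩
  have ha1 : 1 < 1 + a := by linarith
  have hD' : (2 : ℝ) ≤ D := by exact_mod_cast hD
  refine ⟨min s₁ (min 1 (δ / C₁)), by positivity, fun ε hε => ?_⟩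
  obtain ⟨K₀, hK, hK'⟩ : ∃ K₀ : ℝ, 0 < K₀ ∧ C₂ * (1 + a) / (a * K₀) = ε / 2 :=
    ⟨2 * C₂ * (1 + a) / (a * ε), by positivity, by field_simp⟩
  refine ⟨K₀, hK, ?_⟩
  filter_upwards [hin (ε / 2) (half_pos hε), eventually_gt_atTop 0,
    tendsto_natCast_atTop_atTop.eventually_ge_atTop (K₀ / η₁)] with n hin hn hn' s hs E hE ω
  have hn0 : (0 : ℝ) < n := by exact_mod_cast hn
  have hs1 : |s| ≤ 1 := hs.trans ((min_le_right _ _).trans (min_le_left _ _))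
  have hs2 : C₁ * s ^ 2 ≤ δ := by
    have h2 : |s| ≤ δ / C₁ := hs.trans ((min_le_right _ _).trans (min_le_right _ _))
    rw [le_div_iff₀ hC₁] at h2
    have h3 : s ^ 2 ≤ |s| := by rw [← sq_abs]; nlinarith [abs_nonneg s]
    nlinarith
  have hL : 0 < K₀ / n := by positivity
  obtain ⟨N, hN1, hN2⟩ := exists_nat_pow_near (x := η₁ / (K₀ / n))
    (by rw [one_le_div hL, div_le_iff₀ hn0]; rw [div_le_iff₀ h1] at hn'; linarith) ha1
  have hR := (hb' E hE).2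
  have hm : ∀ η, 0 < η → η ≤ η₁ → ‖mz D (E + η * Complex.I)‖ ≤ 1 := fun η h2 h3 => by
    have := (hR η h2 h3).1.nsq
    nlinarith [norm_nonneg (mz D (E + η * Complex.I))]
  have hf : ∀ (π : Pairing n D) (η η' : ℝ), 0 < η → η ≤ η' → η' ≤ η₁ → η' ≤ (1 + a) * η →
      sB s ω E η π ≤ sB s ω E η' π + δ / 2 := fun π η η' h2 h3 h4 h5 => by
    have h6 : |η - η'| ≤ a * η := by rw [abs_sub_comm, abs_of_nonneg (by linarith)]; linarith
    have h7 := hsc n D s ω E η η' a _ _ h2 (by linarith) (by linarith) (by linarith) h6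
      (h6.trans (mul_le_mul_of_nonneg_left h3 ha.le)) (hR η h2 (by linarith)).1.mim
      (hR η' (by linarith) h4).1.mim (hm η h2 (by linarith)) (hm η' (by linarith) h4) π
    have h8 := ((hR η h2 (by linarith)).2.2 η' (by linarith) h4).trans
      (mul_le_mul_of_nonneg_left (h6.trans (mul_le_of_le_one_right ha.le (by linarith))) hC)
    have h9 := mul_le_mul_of_nonneg_left (add_le_add_right h8 a) hC0.le
    unfold sB
    linarith [(abs_le.1 h7).2]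
  refine (frac_mono (Q := fun π : Pairing n D => δ / 2 < sB s ω E η₁ π ∨ ∃ i ∈ Finset.range (N + 1),
    δ / 2 < sB s ω E (η₁ / (1 + a) ^ i) π ∧ sB s ω E (η₁ / (1 + a) ^ i) π ≤ δ) ?_).trans ?_
  · rintro π ⟨η, h2, h3, h4⟩
    by_contra h5
    rw [not_or] at h5
    have := boot_det (f := fun η => sB s ω E η π) h1 ha hL hN2 (hf π) (not_lt.1 h5.1)
      (fun i hi h => h5.2 ⟨i, hi, h⟩) h2 h3
    linarith
  refine (frac_or_le _ _).trans ?_
  have h2 := hin s (hs.trans (min_le_left _ _)) E hE ω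
  have h3 : (frac fun π : Pairing n D => ∃ i ∈ Finset.range (N + 1),
      δ / 2 < sB s ω E (η₁ / (1 + a) ^ i) π ∧ sB s ω E (η₁ / (1 + a) ^ i) π ≤ δ) ≤
      ∑ i ∈ Finset.range (N + 1), C₂ / (n * η₁) * (1 + a) ^ i := by
    refine (frac_exists_le _ _).trans (Finset.sum_le_sum fun i _ => ?_)
    have h4 : 0 < η₁ / (1 + a) ^ i := by positivity
    have h5 : η₁ / (1 + a) ^ i ≤ η₁ := div_le_self h1.le (one_le_pow₀ ha1.le)
    have h6 : ((E : ℂ) + ((η₁ / (1 + a) ^ i : ℝ) : ℂ) * Complex.I).im = η₁ / (1 + a) ^ i := by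
      rw [Complex.add_im, Complex.ofReal_im, Complex.mul_I_im, Complex.ofReal_re, zero_add]
    refine (hw n hn s ω _ _ hs1 (hR _ h4 h5).1 (by rwa [h6]) (by rw [h6]; linarith) hs2).trans
      (le_of_eq ?_)
    rw [h6]
    field_simp
  rw [← Finset.mul_sum, geom_sum_eq ha1.ne', add_sub_cancel_left] at h3
  have h4 : ((1 + a) ^ (N + 1) - 1) / a ≤ η₁ / (K₀ / n) * (1 + a) / a := by
    refine div_le_div_of_nonneg_right ?_ ha.le
    rw [pow_succ]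
    linarith [mul_le_mul_of_nonneg_right hN1 (by linarith : 0 ≤ 1 + a)]
  have h5 := mul_le_mul_of_nonneg_left h4 (by positivity : 0 ≤ C₂ / (n * η₁))
  have h6 : C₂ / (n * η₁) * (η₁ / (K₀ / n) * (1 + a) / a) = C₂ * (1 + a) / (a * K₀) := by
    field_simp
  linarith

end Crest.Agent.R166.PA
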