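import Crest.Agent.R166.A.Loc

/-! # Part A: the `2 × 2` algebra of an edge

Write `𝐆`, `𝐒` for the blocks of `B⁻¹`, `(B - Jm m x y)⁻¹` on `two x y` and `𝐉 = !![m, 1; 1, m]`.  By
`Dis.inv_sub_inv` and `mul_Jm_mul` (no need for `x ≠ y`): `𝐒 - 𝐆 = 𝐒 𝐉 𝐆`. -/

set_option autoImplicit false
set_option linter.unusedVariables false
set_option linter.unusedSectionVars false

open MeasureTheory ProbabilityTheory Filter Topology Matrix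
open scoped ENNReal BoundedContinuousFunction

namespace Crest.Agent.R166.PA

theorem Edge_im_pos {T : ℝ} (hT : 1 ≤ T) {M : ℂ} (h : InK T M) : 0 < M.im :=
  lt_of_lt_of_le (by positivity) h.1

theorem Edge_ne {m m' : ℂ} (hm : 0 < m.im) (hm' : 0 < m'.im) : 1 - m * m' ≠ 0 := by
  intro h
  have h0 : m ≠ 0 := fun h0 => by simp [h0] at hm
  have h1 : m' = m⁻¹ := eq_inv_of_mul_eq_one_right (sub_eq_zero.1 h).symm
  rw [h1, Complex.inv_im] at hm'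
  have := div_nonneg hm.le (Complex.normSq_nonneg m)
  rw [neg_div] at hm'
  linarith

theorem Edge_neg_inv {T : ℝ} (hT : 1 ≤ T) {M₁ M₂ : ℂ} (h₁ : InK T M₁) (h₂ : InK T M₂) :
    -1 / gE M₁ M₂ 0 0 = M₂ - M₁⁻¹ ∧ 1 / T ≤ (M₂ - M₁⁻¹).im ∧ ‖M₂ - M₁⁻¹‖ ≤ 2 * T ∧
      1 / T ≤ ‖M₁‖ := by
  have p1 := Edge_im_pos hT h₁
  have h0 : M₁ ≠ 0 := fun h0 => by simp [h0] at p1
  have n3 := Edge_ne p1 (Edge_im_pos hT h₂)
  have h3 : 1 / T ≤ ‖M₁‖ := h₁.1.trans ((le_abs_self _).trans (Complex.abs_im_le_norm _))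
  refine ⟨?_, ?_, ?_, h3⟩
  · simp only [gE, if_true]
    field_simp
    ring
  · rw [Complex.sub_im, Complex.inv_im, neg_div]
    linarith [div_nonneg p1.le (Complex.normSq_nonneg M₁), h₂.1]
  · have h4 : ‖M₁⁻¹‖ ≤ T := by
      rw [norm_inv]
      exact inv_le_of_inv_le₀ (by positivity) (by rwa [one_div] at h3)
    linarith [norm_sub_le M₂ M₁⁻¹, h₂.2]

theorem Edge_zz {T : ℝ} (hT : 1 ≤ T) {M₁ M₂ : ℂ} (h₁ : InK T M₁) (h₂ : InK T M₂) :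
    1 / (2 * T) ≤ ‖gE M₁ M₂ 0 0‖ ∧ ‖gE M₁ M₂ 0 0‖ ≤ T ∧ 1 / T ≤ (-1 / gE M₁ M₂ 0 0).im := by
  obtain ⟨a1, a2, a3, -⟩ := Edge_neg_inv hT h₁ h₂
  have a4 : 1 / T ≤ ‖M₂ - M₁⁻¹‖ := a2.trans ((le_abs_self _).trans (Complex.abs_im_le_norm _))
  have a5 : ‖gE M₁ M₂ 0 0‖ = ‖M₂ - M₁⁻¹‖⁻¹ := by
    rw [← a1]; simp
  have a6 : 0 < 1 / T := by positivity
  refine ⟨?_, ?_, a1 ▸ a2⟩
  · rw [a5, one_div]
    exact inv_anti₀ (a6.trans_le a4) a3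
  · rw [a5]
    exact inv_le_of_inv_le₀ (by positivity) (by rwa [one_div] at a4)

theorem Edge_gE_le {T : ℝ} (hT : 1 ≤ T) {M₁ M₂ : ℂ} (h₁ : InK T M₁) (h₂ : InK T M₂) (b c : Fin 2) :
    ‖gE M₁ M₂ b c‖ ≤ T ^ 2 := by
  have a1 := (Edge_zz hT h₁ h₂).2.1
  have a2 := (Edge_zz hT h₂ h₁).2.1
  have a3 : ‖-(M₁ * M₂) / (1 - M₁ * M₂)‖ ≤ T ^ 2 := by
    have e : -(M₁ * M₂) / (1 - M₁ * M₂) = -(gE M₁ M₂ 0 0 * M₂) := by
      simp only [gE, if_true]; ring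
    rw [e, norm_neg, norm_mul, sq]
    exact mul_le_mul a1 h₂.2 (norm_nonneg _) (by positivity)
  have a4 : T ≤ T ^ 2 := by nlinarith
  fin_cases b <;> fin_cases c
  · exact a1.trans a4
  · exact a3
  · exact a3
  · refine le_trans (le_of_eq ?_) (a2.trans a4)
    simp [gE, mul_comm]

theorem Edge_solve {T R : ℝ} (hT : 1 ≤ T) {M₁ M₂ m U V r₁ r₂ : ℂ} (h₁ : InK T M₁) (h₂ : InK T M₂)
    (hm : ‖m‖ ≤ 1) (e1 : U + M₁ * V = (1 - m * M₁) * r₁) (e2 : M₂ * U + V = (1 - m * M₂) * r₂)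
    (hr1 : ‖r₁‖ ≤ R) (hr2 : ‖r₂‖ ≤ R) : ‖U‖ ≤ 4 * T ^ 4 * R := by
  obtain ⟨-, a2, -, a4⟩ := Edge_neg_inv hT h₁ h₂
  have hT0 : 0 < T := by positivity
  have hR : 0 ≤ R := (norm_nonneg _).trans hr1
  have h0 : M₁ ≠ 0 := norm_pos_iff.1 (lt_of_lt_of_le (by positivity) a4)
  have a5 : 1 / T ≤ ‖M₂ - M₁⁻¹‖ := a2.trans ((le_abs_self _).trans (Complex.abs_im_le_norm _))
  have a6 : 1 / T * (1 / T) ≤ ‖1 - M₁ * M₂‖ := by
    have e : 1 - M₁ * M₂ = -(M₁ * (M₂ - M₁⁻¹)) := by field_simp; ring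
    rw [e, norm_neg, norm_mul]
    exact mul_le_mul a4 a5 (by positivity) (norm_nonneg _)
  have b : ∀ M : ℂ, ‖M‖ ≤ T → ‖1 - m * M‖ ≤ 1 + T := fun M hM => by
    refine (norm_sub_le _ _).trans ?_
    rw [norm_one, norm_mul]
    nlinarith [norm_nonneg m, norm_nonneg M]
  have e : (1 - M₁ * M₂) * U = (1 - m * M₁) * r₁ - M₁ * ((1 - m * M₂) * r₂) := by
    rw [← e1, ← e2]; ring
  have c1 : ‖(1 - M₁ * M₂) * U‖ ≤ (1 + T) * R + T * ((1 + T) * R) := by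
    rw [e]
    refine (norm_sub_le _ _).trans ?_
    rw [norm_mul, norm_mul, norm_mul]
    have := b M₁ h₁.2
    have := b M₂ h₂.2
    have := h₁.2
    gcongr
  rw [norm_mul] at c1
  have c2 := (mul_le_mul_of_nonneg_right a6 (norm_nonneg U)).trans c1
  have c3 : ‖U‖ = T ^ 2 * (1 / T * (1 / T) * ‖U‖) := by field_simp
  have c4 : (1 + T) * R + T * ((1 + T) * R) ≤ 4 * T ^ 2 * R := by
    nlinarith [mul_le_mul_of_nonneg_right (by nlinarith : (1 + T) * (1 + T) ≤ 4 * T ^ 2) hR]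
  calc ‖U‖ = T ^ 2 * (1 / T * (1 / T) * ‖U‖) := c3
    _ ≤ T ^ 2 * (4 * T ^ 2 * R) := mul_le_mul_of_nonneg_left (c2.trans c4) (by positivity)
    _ = _ := by ring

theorem Edge_col {T ε : ℝ} (hT : 1 ≤ T) {M₁ M₂ m a d t u v s₁ s₂ u' v' s₁' s₂' : ℂ} (h₁ : InK T M₁)
    (h₂ : InK T M₂) (hm : ‖m‖ ≤ 1) (n1 : 1 - m * M₁ ≠ 0) (n2 : 1 - m * M₂ ≠ 0)
    (hε : ε ≤ 1 / (32 * T ^ 4)) (e1 : s₁ - u = a * (v + m * u) + t * (u + m * v))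
    (e2 : s₂ - v = t * (v + m * u) + d * (u + m * v)) (f1 : u' + M₁ * v' = (1 - m * M₁) * s₁')
    (f2 : M₂ * u' + v' = (1 - m * M₂) * s₂') (hu : ‖u'‖ ≤ T ^ 2) (hv : ‖v'‖ ≤ T ^ 2)
    (g1 : ‖s₁ - s₁'‖ ≤ ε) (g2 : ‖s₂ - s₂'‖ ≤ ε) (ha : ‖a - nOf m M₁‖ ≤ ε) (hd : ‖d - nOf m M₂‖ ≤ ε)
    (ht : ‖t‖ ≤ ε) : ‖u - u'‖ ≤ 80 * T ^ 6 * ε ∧ ‖v - v'‖ ≤ 80 * T ^ 6 * ε := by
  have hε0 : 0 ≤ ε := (norm_nonneg _).trans ht
  set W := ‖u - u'‖ + ‖v - v'‖ with hW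
  have b1 : ‖u‖ + ‖v‖ ≤ 2 * T ^ 2 + W := by
    linarith [norm_le_insert' u u', norm_le_insert' v v']
  have b2 : ∀ p q : ℂ, ‖p + m * q‖ ≤ ‖p‖ + ‖q‖ := fun p q => by
    refine (norm_add_le _ _).trans ?_
    rw [norm_mul]
    nlinarith [norm_nonneg q]
  have b3 : ∀ s p q : ℂ, ‖s‖ ≤ ε → ‖p‖ ≤ ε → ‖q‖ ≤ ε →
      ‖s - p * (v + m * u) - q * (u + m * v)‖ ≤ ε * (1 + 2 * (2 * T ^ 2 + W)) := fun s p q a b c => by
    refine (norm_sub_le _ _).trans ((add_le_add (norm_sub_le _ _) le_rfl).trans ?_)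
    rw [norm_mul, norm_mul]
    have c1 := mul_le_mul b ((b2 v u).trans ((add_comm _ _).le.trans b1)) (norm_nonneg _) hε0
    have c2 := mul_le_mul c ((b2 u v).trans b1) (norm_nonneg _) hε0
    linarith
  have q1 : u - u' + M₁ * (v - v') =
      (1 - m * M₁) * (s₁ - s₁' - (a - nOf m M₁) * (v + m * u) - t * (u + m * v)) := by
    have : (1 - m * M₁) * nOf m M₁ = M₁ := mul_div_cancel₀ _ n1
    linear_combination (-(1 - m * M₁)) * e1 - f1 - (v + m * u) * this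
  have q2 : M₂ * (u - u') + (v - v') =
      (1 - m * M₂) * (s₂ - s₂' - t * (v + m * u) - (d - nOf m M₂) * (u + m * v)) := by
    have : (1 - m * M₂) * nOf m M₂ = M₂ := mul_div_cancel₀ _ n2
    linear_combination (-(1 - m * M₂)) * e2 - f2 - (u + m * v) * this
  have r1 := Edge_solve hT h₁ h₂ hm q1 q2 (b3 _ _ _ g1 ha ht) (b3 _ _ _ g2 ht hd)
  have r2 := Edge_solve hT h₂ h₁ hm ((add_comm _ _).trans q2) ((add_comm _ _).trans q1)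
    (b3 _ _ _ g2 ht hd) (b3 _ _ _ g1 ha ht)
  have hW0 : 0 ≤ W := by positivity
  have s1 : 32 * T ^ 4 * ε ≤ 1 := by
    rwa [le_div_iff₀' (by positivity)] at hε
  have s2 := mul_le_mul_of_nonneg_right s1 hW0
  have s3 : T ^ 4 * ε ≤ T ^ 6 * ε :=
    mul_le_mul_of_nonneg_right (pow_le_pow_right₀ hT (by norm_num)) hε0
  have s4 : W ≤ 80 * T ^ 6 * ε := by nlinarith
  constructor <;> linarith [norm_nonneg (u - u'), norm_nonneg (v - v')]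

theorem Edge_eq {n : ℕ} {η : ℝ} {B : Matrix (Fin n) (Fin n) ℂ} (hB : Dis η B) (hη : 0 < η) {m : ℂ}
    (hm : 0 ≤ m.im) (x y q p : Fin n) : (B - Jm m x y)⁻¹ q p - B⁻¹ q p =
      (B - Jm m x y)⁻¹ q x * (B⁻¹ y p + m * B⁻¹ x p) +
        (B - Jm m x y)⁻¹ q y * (B⁻¹ x p + m * B⁻¹ y p) := by
  rw [← mul_Jm_mul, ← Matrix.sub_apply, hB.inv_sub_inv hη (hB.sub_Jm hm x y) hη, sub_sub_cancel]

theorem Edge_den {m : ℂ} (hm2 : ‖m‖ ^ 2 ≤ 1 / 2) : 1 / 2 ≤ ‖1 - m * m‖ ∧ ‖m‖ ≤ 3 / 4 := by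
  refine ⟨?_, by nlinarith [norm_nonneg m]⟩
  have := norm_sub_norm_le 1 (m * m)
  rw [norm_one, norm_mul] at this
  nlinarith

/-- `(1 + 𝐒𝐉) 𝐆 = 𝐒`; for `𝐒₀ = diag (nOf m M₁, nOf m M₂)` one has `(1 + 𝐒₀𝐉) gE M₁ M₂ = 𝐒₀` and
`det (1 + 𝐒₀𝐉) = (1 - M₁M₂)/((1 - mM₁)(1 - mM₂))`, of norm `≥ T⁻²(1+T)⁻²` (`‖1 - M₁M₂‖ = ‖M₁‖‖1/M₁ - M₂‖`).
Solve the two `2 × 2` systems by Cramer. -/
theorem edge_fwd {μ T : ℝ} (hμ : 0 < μ) (hT : 1 ≤ T) : ∃ C ε₀ : ℝ, 0 < C ∧ 0 < ε₀ ∧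
    ∀ (n : ℕ) (η : ℝ) (B : Matrix (Fin n) (Fin n) ℂ), Dis η B → 0 < η → ∀ m : ℂ, μ ≤ m.im → ‖m‖ ≤ 1 →
      ∀ (x y : Fin n) (M₁ M₂ : ℂ), InK T M₁ → InK T M₂ → ∀ ε : ℝ, ε ≤ ε₀ →
        ‖(B - Jm m x y)⁻¹ x x - nOf m M₁‖ ≤ ε → ‖(B - Jm m x y)⁻¹ y y - nOf m M₂‖ ≤ ε →
        ‖(B - Jm m x y)⁻¹ x y‖ ≤ ε →
        ∀ b c, ‖B⁻¹ (two x y b) (two x y c) - gE M₁ M₂ b c‖ ≤ C * ε := by
  refine ⟨80 * T ^ 6, 1 / (32 * T ^ 4), by positivity, by positivity, ?_⟩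
  intro n η B hB hη m hm hm1 x y M₁ M₂ h₁ h₂ ε hε ha hd ht b c
  have hm0 : 0 < m.im := hμ.trans_le hm
  have hS := hB.sub_Jm hm0.le x y
  have n1 := Edge_ne hm0 (Edge_im_pos hT h₁)
  have n2 := Edge_ne hm0 (Edge_im_pos hT h₂)
  have n3 := Edge_ne (Edge_im_pos hT h₁) (Edge_im_pos hT h₂)
  have e := Edge_eq hB hη hm0.le x y
  have ht' := hS.inv_symm y x
  have hb := Edge_gE_le hT h₁ h₂
  have k0 := Edge_col hT h₁ h₂ hm1 n1 n2 hε (e x x) (ht' ▸ e y x) (s₁' := nOf m M₁) (s₂' := 0)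
    (u' := M₁ / (1 - M₁ * M₂)) (v' := -(M₁ * M₂) / (1 - M₁ * M₂))
    (by rw [nOf, mul_div_cancel₀ _ n1, ← mul_div_assoc, ← add_div, div_eq_iff n3]; ring)
    (by ring) (hb 0 0) (hb 1 0) ha (by simpa using ht) ha hd ht
  have k1 := Edge_col hT h₁ h₂ hm1 n1 n2 hε (e x y) (ht' ▸ e y y) (s₁' := 0) (s₂' := nOf m M₂)
    (u' := -(M₁ * M₂) / (1 - M₁ * M₂)) (v' := M₂ / (1 - M₁ * M₂)) (by ring)
    (by rw [nOf, mul_div_cancel₀ _ n2, ← mul_div_assoc, ← add_div, div_eq_iff n3]; ring)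
    (hb 0 1) (hb 1 1) (by simpa using ht) hd ha hd ht
  fin_cases b <;> fin_cases c
  · exact k0.1
  · exact k1.1
  · exact k0.2
  · exact k1.2

/-- `𝐆₀ = gE m m`, `𝐒₀ = nOf m m • 1`, `𝐉𝐆₀ = m σ`:
`(𝐒 - 𝐒₀)(1 - mσ) = (𝐆 - 𝐆₀) + 𝐒𝐉(𝐆 - 𝐆₀)`, `(1 - mσ)⁻¹ = (1 + mσ)/(1 - m²)`, `‖𝐒 b c‖ ≤ 1/μ`. -/
theorem edge_bwd {μ : ℝ} (hμ : 0 < μ) : ∃ C : ℝ, 0 < C ∧
    ∀ (n : ℕ) (η : ℝ) (B : Matrix (Fin n) (Fin n) ℂ), Dis η B → 0 < η → ∀ m : ℂ, μ ≤ m.im →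
      ‖m‖ ^ 2 ≤ 1 / 2 → ∀ (x y : Fin n) (ε : ℝ),
        (∀ b c, ‖B⁻¹ (two x y b) (two x y c) - gE m m b c‖ ≤ ε) →
        ‖(B - Jm m x y)⁻¹ x x - nOf m m‖ ≤ C * ε := by
  refine ⟨4 * (1 + 4 / μ), by positivity, ?_⟩
  intro n η B hB hη m hm hm2 x y ε h
  have hm0 : 0 < m.im := hμ.trans_le hm
  have hS := hB.sub_Jm hm0.le x y
  obtain ⟨d1, d2⟩ := Edge_den hm2
  have n1 : 1 - m * m ≠ 0 := norm_pos_iff.1 (by linarith)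
  have px := hB.port_left hη.le hμ.le hm x y
  have py := hB.port_right hη.le hμ.le hm x y
  have ha := hS.port_norm hη hμ px px
  have ht := hS.port_norm hη hμ py px
  have e1 := Edge_eq hB hη hm0.le x y x x
  have e2 := Edge_eq hB hη hm0.le x y x y
  have h00 : ‖B⁻¹ x x - m / (1 - m * m)‖ ≤ ε := h 0 0
  have h01 : ‖B⁻¹ x y - -(m * m) / (1 - m * m)‖ ≤ ε := h 0 1
  have h10 : ‖B⁻¹ y x - -(m * m) / (1 - m * m)‖ ≤ ε := h 1 0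
  have h11 : ‖B⁻¹ y y - m / (1 - m * m)‖ ≤ ε := h 1 1
  have hε0 : 0 ≤ ε := (norm_nonneg _).trans h00
  set a := (B - Jm m x y)⁻¹ x x
  set t := (B - Jm m x y)⁻¹ x y
  have b2 : ∀ p q : ℂ, ‖p‖ ≤ ε → ‖q‖ ≤ ε → ‖p + m * q‖ ≤ 2 * ε := fun p q hp hq => by
    refine (norm_add_le _ _).trans ?_
    rw [norm_mul]
    nlinarith [norm_nonneg q, norm_nonneg m]
  have b3 : ∀ s p q : ℂ, ‖s‖ ≤ ε → ‖p‖ ≤ 2 * ε → ‖q‖ ≤ 2 * ε →
      ‖s + (a * p + t * q)‖ ≤ (1 + 4 / μ) * ε := fun s p q hs hp hq => by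
    refine (norm_add_le _ _).trans ((add_le_add le_rfl (norm_add_le _ _)).trans ?_)
    rw [norm_mul, norm_mul]
    have c1 := mul_le_mul ha hp (norm_nonneg _) (by positivity)
    have c2 := mul_le_mul ht hq (norm_nonneg _) (by positivity)
    have : (1 + 4 / μ) * ε = ε + (1 / μ * (2 * ε) + 1 / μ * (2 * ε)) := by ring
    linarith
  have r1 := b3 _ _ _ h00 (b2 _ _ h10 h00) (b2 _ _ h00 h10)
  have r2 := b3 _ _ _ h01 (b2 _ _ h11 h01) (b2 _ _ h01 h11)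
  set ρ₁ := B⁻¹ x x - m / (1 - m * m) + _
  set ρ₂ := B⁻¹ x y - -(m * m) / (1 - m * m) + _
  have e : (1 - m * m) * (a - nOf m m) = ρ₁ + m * ρ₂ := by
    have k : (1 - m * m) * (1 - m * m)⁻¹ = 1 := mul_inv_cancel₀ n1
    simp only [ρ₁, ρ₂, nOf, div_eq_mul_inv]
    linear_combination e1 + m * e2 + (t * m + a * m ^ 2) * k
  have c := congrArg norm e
  rw [norm_mul] at c
  have c1 := norm_add_le ρ₁ (m * ρ₂)
  rw [norm_mul] at c1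
  nlinarith [norm_nonneg (a - nOf m m), norm_nonneg ρ₂, norm_nonneg m]

theorem gE_lip : ∃ C : ℝ, 0 < C ∧ ∀ (m M₁ M₂ : ℂ) (ε : ℝ), ‖m‖ ^ 2 ≤ 1 / 2 → ε ≤ 1 / 10 →
    ‖M₁ - m‖ ≤ ε → ‖M₂ - m‖ ≤ ε → ∀ b c, ‖gE M₁ M₂ b c - gE m m b c‖ ≤ C * ε := by
  refine ⟨40, by norm_num, fun m M₁ M₂ ε hm2 hε h₁ h₂ b c => ?_⟩
  obtain ⟨d1, d2⟩ := Edge_den hm2
  have hε0 : 0 ≤ ε := (norm_nonneg _).trans h₁
  have a1 : ‖M₁‖ ≤ 17 / 20 := by linarith [norm_le_insert' M₁ m]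
  have a2 : ‖M₂‖ ≤ 17 / 20 := by linarith [norm_le_insert' M₂ m]
  have a3 : 1 / 4 ≤ ‖1 - M₁ * M₂‖ := by
    have := norm_sub_norm_le 1 (M₁ * M₂)
    rw [norm_one, norm_mul] at this
    nlinarith [norm_nonneg M₁, norm_nonneg M₂]
  have a4 : ‖M₁ * M₂ - m * m‖ ≤ 2 * ε := by
    have e : M₁ * M₂ - m * m = (M₁ - m) * M₂ + m * (M₂ - m) := by ring
    rw [e]
    refine (norm_add_le _ _).trans ?_
    rw [norm_mul, norm_mul]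
    nlinarith [norm_nonneg (M₁ - m), norm_nonneg (M₂ - m), norm_nonneg m, norm_nonneg M₂]
  have a5 : ‖1 - m * m‖ ≤ 3 / 2 := by
    refine (norm_sub_le _ _).trans ?_
    rw [norm_one, norm_mul]
    nlinarith
  have key : ∀ p p' : ℂ, ‖p - p'‖ ≤ 2 * ε → ‖p'‖ ≤ 1 →
      ‖p / (1 - M₁ * M₂) - p' / (1 - m * m)‖ ≤ 40 * ε := fun p p' hp hp' => by
    have n1 : 1 - m * m ≠ 0 := norm_pos_iff.1 (by linarith)
    have n2 : 1 - M₁ * M₂ ≠ 0 := norm_pos_iff.1 (by linarith)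
    have e : p / (1 - M₁ * M₂) - p' / (1 - m * m) =
        ((p - p') * (1 - m * m) + p' * (M₁ * M₂ - m * m)) / ((1 - M₁ * M₂) * (1 - m * m)) := by
      rw [div_sub_div _ _ n2 n1]; congr 1; ring
    rw [e, norm_div, norm_mul, div_le_iff₀ (by positivity)]
    refine (norm_add_le _ _).trans ?_
    rw [norm_mul, norm_mul]
    have c1 := mul_le_mul hp a5 (norm_nonneg _) (by positivity)
    have c2 := mul_le_mul hp' a4 (norm_nonneg _) (by positivity)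
    have c3 := mul_le_mul_of_nonneg_left (mul_le_mul a3 d1 (by norm_num) (norm_nonneg _)) hε0
    linarith
  have a6 : ‖-(M₁ * M₂) - -(m * m)‖ ≤ 2 * ε := by rwa [neg_sub_neg, norm_sub_rev]
  have a7 : ‖-(m * m)‖ ≤ 1 := by rw [norm_neg, norm_mul]; nlinarith
  fin_cases b <;> fin_cases c
  · exact key M₁ m (by linarith) (by linarith)
  · exact key _ _ a6 a7
  · exact key _ _ a6 a7
  · exact key M₂ m (by linarith) (by linarith)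

theorem norm_gE_ref_le {m : ℂ} (hm2 : ‖m‖ ^ 2 ≤ 1 / 2) (b c : Fin 2) : ‖gE m m b c‖ ≤ 2 := by
  obtain ⟨d1, d2⟩ := Edge_den hm2
  rw [gE, norm_div, div_le_iff₀ (by linarith)]
  split_ifs
  · linarith
  · linarith
  · rw [norm_neg, norm_mul]; nlinarith

/-- `gE m m` has eigenvectors `(1, ±1)` and eigenvalues `m / (1 ± m)`, of imaginary part
`Im m / ‖1 ± m‖² ≥ μ/4`; a perturbation of size `δ ≤ μ/16` costs `2δ` -/
theorem im_form_ge {μ δ : ℝ} {m : ℂ} (hμ : 0 < μ) (hm : μ ≤ m.im) (hm2 : ‖m‖ ^ 2 ≤ 1 / 2)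
    (hδ : δ ≤ μ / 16) {G : Fin 2 → Fin 2 → ℂ} (hG : ∀ b c, ‖G b c - gE m m b c‖ ≤ δ)
    (γ : Fin 2 → ℂ) :
    μ / 8 * ∑ i, ‖γ i‖ ^ 2 ≤
      (∑ i, ∑ k, (starRingEnd ℂ) (γ i) * ((G i k).im : ℂ) * γ k).re := by
  obtain ⟨d1, d2⟩ := Edge_den hm2
  have n1 : 1 - m * m ≠ 0 := norm_pos_iff.1 (by linarith)
  have n2 : 1 - m ≠ 0 := fun h => n1 (by linear_combination (1 + m) * h)
  have n3 : 1 + m ≠ 0 := fun h => n1 (by linear_combination (1 - m) * h)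
  have k : ∀ w : ℂ, w ≠ 0 → ‖w‖ ≤ 2 → w.im = -m.im → μ / 4 ≤ (w⁻¹).im := fun w h0 h1 h2 => by
    rw [Complex.inv_im, h2, neg_neg, le_div_iff₀ (Complex.normSq_pos.2 h0), Complex.normSq_eq_norm_sq]
    nlinarith [norm_nonneg w, mul_le_mul_of_nonneg_left (by nlinarith [norm_nonneg w] : ‖w‖ ^ 2 ≤ 4) hμ.le]
  have k1 := k (1 - m) n2 (by linarith [norm_sub_le 1 m, norm_one (α := ℂ)]) (by simp)
  have k2 := k (-(1 + m)) (neg_ne_zero.2 n3)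
    (by rw [norm_neg]; linarith [norm_add_le 1 m, norm_one (α := ℂ)]) (by simp)
  have e1 : m / (1 - m * m) - -(m * m) / (1 - m * m) = (1 - m)⁻¹ - 1 := by
    have : 1 - m * m = (1 - m) * (1 + m) := by ring
    rw [this]; field_simp; ring
  have e2 : m / (1 - m * m) + -(m * m) / (1 - m * m) = (-(1 + m))⁻¹ + 1 := by
    have : 1 - m * m = (1 - m) * (1 + m) := by ring
    rw [this]; field_simp; ring
  have i1 := congrArg Complex.im e1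
  have i2 := congrArg Complex.im e2
  rw [Complex.sub_im, Complex.sub_im, Complex.one_im] at i1
  rw [Complex.add_im, Complex.add_im, Complex.one_im] at i2
  have g := fun b c => abs_le.1 ((Complex.abs_im_le_norm _).trans (hG b c))
  have g00 : -δ ≤ (G 0 0).im - (m / (1 - m * m)).im := (g 0 0).1
  have g11 : -δ ≤ (G 1 1).im - (m / (1 - m * m)).im := (g 1 1).1
  have g01 : -δ ≤ (G 0 1).im - (-(m * m) / (1 - m * m)).im ∧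
    (G 0 1).im - (-(m * m) / (1 - m * m)).im ≤ δ := g 0 1
  have g10 : -δ ≤ (G 1 0).im - (-(m * m) / (1 - m * m)).im ∧
    (G 1 0).im - (-(m * m) / (1 - m * m)).im ≤ δ := g 1 0
  set p := (m / (1 - m * m)).im
  set q := (-(m * m) / (1 - m * m)).im
  have key : ∀ a c : ℝ, μ / 8 * (a ^ 2 + c ^ 2) ≤
      (G 0 0).im * a ^ 2 + (G 1 1).im * c ^ 2 + ((G 0 1).im + (G 1 0).im) * (a * c) := fun a c => by
    nlinarith [mul_nonneg (by linarith : 0 ≤ 2 * (p - μ / 4 + δ) + ((G 0 1).im + (G 1 0).im))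
        (sq_nonneg (a + c)),
      mul_nonneg (by linarith : 0 ≤ 2 * (p - μ / 4 + δ) - ((G 0 1).im + (G 1 0).im))
        (sq_nonneg (a - c)),
      mul_nonneg (by linarith : 0 ≤ (G 0 0).im - (p - μ / 4 + δ) - μ / 8) (sq_nonneg a),
      mul_nonneg (by linarith : 0 ≤ (G 1 1).im - (p - μ / 4 + δ) - μ / 8) (sq_nonneg c)]
  simp only [Fin.sum_univ_two, ← Complex.normSq_eq_norm_sq, Complex.normSq_apply, Complex.add_re,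
    Complex.mul_re, Complex.mul_im, Complex.conj_re, Complex.conj_im, Complex.ofReal_re,
    Complex.ofReal_im]
  linarith [key (γ 0).re (γ 1).re, key (γ 0).im (γ 1).im]

/-- `gE M₁ M₂ 0 0 = 1 / (1/M₁ - M₂)` -/
theorem gE_zero_zero {T : ℝ} (hT : 1 ≤ T) {M₁ M₂ : ℂ} (h₁ : InK T M₁) (h₂ : InK T M₂) :
    1 / (2 * T) ≤ ‖gE M₁ M₂ 0 0‖ ∧ ‖gE M₁ M₂ 0 0‖ ≤ T ∧ 1 / T ≤ (-1 / gE M₁ M₂ 0 0).im := by
  exact Edge_zz hT h₁ h₂

theorem im_neg_inv_ge {T : ℝ} (hT : 1 ≤ T) {M₁ M₂ g : ℂ} (h₁ : InK T M₁) (h₂ : InK T M₂)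
    (hg : ‖g - gE M₁ M₂ 0 0‖ ≤ 1 / (16 * T ^ 3)) : 1 / (2 * T) ≤ (-1 / g).im := by
  obtain ⟨a1, -, a3⟩ := Edge_zz hT h₁ h₂
  set g₀ := gE M₁ M₂ 0 0
  have hT0 : 0 < T := by positivity
  have b1 : 1 / (16 * T ^ 3) ≤ 1 / (4 * T) :=
    one_div_le_one_div_of_le (by positivity) (by nlinarith [pow_le_pow_right₀ hT (by norm_num : 1 ≤ 3)])
  have b2 : 1 / (4 * T) ≤ ‖g‖ := by
    have := norm_le_insert g g₀
    have e : 1 / (2 * T) = 1 / (4 * T) + 1 / (4 * T) := by field_simp; ring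
    linarith
  have p1 : 0 < ‖g‖ := lt_of_lt_of_le (by positivity) b2
  have p2 : 0 < ‖g₀‖ := lt_of_lt_of_le (by positivity) a1
  have b3 : ‖-1 / g - -1 / g₀‖ ≤ 1 / (2 * T) := by
    have e : -1 / g - -1 / g₀ = (g - g₀) / (g * g₀) := by
      have := norm_pos_iff.1 p1
      have := norm_pos_iff.1 p2
      field_simp; ring
    rw [e, norm_div, norm_mul, div_le_iff₀ (by positivity)]
    refine hg.trans (le_trans (le_of_eq ?_) (mul_le_mul_of_nonneg_left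
      (mul_le_mul b2 a1 (by positivity) p1.le) (by positivity)))
    field_simp; ring
  have b4 := (abs_le.1 ((Complex.abs_im_le_norm _).trans b3)).1
  rw [Complex.sub_im] at b4
  have e : 1 / T = 1 / (2 * T) + 1 / (2 * T) := by field_simp; ring
  linarith

end Crest.Agent.R166.PA
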