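import Crest.Agent.R166.Spec1

/-!
# Row 166, part A: the decoupling predicate `Cpl`, items (a), (b), (c), (e), (f)
-/

set_option autoImplicit false
set_option linter.unusedSectionVars false
open Matrix Finset
open scoped ComplexConjugate

noncomputable section
namespace Crest.Agent.R166

variable {ι : Type} [Fintype ι] [DecidableEq ι]

/-- `η ‖G q‖² = q* (Im G) q` -/
def qf (H : Matrix ι ι ℝ) (z : ℂ) (q : ι → ℂ) : ℝ := z.im * ∑ v, ‖(res H z *ᵥ q) v‖ ^ 2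

/-- the site `y` is `ε`-decoupled from the set `S` -/
def Cpl (H : Matrix ι ι ℝ) (z : ℂ) (S : Finset ι) (y : ι) (ε : ℝ) : Prop :=
  ∀ q : ι → ℂ, (∀ x, x ∉ S → q x = 0) → ‖(res H z *ᵥ q) y‖ ^ 2 ≤ ε * qf H z q

variable {H B : Matrix ι ι ℝ} {z : ℂ} {S : Finset ι}

theorem qf_nonneg (hz : 0 < z.im) (q : ι → ℂ) : 0 ≤ qf H z q :=
  mul_nonneg hz.le (Finset.sum_nonneg fun _ _ => sq_nonneg _)

theorem cpl_swap {G : Matrix ι ι ℂ} (hG : ∀ x y, G x y = G y x) (p q : ι → ℂ) :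
    ∑ x, p x * (G *ᵥ q) x = ∑ x, (G *ᵥ p) x * q x := by
  simp only [Matrix.mulVec, dotProduct, Finset.mul_sum, Finset.sum_mul]
  rw [Finset.sum_comm]
  exact Finset.sum_congr rfl fun x _ => Finset.sum_congr rfl fun y _ => by rw [hG x y]; ring

theorem cpl_conj_cx (B : Matrix ι ι ℝ) (u : ι → ℂ) (x : ι) :
    conj ((cx B *ᵥ u) x) = (cx B *ᵥ fun v => conj (u v)) x := by
  simp [Matrix.mulVec, dotProduct]

theorem cpl_real_form (hB : B.IsSymm) (u : ι → ℂ) :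
    (∑ x, conj ((cx B *ᵥ u) x) * u x).im = 0 := by
  rw [← Complex.conj_eq_iff_im, map_sum]
  simp only [map_mul, Complex.conj_conj]
  simp only [cpl_conj_cx]
  rw [← cpl_swap (G := cx B) (fun x y => by simp [hB.apply x y])]
  exact Finset.sum_congr rfl fun x _ => mul_comm _ _

theorem qf_eq_im (hH : H.IsSymm) (hz : z.im ≠ 0) (q : ι → ℂ) :
    qf H z q = (∑ x, conj (q x) * (res H z *ᵥ q) x).im := by
  set u := res H z *ᵥ q with hu
  have h1 : ∀ x, q x = (cx H *ᵥ u) x - z * u x := by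
    intro x
    have : (cx H - z • (1 : Matrix ι ι ℂ)) *ᵥ u = q := by
      rw [hu, Matrix.mulVec_mulVec, mul_res hH hz, Matrix.one_mulVec]
    rw [← this, Matrix.sub_mulVec, Matrix.smul_mulVec, Matrix.one_mulVec]
    simp
  have h2 : ∑ x, conj (q x) * u x =
      ∑ x, conj ((cx H *ᵥ u) x) * u x - conj z * ((∑ v, ‖u v‖ ^ 2 : ℝ) : ℂ) := by
    push_cast
    rw [Finset.mul_sum, ← Finset.sum_sub_distrib]
    refine Finset.sum_congr rfl fun x _ => ?_
    rw [h1 x, map_sub, map_mul, ← Complex.conj_mul']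
    ring
  rw [h2, Complex.sub_im, cpl_real_form hH, Complex.im_mul_ofReal, Complex.conj_im, qf]
  ring

theorem qf_conj (hH : H.IsSymm) (hz : z.im ≠ 0) (q : ι → ℂ) :
    qf H z (fun x => conj (q x)) = qf H z q := by
  rw [qf_eq_im hH hz, qf_eq_im hH hz, cpl_swap (res_symm' hH z)]
  simp only [Complex.conj_conj]
  congr 1
  exact Finset.sum_congr rfl fun x _ => mul_comm _ _

theorem res_mulVec_single (H : Matrix ι ι ℝ) (z : ℂ) (x y : ι) :
    (res H z *ᵥ Pi.single x 1) y = res H z y x := by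
  simp

theorem qf_single (hH : H.IsSymm) (hz : z.im ≠ 0) (x : ι) :
    qf H z (Pi.single x 1) = (res H z x x).im := by
  rw [qf, ward_diag hH hz]
  simp only [res_mulVec_single]

theorem qf_smul (c : ℂ) (q : ι → ℂ) : qf H z (c • q) = ‖c‖ ^ 2 * qf H z q := by
  simp only [qf, Matrix.mulVec_smul, Pi.smul_apply, smul_eq_mul, norm_mul, mul_pow,
    ← Finset.mul_sum]
  ring

theorem qf_congr {H' : Matrix ι ι ℝ} {q q' : ι → ℂ} (h : res H' z *ᵥ q' = res H z *ᵥ q) :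
    qf H' z q' = qf H z q := by
  rw [qf, qf, h]

/-- lower bound for the form of a sum -/
theorem qf_add_ge (hH : H.IsSymm) (hz : z.im ≠ 0) (p q : ι → ℂ) :
    qf H z p + qf H z q -
      ∑ y, ‖q y‖ * (‖(res H z *ᵥ p) y‖ + ‖(res H z *ᵥ fun x => conj (p x)) y‖) ≤
      qf H z (p + q) := by
  rw [qf_eq_im hH hz, qf_eq_im hH hz, qf_eq_im hH hz, Matrix.mulVec_add]
  simp only [Pi.add_apply, map_add, add_mul, mul_add, Finset.sum_add_distrib, Complex.add_im]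
  have h1 : |(∑ x, conj (q x) * (res H z *ᵥ p) x).im| ≤ ∑ y, ‖q y‖ * ‖(res H z *ᵥ p) y‖ :=
    (Complex.abs_im_le_norm _).trans ((norm_sum_le _ _).trans (le_of_eq
      (Finset.sum_congr rfl fun x _ => by rw [norm_mul, Complex.norm_conj])))
  have h2 : |(∑ x, conj (p x) * (res H z *ᵥ q) x).im| ≤
      ∑ y, ‖q y‖ * ‖(res H z *ᵥ fun x => conj (p x)) y‖ := by
    rw [cpl_swap (res_symm' hH z)]
    exact (Complex.abs_im_le_norm _).trans ((norm_sum_le _ _).trans (le_of_eq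
      (Finset.sum_congr rfl fun x _ => by rw [norm_mul, mul_comm])))
  linarith [(abs_le.1 h1).1, (abs_le.1 h2).1]

theorem res_add_mulVec (hH : H.IsSymm) (hB : B.IsSymm) (hz : z.im ≠ 0) (q : ι → ℂ) :
    res (H + B) z *ᵥ q = res H z *ᵥ (q - cx B *ᵥ (res (H + B) z *ᵥ q)) := by
  have h := res_sub_res' hH (hH.add hB) hz
  rw [add_sub_cancel_left, sub_eq_iff_eq_add] at h
  conv_lhs => rw [h]
  rw [Matrix.mulVec_sub, Matrix.mulVec_mulVec, Matrix.mulVec_mulVec, Matrix.add_mulVec,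
    Matrix.neg_mulVec]
  abel

theorem Cpl.mono {y : ι} {ε ε' : ℝ} {S' : Finset ι} (h : Cpl H z S y ε) (hz : 0 < z.im)
    (hS : S' ⊆ S) (hε : ε ≤ ε') : Cpl H z S' y ε' := fun q hq =>
  (h q fun x hx => hq x fun hx' => hx (hS hx')).trans
    (mul_le_mul_of_nonneg_right hε (qf_nonneg hz q))

theorem Cpl.norm_le {y : ι} {ε : ℝ} (h : Cpl H z S y ε) {q : ι → ℂ}
    (hq : ∀ x, x ∉ S → q x = 0) : ‖(res H z *ᵥ q) y‖ ≤ √(ε * qf H z q) :=
  Real.le_sqrt_of_sq_le (h q hq)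

theorem Cpl.norm_conj_le (hH : H.IsSymm) (hz : z.im ≠ 0) {y : ι} {ε : ℝ} (h : Cpl H z S y ε)
    {q : ι → ℂ} (hq : ∀ x, x ∉ S → q x = 0) :
    ‖(res H z *ᵥ fun x => conj (q x)) y‖ ≤ √(ε * qf H z q) := by
  rw [← qf_conj hH hz q]
  exact h.norm_le fun x hx => by simp [hq x hx]

/-- entries between `S` and a decoupled site -/
theorem Cpl.entry (hH : H.IsSymm) (hz : z.im ≠ 0) {y : ι} {ε : ℝ} (h : Cpl H z S y ε) {x : ι}
    (hx : x ∈ S) : ‖res H z y x‖ ^ 2 ≤ ε * (res H z x x).im := by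
  have := h (Pi.single x 1) fun v hv => Pi.single_eq_of_ne (fun e : v = x => hv (by rwa [e])) _
  rwa [res_mulVec_single, qf_single hH hz] at this

theorem cpl_supp_mulVec (hS : ∀ x, x ∉ S → ∀ y, B x y = 0) (u : ι → ℂ) :
    ∀ x, x ∉ S → (cx B *ᵥ u) x = 0 := fun x hx => by
  simp [Matrix.mulVec, dotProduct, hS x hx]

/-- (a) perturbations supported on `S` do not change the decoupling from `S` -/
theorem Cpl.add (hH : H.IsSymm) (hB : B.IsSymm) (hz : z.im ≠ 0)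
    (hS : ∀ x, x ∉ S → ∀ y, B x y = 0) {y : ι} {ε : ℝ} (h : Cpl H z S y ε) :
    Cpl (H + B) z S y ε := by
  intro q hq
  have h1 := res_add_mulVec hH hB hz q
  have h2 := h (q - cx B *ᵥ (res (H + B) z *ᵥ q)) fun x hx => by
    rw [Pi.sub_apply, hq x hx, cpl_supp_mulVec hS _ x hx, sub_zero]
  rwa [← qf_congr h1, ← h1] at h2

/-- (a), for two matrices that differ on `S × S` -/
theorem Cpl.of_diff {H' : Matrix ι ι ℝ} (hH : H.IsSymm) (hH' : H'.IsSymm) (hz : z.im ≠ 0)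
    (hS : ∀ x, x ∉ S → ∀ y, H' x y = H x y) {y : ι} {ε : ℝ} (h : Cpl H z S y ε) :
    Cpl H' z S y ε := by
  have := h.add (B := H' - H) hH (hH'.sub hH) hz fun x hx y => by simp [hS x hx y]
  rwa [add_sub_cancel] at this

/-- (b) -/
theorem Cpl.diff (hH : H.IsSymm) (hB : B.IsSymm) (hz : 0 < z.im)
    (hS : ∀ x, x ∉ S → ∀ y, B x y = 0) {y y' : ι} {ε₁ ε₂ : ℝ} (h₁ : Cpl H z S y ε₁)
    (h₂ : Cpl H z S y' ε₂) (e₁ : 0 ≤ ε₁) (e₂ : 0 ≤ ε₂) :
    ‖res (H + B) z y y' - res H z y y'‖ ^ 2 ≤ ε₁ * ε₂ := by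
  set u := res (H + B) z *ᵥ Pi.single y' 1 with hu
  set q := cx B *ᵥ u with hq
  have hs : ∀ x, x ∉ S → q x = 0 := cpl_supp_mulVec hS u
  have h1 : res H z *ᵥ q = res H z *ᵥ Pi.single y' 1 - u := by
    have := res_add_mulVec hH hB hz.ne' (Pi.single y' 1)
    rw [Matrix.mulVec_sub, ← hu, ← hq] at this
    rw [this]; abel
  have h2 : qf H z q ≤ √(ε₂ * qf H z q) := by
    refine le_trans ?_ (h₂.norm_conj_le hH hz.ne' hs)
    rw [qf_eq_im hH hz.ne', h1]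
    simp only [Pi.sub_apply, mul_sub, Finset.sum_sub_distrib, Complex.sub_im]
    rw [hq, cpl_real_form hB, sub_zero, ← hq, cpl_swap (res_symm' hH z)]
    refine (Complex.im_le_norm _).trans (le_of_eq ?_)
    simp [Pi.single_apply]
  have h0 := qf_nonneg (H := H) hz q
  have h3 : qf H z q ≤ ε₂ := by
    have := (Real.le_sqrt h0 (mul_nonneg e₂ h0)).1 h2
    by_contra hc
    push Not at hc
    nlinarith
  have h4 := h₁ q hs
  rw [h1, Pi.sub_apply, res_mulVec_single, hu, res_mulVec_single, norm_sub_rev] at h4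
  exact h4.trans (mul_le_mul_of_nonneg_left h3 e₁)

/-- (b), for two matrices that differ on `S × S` -/
theorem Cpl.diff' {H' : Matrix ι ι ℝ} (hH : H.IsSymm) (hH' : H'.IsSymm) (hz : 0 < z.im)
    (hS : ∀ x, x ∉ S → ∀ y, H' x y = H x y) {y y' : ι} {ε₁ ε₂ : ℝ} (h₁ : Cpl H z S y ε₁)
    (h₂ : Cpl H z S y' ε₂) (e₁ : 0 ≤ ε₁) (e₂ : 0 ≤ ε₂) :
    ‖res H' z y y' - res H z y y'‖ ^ 2 ≤ ε₁ * ε₂ := by
  have := h₁.diff (B := H' - H) hH (hH'.sub hH) hz (fun x hx y => by simp [hS x hx y]) h₂ e₁ e₂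
  rwa [add_sub_cancel] at this

theorem exists_leverage (V : Submodule ℂ (EuclideanSpace ℂ ι)) : ∃ w : ι → ℝ, (∀ y, 0 ≤ w y) ∧
    ∑ y, w y = Module.finrank ℂ V ∧ ∀ ψ ∈ V, ∀ y, ‖ψ y‖ ^ 2 ≤ w y * ∑ v, ‖ψ v‖ ^ 2 := by
  let b := stdOrthonormalBasis ℂ V
  refine ⟨fun y => ∑ k, ‖(b k : EuclideanSpace ℂ ι) y‖ ^ 2,
    fun y => Finset.sum_nonneg fun _ _ => sq_nonneg _, ?_, fun ψ hψ y => ?_⟩
  · rw [Finset.sum_comm]
    have : ∀ k, ∑ y, ‖(b k : EuclideanSpace ℂ ι) y‖ ^ 2 = 1 := fun k => by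
      rw [← EuclideanSpace.norm_sq_eq, ← Submodule.coe_norm, b.orthonormal.1 k, one_pow]
    simp [this]
  · have h1 : ψ y = ∑ k, b.repr ⟨ψ, hψ⟩ k * (b k : EuclideanSpace ℂ ι) y := by
      have := congrArg (fun v : V => (v : EuclideanSpace ℂ ι) y) (b.sum_repr ⟨ψ, hψ⟩)
      simpa using this.symm
    have h2 : ∑ v, ‖ψ v‖ ^ 2 = ∑ k, ‖b.repr ⟨ψ, hψ⟩ k‖ ^ 2 := by
      rw [← EuclideanSpace.norm_sq_eq, ← EuclideanSpace.norm_sq_eq, b.repr.norm_map]
      rfl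
    rw [h1, h2, mul_comm]
    refine le_trans ?_ (Finset.sum_mul_sq_le_sq_mul_sq _ _ _)
    refine pow_le_pow_left₀ (norm_nonneg _) ((norm_sum_le _ _).trans (le_of_eq ?_)) 2
    exact Finset.sum_congr rfl fun k _ => norm_mul _ _

open Classical in
/-- (c) few sites are coupled to `S` -/
theorem card_not_Cpl (H : Matrix ι ι ℝ) (z : ℂ) (S : Finset ι) (ε : ℝ) :
    ((Finset.univ.filter fun y => ¬ Cpl H z S y ε).card : ℝ) * (ε * z.im) ≤ S.card := by
  let col : ι → EuclideanSpace ℂ ι := fun x => WithLp.toLp 2 fun v => res H z v x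
  obtain ⟨w, w0, hw, h⟩ := exists_leverage (Submodule.span ℂ
    ((S.image col : Finset _) : Set (EuclideanSpace ℂ ι)))
  have h1 : (Module.finrank ℂ (Submodule.span ℂ ((S.image col : Finset _) :
      Set (EuclideanSpace ℂ ι))) : ℝ) ≤ S.card := by
    exact_mod_cast (finrank_span_finset_le_card _).trans Finset.card_image_le
  refine le_trans ?_ (hw.le.trans h1)
  refine le_trans ?_ (Finset.sum_le_sum_of_subset_of_nonneg (Finset.subset_univ
    (Finset.univ.filter fun y => ¬ Cpl H z S y ε)) fun y _ _ => w0 y)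
  rw [← nsmul_eq_mul]
  refine Finset.card_nsmul_le_sum _ _ _ fun y hy => ?_
  have hy' := (Finset.mem_filter.1 hy).2
  unfold Cpl at hy'
  push Not at hy'
  obtain ⟨q, hq, hlt⟩ := hy'
  have hmem : (WithLp.toLp 2 (res H z *ᵥ q) : EuclideanSpace ℂ ι) ∈
      Submodule.span ℂ ((S.image col : Finset _) : Set (EuclideanSpace ℂ ι)) := by
    have : (WithLp.toLp 2 (res H z *ᵥ q) : EuclideanSpace ℂ ι) = ∑ x ∈ S, q x • col x := by
      ext v
      simp only [col, Matrix.mulVec, dotProduct, WithLp.ofLp_sum, WithLp.ofLp_smul,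
        Finset.sum_apply, Pi.smul_apply, smul_eq_mul]
      rw [← Finset.sum_subset (Finset.subset_univ S) fun x _ hx => by rw [hq x hx, mul_zero]]
      exact Finset.sum_congr rfl fun x _ => mul_comm _ _
    rw [this]
    exact Submodule.sum_mem _ fun x hx => Submodule.smul_mem _ _
      (Submodule.subset_span (by simpa using ⟨x, hx, rfl⟩))
  have h2 := h _ hmem y
  change ‖(res H z *ᵥ q) y‖ ^ 2 ≤ w y * ∑ v, ‖(res H z *ᵥ q) v‖ ^ 2 at h2
  rw [qf, ← mul_assoc] at hlt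
  exact (lt_of_mul_lt_mul_right (hlt.trans_le h2) (Finset.sum_nonneg fun _ _ => sq_nonneg _)).le

/-- splitting a vector supported on `S ∪ T` -/
theorem cpl_split (S T : Finset ι) {q : ι → ℂ} (hq : ∀ x, x ∉ S ∪ T → q x = 0) :
    ∃ p p' : ι → ℂ, q = p + p' ∧ (∀ x, x ∉ S → p x = 0) ∧ ∀ x, x ∉ T → p' x = 0 := by
  refine ⟨fun x => if x ∈ T then 0 else q x, fun x => if x ∈ T then q x else 0, ?_, ?_, ?_⟩
  · funext x
    by_cases h : x ∈ T <;> simp [h]
  · intro x hx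
    by_cases h : x ∈ T
    · simp [h]
    · simp [h, hq x (by simp [hx, h])]
  · intro x hx
    simp [hx]

/-- (f) union with a block on which `Im G ≥ c` -/
theorem Cpl.union (hH : H.IsSymm) (hz : 0 < z.im) {T : Finset ι} {x : ι} {ε ε₂ c : ℝ}
    (hc : 0 < c) (hε : 0 ≤ ε) (hε₂ : 0 ≤ ε₂)
    (hT : ∀ q : ι → ℂ, (∀ v, v ∉ T → q v = 0) → c * ∑ v, ‖q v‖ ^ 2 ≤ qf H z q)
    (h₂ : ∀ y ∈ T, Cpl H z S y ε₂) (hsm : 4 * T.card * ε₂ ≤ c) (hS : Cpl H z S x ε)
    (hx : Cpl H z T x ε) : Cpl H z (S ∪ T) x (4 * ε) := by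
  intro q hq
  obtain ⟨p, p', rfl, hp, hp'⟩ := cpl_split S T hq
  have hA := qf_nonneg (H := H) hz p
  have hA' := qf_nonneg (H := H) hz p'
  have h1 := qf_add_ge hH hz.ne' p p'
  have h2 : ∑ y, ‖p' y‖ * (‖(res H z *ᵥ p) y‖ + ‖(res H z *ᵥ fun x => conj (p x)) y‖) ≤
      (qf H z p + qf H z p') / 2 := by
    rw [← Finset.sum_subset (Finset.subset_univ T) fun y _ hy => by
      rw [hp' y hy, norm_zero, zero_mul]]
    have h3 : ∀ y ∈ T, ‖p' y‖ * (‖(res H z *ᵥ p) y‖ + ‖(res H z *ᵥ fun x => conj (p x)) y‖) ≤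
        c / 2 * ‖p' y‖ ^ 2 + 2 / c * (ε₂ * qf H z p) := by
      intro y hy
      have h4 := (h₂ y hy).norm_le hp
      have h5 := (h₂ y hy).norm_conj_le hH hz.ne' hp
      have h6 : √(ε₂ * qf H z p) ^ 2 = ε₂ * qf H z p := Real.sq_sqrt (mul_nonneg hε₂ hA)
      set r := √(ε₂ * qf H z p)
      rw [← h6]
      have h7 : c / 2 * ‖p' y‖ ^ 2 + 2 / c * r ^ 2 - ‖p' y‖ * (r + r) =
          (c * ‖p' y‖ - 2 * r) ^ 2 / (2 * c) := by field_simp; ring
      have h8 : 0 ≤ (c * ‖p' y‖ - 2 * r) ^ 2 / (2 * c) := by positivity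
      have h9 := mul_le_mul_of_nonneg_left (add_le_add h4 h5) (norm_nonneg (p' y))
      linarith
    refine (Finset.sum_le_sum h3).trans ?_
    rw [Finset.sum_add_distrib, Finset.sum_const, nsmul_eq_mul, ← Finset.mul_sum]
    have h4 : ∑ y ∈ T, ‖p' y‖ ^ 2 ≤ ∑ y, ‖p' y‖ ^ 2 :=
      Finset.sum_le_sum_of_subset_of_nonneg (Finset.subset_univ T) fun _ _ _ => sq_nonneg _
    have h5 := hT p' hp'
    have h6 : T.card * (2 / c * (ε₂ * qf H z p)) ≤ qf H z p / 2 := by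
      have : T.card * (2 / c * (ε₂ * qf H z p)) = (4 * T.card * ε₂) / c * (qf H z p / 2) := by
        field_simp; ring
      rw [this]
      exact mul_le_of_le_one_left (by positivity) ((div_le_one hc).2 hsm)
    nlinarith
  have h3 := hS p hp
  have h4 := hx p' hp'
  rw [Matrix.mulVec_add, Pi.add_apply]
  have h5 := norm_add_le ((res H z *ᵥ p) x) ((res H z *ᵥ p') x)
  have h6 := pow_le_pow_left₀ (norm_nonneg _) h5 2
  have h7 : ε * ((qf H z p + qf H z p') / 2) ≤ ε * qf H z (p + p') :=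
    mul_le_mul_of_nonneg_left (by linarith) hε
  nlinarith [sq_nonneg (‖(res H z *ᵥ p) x‖ - ‖(res H z *ᵥ p') x‖)]

/-- (e) adding one site -/
theorem Cpl.insert (hH : H.IsSymm) (hz : 0 < z.im) {a b : ι} {ε₁ ε₂ c θ : ℝ} (hc : 0 < c)
    (e₁ : 0 ≤ ε₁) (e₂ : 0 ≤ ε₂) (hb : Cpl H z S b ε₁) (ha : Cpl H z S a ε₂)
    (him : c ≤ (res H z a a).im) (hsm : 4 * ε₂ ≤ c) (hθ : ‖res H z b a‖ ≤ θ) :
    Cpl H z (insert a S) b (4 * ε₁ + 4 * θ ^ 2 / c) := by
  have hone : ∀ q : ι → ℂ, (∀ v, v ∉ ({a} : Finset ι) → q v = 0) → q = q a • Pi.single a 1 := by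
    intro q hq
    funext v
    by_cases hv : v = a
    · subst hv; simp
    · simp [hv, hq v (by simpa using hv)]
  have hT : ∀ q : ι → ℂ, (∀ v, v ∉ ({a} : Finset ι) → q v = 0) →
      c * ‖q a‖ ^ 2 ≤ qf H z q := by
    intro q hq
    conv_rhs => rw [hone q hq, qf_smul, qf_single hH hz.ne']
    rw [mul_comm]
    exact mul_le_mul_of_nonneg_left him (sq_nonneg _)
  have h0 : 0 ≤ θ ^ 2 / c := by positivity
  have h := Cpl.union (T := {a}) (x := b) (ε := ε₁ + θ ^ 2 / c) hH hz hc (by positivity) e₂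
    (fun q hq => by
      rw [← Finset.sum_subset (Finset.subset_univ {a}) fun v _ hv => by
        rw [hq v hv, norm_zero]; norm_num, Finset.sum_singleton]
      exact hT q hq)
    (fun y hy => by rwa [Finset.mem_singleton.1 hy]) (by simpa using hsm)
    (hb.mono hz subset_rfl (by linarith)) (fun q hq => by
      have h1 := hT q hq
      have h2 : ‖(res H z *ᵥ q) b‖ ^ 2 ≤ θ ^ 2 * ‖q a‖ ^ 2 := by
        conv_lhs => rw [hone q hq, Matrix.mulVec_smul, Pi.smul_apply, res_mulVec_single,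
          smul_eq_mul, norm_mul, mul_pow, mul_comm]
        exact mul_le_mul_of_nonneg_right (pow_le_pow_left₀ (norm_nonneg _) hθ 2) (sq_nonneg _)
      have h3 : θ ^ 2 * ‖q a‖ ^ 2 = θ ^ 2 / c * (c * ‖q a‖ ^ 2) := by field_simp
      have h4 := mul_le_mul_of_nonneg_left h1 h0
      have h5 := mul_nonneg e₁ (qf_nonneg (H := H) hz q)
      nlinarith)
  rw [Finset.union_comm, ← Finset.insert_eq] at h
  refine h.mono hz subset_rfl (le_of_eq ?_)
  ring

end Crest.Agent.R166
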