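import Crest.Agent.R166.A.Dis1
import Crest.Agent.R166.A.Avg
import Crest.Agent.R166.A.CplAux

/-! # Part A: the coupling condition (MATH, part A, (a)-(c)) -/

set_option autoImplicit false
set_option linter.unusedVariables false
set_option linter.unusedSectionVars false

open MeasureTheory ProbabilityTheory Filter Topology Matrix
open scoped ENNReal BoundedContinuousFunction

namespace Crest.Agent.R166.PA

section
variable {ι : Type} [Fintype ι] [DecidableEq ι] {H H' : Matrix ι ι ℝ} {z : ℂ} {S S' : Finset ι}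

theorem cpl_iff {y : ι} {ε : ℝ} : Cpl H z S y ε ↔ Crest.Agent.R166.Cpl H z S y ε := Iff.rfl

theorem Cpl.mono_set {y : ι} {ε : ℝ} (h : Cpl H z S y ε) (hS : S' ⊆ S) : Cpl H z S' y ε := by
  exact fun q hq => h q fun x hx => hq x fun hx' => hx (hS hx')

theorem Cpl.mono_eps {y : ι} {ε ε' : ℝ} (h : Cpl H z S y ε) (hz : 0 ≤ z.im) (hε : ε ≤ ε') :
    Cpl H z S y ε' := by
  exact fun q hq => (h q hq).trans (mul_le_mul_of_nonneg_right hε
    (mul_nonneg hz (Finset.sum_nonneg fun _ _ => sq_nonneg _)))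

/-- `η ‖G q‖² = q* (Im G) q` (Ward), in particular it is the same for `q` and `conj q` -/
theorem ward_form (hH : H.IsSymm) (hz : 0 < z.im) (q q' : ι → ℂ) :
    (z.im : ℂ) * ∑ x, (starRingEnd ℂ) ((res H z *ᵥ q) x) * (res H z *ᵥ q') x =
      ∑ x, ∑ y, (starRingEnd ℂ) (q x) * ((res H z x y).im : ℂ) * q' y := by
  have h : ∀ x y, (((res H z x y).im : ℝ) : ℂ) =
      z.im * ∑ v, res H z v y * (starRingEnd ℂ) (res H z v x) := fun x y => by
    rw [res_symm' hH z x y, ward_bilin hH hz.ne']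
  simp only [h, Matrix.mulVec, dotProduct, map_sum, map_mul, Finset.mul_sum, Finset.sum_mul]
  calc _ = ∑ y, ∑ v, ∑ x, (z.im : ℂ) * ((starRingEnd ℂ) (res H z v x) * (starRingEnd ℂ) (q x) *
        (res H z v y * q' y)) := Finset.sum_comm
    _ = ∑ y, ∑ x, ∑ v, (z.im : ℂ) * ((starRingEnd ℂ) (res H z v x) * (starRingEnd ℂ) (q x) *
        (res H z v y * q' y)) := Finset.sum_congr rfl fun y _ => Finset.sum_comm
    _ = ∑ x, ∑ y, ∑ v, (z.im : ℂ) * ((starRingEnd ℂ) (res H z v x) * (starRingEnd ℂ) (q x) *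
        (res H z v y * q' y)) := Finset.sum_comm
    _ = _ := Finset.sum_congr rfl fun x _ => Finset.sum_congr rfl fun y _ =>
        Finset.sum_congr rfl fun v _ => by ring

theorem norm_res_conj (hH : H.IsSymm) (hz : 0 < z.im) (q : ι → ℂ) :
    ∑ x, ‖(res H z *ᵥ fun y => (starRingEnd ℂ) (q y)) x‖ ^ 2 = ∑ x, ‖(res H z *ᵥ q) x‖ ^ 2 := by
  exact mul_left_cancel₀ hz.ne' (qf_conj hH hz.ne' q)

/-- (c) orthonormal basis `u_k` of the span of the columns `G δ_x`, `x ∈ S`, in `EuclideanSpace ℂ ι`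
(at most `|S|` vectors); `ε y = ∑_k ‖u_k y‖² / η` -/
theorem cpl_exists (H : Matrix ι ι ℝ) (hz : 0 < z.im) (S : Finset ι) : ∃ ε : ι → ℝ,
    (∀ y, 0 ≤ ε y) ∧ ∑ y, ε y ≤ S.card / z.im ∧ ∀ y, Cpl H z S y (ε y) := by
  classical
  let col : ι → EuclideanSpace ℂ ι := fun x => WithLp.toLp 2 fun v => res H z v x
  obtain ⟨w, w0, hw, h⟩ := exists_leverage (Submodule.span ℂ
    ((S.image col : Finset _) : Set (EuclideanSpace ℂ ι)))
  have h1 : (Module.finrank ℂ (Submodule.span ℂ ((S.image col : Finset _) :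
      Set (EuclideanSpace ℂ ι))) : ℝ) ≤ S.card := by
    exact_mod_cast (finrank_span_finset_le_card _).trans Finset.card_image_le
  refine ⟨fun y => w y / z.im, fun y => div_nonneg (w0 y) hz.le, ?_, fun y q hq => ?_⟩
  · rw [← Finset.sum_div]
    exact div_le_div_of_nonneg_right (hw.le.trans h1) hz.le
  have hmem : (WithLp.toLp 2 (res H z *ᵥ q) : EuclideanSpace ℂ ι) ∈
      Submodule.span ℂ ((S.image col : Finset _) : Set (EuclideanSpace ℂ ι)) := by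
    have : (WithLp.toLp 2 (res H z *ᵥ q) : EuclideanSpace ℂ ι) = ∑ x ∈ S, q x • col x := by
      ext v
      simp only [col, Matrix.mulVec, dotProduct, WithLp.ofLp_sum, WithLp.ofLp_smul,
        Finset.sum_apply, Pi.smul_apply, smul_eq_mul]
      rw [← Finset.sum_subset (Finset.subset_univ S) fun x _ hx => by rw [hq x hx, mul_zero]]
      exact Finset.sum_congr rfl fun x _ => mul_comm _ _
    rw [this]
    exact Submodule.sum_mem _ fun x hx => Submodule.smul_mem _ _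
      (Submodule.subset_span (by simpa using ⟨x, hx, rfl⟩))
  have h2 := h _ hmem y
  change ‖(res H z *ᵥ q) y‖ ^ 2 ≤ w y * ∑ v, ‖(res H z *ᵥ q) v‖ ^ 2 at h2
  rwa [← mul_assoc, div_mul_cancel₀ _ hz.ne']

/-- (a) `G' q = G (q - (H' - H) G' q)` -/
theorem Cpl.pert (hH : H.IsSymm) (hH' : H'.IsSymm) (hz : 0 < z.im)
    (hS : ∀ x y, H' x y ≠ H x y → x ∈ S ∧ y ∈ S) {y : ι} {ε : ℝ} (h : Cpl H z S y ε) :
    Cpl H' z S y ε := by
  refine cpl_iff.2 ((cpl_iff.1 h).of_diff hH hH' hz.ne' fun x hx y => ?_)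
  by_contra hne
  exact hx (hS x y hne).1

/-- (b) `q = (H'-H) G' δ_{y'}`, `ψ = G q = (G - G') δ_{y'}`, `-η‖ψ‖² = Im ⟨ψ, q⟩ = Im ⟨G δ_{y'}, q⟩`
(`⟨G'δ, (H'-H) G'δ⟩` is real), `⟨G δ_{y'}, q⟩ = conj ((G conj q) y')`, so `η‖ψ‖² ≤ ε₂` -/
theorem Cpl.near (hH : H.IsSymm) (hH' : H'.IsSymm) (hz : 0 < z.im)
    (hS : ∀ x y, H' x y ≠ H x y → x ∈ S ∧ y ∈ S) {y y' : ι} {ε₁ ε₂ : ℝ} (h0 : 0 ≤ ε₁) (h0' : 0 ≤ ε₂)
    (h₁ : Cpl H z S y ε₁) (h₂ : Cpl H z S y' ε₂) :
    ‖res H' z y y' - res H z y y'‖ ^ 2 ≤ ε₁ * ε₂ := by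
  refine (cpl_iff.1 h₁).diff' hH hH' hz (fun x hx y => ?_) (cpl_iff.1 h₂) h0 h0'
  by_contra hne
  exact hx (hS x y hne).1

theorem near_exists (hH : H.IsSymm) (hH' : H'.IsSymm) (hz : 0 < z.im)
    (hS : ∀ x y, H' x y ≠ H x y → x ∈ S ∧ y ∈ S) : ∃ φ : ι → ℝ, (∀ y, 0 ≤ φ y) ∧
      ∑ y, φ y ≤ S.card / z.im ∧ ∀ y y', ‖res H' z y y' - res H z y y'‖ ≤ φ y + φ y' := by
  obtain ⟨ε, h0, h1, h2⟩ := cpl_exists H hz S
  refine ⟨ε, h0, h1, fun y y' => ?_⟩
  have h3 := Cpl.near hH hH' hz hS (h0 y) (h0 y') (h2 y) (h2 y')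
  have a := h0 y
  have b := h0 y'
  exact abs_le_of_sq_le_sq' (h3.trans (by nlinarith [mul_nonneg a b])) (add_nonneg a b) |>.2

end

theorem frac_not_cpl {n : ℕ} (H : Matrix (Fin n) (Fin n) ℝ) {z : ℂ} (hz : 0 < z.im)
    (S : Finset (Fin n)) {ε : ℝ} (hε : 0 < ε) :
    (frac fun y => ¬ Cpl H z S y ε) ≤ S.card / (n * z.im * ε) := by
  obtain ⟨e, h0, h1, h2⟩ := cpl_exists H hz S
  refine (frac_le_avg (f := fun y => e y / ε) (fun y => div_nonneg (h0 y) hε.le)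
    fun y hy => ?_).trans ?_
  · rw [le_div_iff₀ hε, one_mul]
    by_contra hc
    push Not at hc
    exact hy ((h2 y).mono_eps hz.le hc.le)
  · rw [avg, ← Finset.sum_div, Fintype.card_fin, div_div]
    calc (∑ y, e y) / (ε * n) ≤ S.card / z.im / (ε * n) :=
          div_le_div_of_nonneg_right h1 (by positivity)
      _ = _ := by rw [div_div]; congr 1; ring

end Crest.Agent.R166.PA
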