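import Crest.Agent.R166.A.Loc
import Crest.Agent.R166.A.Cpl1
import Crest.Agent.R166.A.Avg

/-! # Part A: the empirical statistics move by `O(1/K)` under a star switch -/

set_option autoImplicit false
set_option linter.unusedVariables false
set_option linter.unusedSectionVars false

open MeasureTheory ProbabilityTheory Filter Topology Matrix
open scoped ENNReal BoundedContinuousFunction

namespace Crest.Agent.R166.PA

theorem card_ptsEx_le {n D : ℕ} (π : Pairing n D) (o : Fin n) (α : Fin (D + 1) → HE n D)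
    (I : Finset (Fin (D + 1))) : (ptsEx π o α I).card ≤ 3 * (D + 1) + 1 := by
  unfold ptsEx
  have hI : I.card ≤ D + 1 := by simpa using Finset.card_le_univ I
  have h1 : (Finset.univ.image fun i => (π.1 (o, i)).1).card ≤ D + 1 := by
    simpa using Finset.card_image_le (s := Finset.univ) (f := fun i => (π.1 (o, i)).1)
  have h2 : (I.image fun i => (α i).1).card ≤ D + 1 := Finset.card_image_le.trans hI
  have h3 : (I.image fun i => (π.1 (α i)).1).card ≤ D + 1 := Finset.card_image_le.trans hI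
  have h4 := Finset.card_insert_le o (Finset.univ.image fun i => (π.1 (o, i)).1)
  have h5 := Finset.card_union_le (insert o (Finset.univ.image fun i => (π.1 (o, i)).1))
    (I.image fun i => (α i).1)
  have h6 := Finset.card_union_le (insert o (Finset.univ.image fun i => (π.1 (o, i)).1) ∪
    (I.image fun i => (α i).1)) (I.image fun i => (π.1 (α i)).1)
  omega

theorem Stab_edgeM {n : ℕ} {S : Finset (Fin n)} {u v x y : Fin n} (hu : u ∈ S) (hv : v ∈ S)
    (h : ¬ (x ∈ S ∧ y ∈ S)) : edgeM u v x y = 0 := by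
  have h1 : ¬ (u = x ∧ v = y) := by
    rintro ⟨rfl, rfl⟩
    exact h ⟨hu, hv⟩
  have h2 : ¬ (v = x ∧ u = y) := by
    rintro ⟨rfl, rfl⟩
    exact h ⟨hv, hu⟩
  simp [edgeM, h1, h2]

/-- `StarOK.adj_eq` -/
theorem sw_diff_supp {n D : ℕ} (s : ℝ) (ω : Fin n → J) {π : Pairing n D} {o : Fin n}
    {α : Fin (D + 1) → HE n D} (h : StarOK π.1 o α) (x y : Fin n)
    (hxy : ham s (sw π o α).1 ω x y ≠ ham s π.1 ω x y) :
    x ∈ ptsEx π o α Finset.univ ∧ y ∈ ptsEx π o α Finset.univ := by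
  by_contra hS
  apply hxy
  have ho : o ∈ ptsEx π o α Finset.univ := by simp [ptsEx]
  have h1 : ∀ i, (π.1 (o, i)).1 ∈ ptsEx π o α Finset.univ := fun i =>
    Finset.mem_union_left _ (Finset.mem_union_left _ (Finset.mem_insert_of_mem
      (Finset.mem_image.2 ⟨i, Finset.mem_univ _, rfl⟩)))
  have h2 : ∀ i, (α i).1 ∈ ptsEx π o α Finset.univ := fun i =>
    Finset.mem_union_left _ (Finset.mem_union_right _
      (Finset.mem_image.2 ⟨i, Finset.mem_univ _, rfl⟩))
  have h3 : ∀ i, (π.1 (α i)).1 ∈ ptsEx π o α Finset.univ := fun i =>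
    Finset.mem_union_right _ (Finset.mem_image.2 ⟨i, Finset.mem_univ _, rfl⟩)
  unfold ham sw
  rw [h.adj_eq]
  simp only [Matrix.add_apply, Matrix.sum_apply, Matrix.sub_apply]
  rw [Finset.sum_eq_zero, add_zero]
  intro i _
  rw [Stab_edgeM ho (h3 i) hS, Stab_edgeM (h2 i) (h1 i) hS, Stab_edgeM ho (h1 i) hS,
    Stab_edgeM (h2 i) (h3 i) hS]
  simp

/-- at most `4 (D+1)` half-edges change their partner (`StarOK.spec`) -/
theorem frac_sw_ne {n D : ℕ} {π : Pairing n D} {o : Fin n} {α : Fin (D + 1) → HE n D}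
    (h : StarOK π.1 o α) : (frac fun a => (sw π o α).1 a ≠ π.1 a) ≤ 4 / n := by
  classical
  let g : Fin 4 × Fin (D + 1) → HE n D := fun q =>
    ![(o, q.2), α q.2, π.1 (o, q.2), π.1 (α q.2)] q.1
  have h1 := frac_le_card (Finset.univ.image g) (P := fun a => (sw π o α).1 a ≠ π.1 a)
    (fun a ha => by
      by_contra hn
      apply ha
      refine h.spec.2.2.2.2 a fun i => ⟨?_, ?_, ?_, ?_⟩
      · rintro rfl
        exact hn (Finset.mem_image.2 ⟨(0, i), Finset.mem_univ _, rfl⟩)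
      · rintro rfl
        exact hn (Finset.mem_image.2 ⟨(1, i), Finset.mem_univ _, rfl⟩)
      · rintro rfl
        exact hn (Finset.mem_image.2 ⟨(2, i), Finset.mem_univ _, rfl⟩)
      · rintro rfl
        exact hn (Finset.mem_image.2 ⟨(3, i), Finset.mem_univ _, rfl⟩))
  refine h1.trans ?_
  have h2 : (Finset.univ.image g).card ≤ 4 * (D + 1) := by
    simpa using Finset.card_image_le (s := Finset.univ) (f := g)
  have h3 : ((Finset.univ.image g).card : ℝ) ≤ 4 * (D + 1) := by exact_mod_cast h2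
  have hn : (0 : ℝ) < n := Nat.cast_pos.2 o.pos
  have h4 : (Fintype.card (HE n D) : ℝ) = n * (D + 1) := by simp
  rw [h4, div_le_div_iff₀ (by positivity) hn]
  nlinarith

/-- `near_exists` gives `φ`; for a half-edge `h` with unchanged partner `Dis.transfer` with
`ε = 2 (φ x + φ y)`; the others cost `4/μ` each; `avg_HE_fst`, `avg_HE_snd`; `1/n ≤ 1/(n η)`. -/
theorem stab (D : ℕ) {μ : ℝ} (hμ : 0 < μ) : ∃ C : ℝ, 0 < C ∧
    ∀ (n : ℕ) (s : ℝ) (ω : Fin n → J) (z m : ℂ), 0 < z.im → z.im ≤ 1 → μ ≤ m.im → ‖m‖ ≤ 1 →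
      ∀ (π : Pairing n D) (o : Fin n) (α : Fin (D + 1) → HE n D), StarOK π.1 o α →
        (avg fun h => ‖Nh s ω z m (sw π o α) h - Nh s ω z m π h‖ +
          ‖Th s ω z m (sw π o α) h - Th s ω z m π h‖) ≤ C / (n * z.im) := by
  classical
  refine ⟨8 * (1 + 4 / μ) ^ 2 * (3 * (D + 1) + 1) + 16 / μ, by positivity, ?_⟩
  intro n s ω z m hz hz1 hm hm1 π o α h
  obtain ⟨φ, hφ0, hφ1, hφ2⟩ := near_exists (ham_isSymm π.2.1 s ω) (ham_isSymm (sw π o α).2.1 s ω) hz
    (sw_diff_supp s ω h)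
  have hn : (0 : ℝ) < n := Nat.cast_pos.2 o.pos
  have key : ∀ a : HE n D, ‖Nh s ω z m (sw π o α) a - Nh s ω z m π a‖ +
      ‖Th s ω z m (sw π o α) a - Th s ω z m π a‖ ≤
      4 * (1 + 4 / μ) ^ 2 * (φ a.1 + φ (π.1 a).1) +
        4 / μ * (if (sw π o α).1 a ≠ π.1 a then 1 else 0) := by
    intro a
    have p1 := hφ0 a.1
    have p2 := hφ0 (π.1 a).1
    split_ifs with hne
    · have h1 := norm_sub_le (Nh s ω z m (sw π o α) a) (Nh s ω z m π a)
      have h2 := norm_sub_le (Th s ω z m (sw π o α) a) (Th s ω z m π a)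
      have h3 := norm_Nh_le s ω π a hz hμ hm
      have h4 := norm_Nh_le s ω (sw π o α) a hz hμ hm
      have h5 := norm_Th_le s ω π a hz hμ hm
      have h6 := norm_Th_le s ω (sw π o α) a hz hμ hm
      have h7 : 0 ≤ 4 * (1 + 4 / μ) ^ 2 * (φ a.1 + φ (π.1 a).1) := by positivity
      have h8 : 4 / μ * 1 = 4 * (1 / μ) := by ring
      linarith
    · have he : (sw π o α).1 a = π.1 a := not_not.1 hne
      have ht := Dis.transfer (Bz_dis s ω π z) hz (Bz_dis s ω (sw π o α) z) hz hμ hm hm1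
        a.1 (π.1 a).1 (ε := 2 * (φ a.1 + φ (π.1 a).1)) (fun b c => by
          rw [← res_eq_Bz, ← res_eq_Bz]
          refine (hφ2 _ _).trans ?_
          unfold two
          split_ifs <;> linarith)
      have h1 := ht 0 0
      have h2 := ht 0 1
      simp only [two, if_true, one_ne_zero, if_false] at h1 h2
      simp only [Nh, Th, Sh, Jh, he]
      linarith
  refine (avg_mono key).trans ?_
  rw [avg_add, avg_const_mul, avg_const_mul, avg_add, avg_HE_fst, avg_HE_snd]
  have h1 : (avg fun a : HE n D => if (sw π o α).1 a ≠ π.1 a then (1 : ℝ) else 0) ≤ 4 / n := by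
    refine le_trans (le_of_eq ?_) (frac_sw_ne h)
    unfold frac
    exact avg_congr fun a => by congr
  have h2 : avg φ ≤ (3 * (D + 1) + 1) / (n * z.im) := by
    have h3 : ((ptsEx π o α Finset.univ).card : ℝ) ≤ 3 * (D + 1) + 1 := by
      exact_mod_cast card_ptsEx_le π o α Finset.univ
    rw [avg, Fintype.card_fin, mul_comm (n : ℝ), ← div_div]
    exact div_le_div_of_nonneg_right (hφ1.trans (div_le_div_of_nonneg_right h3 hz.le)) hn.le
  have h3 : (4 : ℝ) / n ≤ 4 / (n * z.im) :=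
    div_le_div_of_nonneg_left (by norm_num) (by positivity) (by nlinarith)
  have h4 : 4 * (1 + 4 / μ) ^ 2 * (avg φ + avg φ) ≤
      4 * (1 + 4 / μ) ^ 2 * (2 * ((3 * (D + 1) + 1) / (n * z.im))) :=
    mul_le_mul_of_nonneg_left (by linarith) (by positivity)
  have h5 : 4 / μ * (avg fun a : HE n D => if (sw π o α).1 a ≠ π.1 a then (1 : ℝ) else 0) ≤
      4 / μ * (4 / (n * z.im)) := mul_le_mul_of_nonneg_left (h1.trans h3) (by positivity)
  refine (add_le_add h4 h5).trans (le_of_eq ?_)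
  ring

theorem Stab_sq {a b : ℂ} {R : ℝ} (ha : ‖a‖ ≤ R) (hb : ‖b‖ ≤ R) :
    |‖a‖ ^ 2 - ‖b‖ ^ 2| ≤ 2 * R * ‖a - b‖ := by
  rw [sq_sub_sq, abs_mul, abs_of_nonneg (by positivity)]
  exact mul_le_mul (by linarith) (abs_norm_sub_norm_le a b) (abs_nonneg _)
    (by linarith [norm_nonneg a])

theorem stab_stats (D : ℕ) {μ : ℝ} (hμ : 0 < μ) : ∃ C : ℝ, 0 < C ∧
    ∀ (n : ℕ) (s : ℝ) (ω : Fin n → J) (z m : ℂ), 0 < z.im → z.im ≤ 1 → μ ≤ m.im → ‖m‖ ≤ 1 →
      ∀ (π : Pairing n D) (o : Fin n) (α : Fin (D + 1) → HE n D), StarOK π.1 o α →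
        (avg fun h => ‖Zh s ω z m (sw π o α) h - Zh s ω z m π h‖) ≤ C / (n * z.im) ∧
        |stB s ω z m (sw π o α) - stB s ω z m π| ≤ C / (n * z.im) ∧
        ‖stA s ω z m (sw π o α) - stA s ω z m π‖ ≤ C / (n * z.im) ∧
        |stT s ω z m (sw π o α) - stT s ω z m π| ≤ C / (n * z.im) := by
  obtain ⟨C, hC, H⟩ := stab D hμ
  refine ⟨(4 * (2 / μ + 1)) * C, by positivity, ?_⟩
  intro n s ω z m hz hz1 hm hm1 π o α h
  have h0 := H n s ω z m hz hz1 hm hm1 π o α h
  have hn : (0 : ℝ) < n := Nat.cast_pos.2 o.pos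
  have hm0 : 0 < m.im := lt_of_lt_of_le hμ hm
  have hK : 0 < C / (n * z.im) := by positivity
  have hμ' : 0 < 2 / μ := by positivity
  have hZ : (avg fun a => ‖Zh s ω z m (sw π o α) a - Zh s ω z m π a‖) ≤ 2 * (C / (n * z.im)) := by
    refine le_trans ?_ (mul_le_mul_of_nonneg_left h0 (by norm_num))
    rw [← avg_const_mul]
    refine avg_mono fun a => ?_
    have h1 := norm_zeta_sub_le hm0 hm1 (Mh_im_pos s ω (sw π o α) a hz hm0).le
      (Mh_im_pos s ω π a hz hm0).le
    rw [nOf_Mh s ω _ a hz hm0, nOf_Mh s ω _ a hz hm0] at h1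
    have h2 := norm_nonneg (Th s ω z m (sw π o α) a - Th s ω z m π a)
    unfold Zh
    linarith
  have hT : (avg fun a => ‖Th s ω z m (sw π o α) a - Th s ω z m π a‖) ≤ C / (n * z.im) := by
    refine le_trans (avg_mono fun a => ?_) h0
    have h2 := norm_nonneg (Nh s ω z m (sw π o α) a - Nh s ω z m π a)
    linarith
  rw [mul_div_assoc]
  refine ⟨hZ.trans (by nlinarith), ?_, ?_, ?_⟩
  · unfold stB
    rw [← avg_sub]
    refine (abs_avg_le _).trans ((avg_mono fun a => Stab_sq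
      (norm_Zh_le s ω (sw π o α) a hz hμ hm hm1) (norm_Zh_le s ω π a hz hμ hm hm1)).trans ?_)
    rw [avg_const_mul]
    refine (mul_le_mul_of_nonneg_left hZ (by positivity)).trans (le_of_eq ?_)
    ring
  · unfold stA
    rw [← cavg_sub]
    exact (norm_cavg_le _).trans (hZ.trans (by nlinarith))
  · unfold stT
    rw [← avg_sub]
    refine (abs_avg_le _).trans ((avg_mono fun a => Stab_sq
      (norm_Th_le s ω (sw π o α) a hz hμ hm) (norm_Th_le s ω π a hz hμ hm)).trans ?_)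
    rw [avg_const_mul]
    refine (mul_le_mul_of_nonneg_left hT (by positivity)).trans ?_
    have : 2 * (1 / μ) = 2 / μ := by ring
    rw [this]
    nlinarith

end Crest.Agent.R166.PA
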