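import Crest.Agent.R166.A.Cpl2
import Crest.Agent.R166.A.Edge
import Crest.Agent.R166.A.Stab

/-! # Part A: all blocks fail with probability `O(w²)` -/

set_option autoImplicit false
set_option linter.unusedVariables false
set_option linter.unusedSectionVars false

open MeasureTheory ProbabilityTheory Filter Topology Matrix
open scoped ENNReal BoundedContinuousFunction

namespace Crest.Agent.R166.PA

theorem Three_upd {n D : ℕ} (π : Pairing n D) (o : Fin n) (α : Fin (D + 1) → HE n D)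
    {I : Finset (Fin (D + 1))} {j : Fin (D + 1)} (hj : j ∉ I) (a : HE n D) :
    ptsEx π o (Function.update α j a) I = ptsEx π o α I := by
  have h : ∀ i ∈ I, Function.update α j a i = α i := fun i hi =>
    Function.update_of_ne (by rintro rfl; exact hj hi) _ _
  unfold ptsEx
  congr 1
  · congr 1
    exact Finset.image_congr fun i hi => by simp only [h i hi]
  · exact Finset.image_congr fun i hi => by simp only [h i hi]

/-- the coupling of block `j` to the points of `I` fails -/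
def ThreeU {n D : ℕ} (H : Matrix (Fin n) (Fin n) ℝ) (z : ℂ) (ε : ℝ) (π : Pairing n D) (o : Fin n)
    (I : Finset (Fin (D + 1))) (j : Fin (D + 1)) (α : Fin (D + 1) → HE n D) : Prop :=
  ¬ (Cpl H z (ptsEx π o α I) (α j).1 ε ∧ Cpl H z (ptsEx π o α I) (π.1 (α j)).1 ε)

theorem Three_cond {n D : ℕ} (H : Matrix (Fin n) (Fin n) ℝ) {z : ℂ} (hz : 0 < z.im) {ε : ℝ}
    (hε : 0 < ε) (π : Pairing n D) (o : Fin n) {I : Finset (Fin (D + 1))} {j : Fin (D + 1)}
    (hj : j ∉ I) (α : Fin (D + 1) → HE n D) :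
    (frac fun a => ThreeU H z ε π o I j (Function.update α j a)) ≤
      2 * (3 * (D + 1) + 1) / ε * (1 / (n * z.im)) := by
  have h1 := frac_not_cpl H hz (ptsEx π o α I) hε
  have h2 : ((ptsEx π o α I).card : ℝ) ≤ 3 * (D + 1) + 1 := by
    exact_mod_cast card_ptsEx_le π o α I
  have h3 : ((ptsEx π o α I).card : ℝ) / (n * z.im * ε) ≤
      (3 * (D + 1) + 1) / ε * (1 / (n * z.im)) := by
    calc _ ≤ (3 * (D + 1) + 1) / (n * z.im * ε) := by gcongr
      _ = _ := by rw [div_mul_div_comm, mul_one, mul_comm ε]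
  have h4 : (frac fun a : HE n D => ¬ Cpl H z (ptsEx π o α I) a.1 ε) =
      frac fun y => ¬ Cpl H z (ptsEx π o α I) y ε :=
    frac_fst (B := Fin (D + 1)) fun y => ¬ Cpl H z (ptsEx π o α I) y ε
  have h5 : (frac fun a : HE n D => ¬ Cpl H z (ptsEx π o α I) (π.1 a).1 ε) =
      frac fun a : HE n D => ¬ Cpl H z (ptsEx π o α I) a.1 ε :=
    frac_equiv π.1 fun a : HE n D => ¬ Cpl H z (ptsEx π o α I) a.1 ε
  refine (frac_mono (Q := fun a : HE n D => ¬ Cpl H z (ptsEx π o α I) a.1 ε ∨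
    ¬ Cpl H z (ptsEx π o α I) (π.1 a).1 ε) fun a ha => ?_).trans ((frac_or_le _ _).trans ?_)
  · unfold ThreeU at ha
    rw [Three_upd π o α hj, Function.update_self] at ha
    exact not_and_or.1 ha
  · rw [h5, h4, mul_div_assoc, mul_assoc]
    linarith

theorem Three_ign {n D : ℕ} (H : Matrix (Fin n) (Fin n) ℝ) (z : ℂ) (ε : ℝ) (π : Pairing n D)
    (o : Fin n) {I : Finset (Fin (D + 1))} {j i : Fin (D + 1)} (hi : i ∉ I) (hji : j ≠ i)
    (α : Fin (D + 1) → HE n D) (a : HE n D) :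
    ThreeU H z ε π o I j (Function.update α i a) ↔ ThreeU H z ε π o I j α := by
  unfold ThreeU
  rw [Three_upd π o α hi, Function.update_of_ne hji]

theorem Three_sub {n D : ℕ} (π : Pairing n D) (o : Fin n) (α : Fin (D + 1) → HE n D)
    (I : Finset (Fin (D + 1))) (k : Fin (D + 1)) :
    ptsEx π o α I ⊆ ptsEx π o α (I.erase k) ∪ {(α k).1, (π.1 (α k)).1} := by
  intro x hx
  simp only [ptsEx, Finset.mem_union, Finset.mem_insert, Finset.mem_image, Finset.mem_erase,
    Finset.mem_singleton] at hx ⊢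
  rcases hx with (hx | ⟨i, hi, rfl⟩) | ⟨i, hi, rfl⟩
  · exact Or.inl (Or.inl (Or.inl hx))
  · by_cases e : i = k
    · exact Or.inr (Or.inl (by rw [e]))
    · exact Or.inl (Or.inl (Or.inr ⟨i, ⟨e, hi⟩, rfl⟩))
  · by_cases e : i = k
    · exact Or.inr (Or.inr (by rw [e]))
    · exact Or.inl (Or.inr ⟨i, ⟨e, hi⟩, rfl⟩)

theorem Three_mem {n D : ℕ} (π : Pairing n D) (o : Fin n) (α : Fin (D + 1) → HE n D)
    {I : Finset (Fin (D + 1))} {k : Fin (D + 1)} (hk : k ∈ I) :
    ({(α k).1, (π.1 (α k)).1} : Finset (Fin n)) ⊆ ptsEx π o α I := by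
  intro x hx
  simp only [ptsEx, Finset.mem_union, Finset.mem_insert, Finset.mem_image,
    Finset.mem_singleton] at hx ⊢
  rcases hx with rfl | rfl
  · exact Or.inl (Or.inr ⟨k, hk, rfl⟩)
  · exact Or.inr ⟨k, hk, rfl⟩

/-- `β = frac ¬GoodE`, `q = C/K`, `ε = μ/64`, `ε₂ = ε/4`.  Given the other coordinates, `FailB j` has conditional probability
`≤ w = β + 2q` in `α j` (`ptsEx .. (univ.erase j)` ignores `α j`; `frac_not_cpl`, `card_ptsEx_le`, `frac_fst`, `frac_equiv`).
Fix three distinct indices `i₀ i₁ i₂`, `I₀ = univ \ {i₀,i₁,i₂}`, and for `j ≠ l` among them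
`U j l = ¬ (Cpl (ptsEx (insert l I₀)) a_j ε₂ ∧ Cpl (..) b_j ε₂)`, which ignores the third index `i` and has fraction `≤ 2q`
(`frac_le_of_update`).  If all blocks fail then (A) some `α k`, `k` among the three, is not good, and `FailB j` for another `j`; or
(B) some `U j l` and `FailB i`; otherwise `Cpl.union` (`S = ptsEx (insert i₁ I₀)`, block `i₂` good: `im_form_ge`;
`ptsEx (univ.erase i₀) = S ∪ {a_{i₂}, b_{i₂}}`; `Cpl.mono_set`) contradicts `FailB i₀`.  `frac_and_le` in each case. -/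
theorem three {D : ℕ} (hD : 2 ≤ D) {μ : ℝ} (hμ : 0 < μ) : ∃ C : ℝ, 0 < C ∧
    ∀ (n : ℕ) (s : ℝ) (ω : Fin n → J) (z m : ℂ), 0 < z.im → μ ≤ m.im → ‖m‖ ^ 2 ≤ 1 / 2 →
      ∀ (π : Pairing n D) (o : Fin n),
        (frac fun α => ∀ j, FailB s ω z m (μ / 16) (μ / 64) π o α j) ≤
          C * ((frac fun h => ¬ GoodE s ω z m (μ / 16) π h) + 1 / (n * z.im)) ^ 2 := by
  set Q : ℝ := 2 * (3 * (D + 1) + 1) / (μ / 256) with hQ
  have hQ0 : 0 ≤ Q := by positivity
  refine ⟨5 * (1 + Q) ^ 2, by positivity, fun n s ω z m hz hm hm2 π o => ?_⟩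
  set H := ham s π.1 ω with hH
  have hHs : H.IsSymm := ham_isSymm π.2.1 s ω
  set β := frac fun h => ¬ GoodE s ω z m (μ / 16) π h with hβ
  set k : ℝ := 1 / (n * z.im) with hk
  have hβ0 : 0 ≤ β := frac_nonneg _
  have hk0 : 0 ≤ k := by positivity
  set y := (1 + Q) * (β + k) with hy
  have hy0 : 0 ≤ y := by positivity
  have hβy : β ≤ y := by rw [hy]; nlinarith [mul_nonneg hQ0 hβ0, mul_nonneg hQ0 hk0]
  have hQy : β + Q * k ≤ y := by rw [hy]; nlinarith [mul_nonneg hQ0 hβ0]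
  have hF : ∀ j α, (frac fun a => FailB s ω z m (μ / 16) (μ / 64) π o (Function.update α j a) j) ≤
      y := by
    intro j α
    have h1 := Three_cond H hz (ε := μ / 64) (by positivity) π o
      (Finset.notMem_erase j Finset.univ) α
    have h2 : 2 * (3 * ((D : ℝ) + 1) + 1) / (μ / 64) ≤ Q := by
      rw [hQ]
      gcongr
      norm_num
    refine (frac_mono (Q := fun a => ¬ GoodE s ω z m (μ / 16) π a ∨
      ThreeU H z (μ / 64) π o (Finset.univ.erase j) j (Function.update α j a))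
      fun a ha => ?_).trans ((frac_or_le _ _).trans ?_)
    · unfold FailB at ha
      unfold ThreeU
      rw [Function.update_self] at ha ⊢
      exact not_and_or.1 ha
    · have := mul_le_mul_of_nonneg_right h2 hk0
      linarith
  have hG : ∀ i j, i ≠ j → (frac fun α : Fin (D + 1) → HE n D =>
      ¬ GoodE s ω z m (μ / 16) π (α i) ∧ FailB s ω z m (μ / 16) (μ / 64) π o α j) ≤ y * y := by
    intro i j hij
    refine (frac_and_le j hy0 (fun α a => by rw [Function.update_of_ne hij]) (hF j)).trans ?_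
    rw [frac_eval i fun h => ¬ GoodE s ω z m (μ / 16) π h]
    gcongr
  have hU : ∀ (I : Finset (Fin (D + 1))) i j, i ∉ I → j ∉ I → j ≠ i →
      (frac fun α : Fin (D + 1) → HE n D => ThreeU H z (μ / 256) π o I j α ∧
        FailB s ω z m (μ / 16) (μ / 64) π o α i) ≤ y * y := by
    intro I i j hi hj hji
    refine (frac_and_le i hy0 (Three_ign H z _ π o hi hji) (hF i)).trans ?_
    gcongr
    refine frac_le_of_update j hy0 fun α => ?_
    have := Three_cond H hz (ε := μ / 256) (by positivity) π o hj α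
    refine this.trans ?_
    change Q * k ≤ y
    linarith
  set i₀ : Fin (D + 1) := ⟨0, by omega⟩
  set i₁ : Fin (D + 1) := ⟨1, by omega⟩
  set i₂ : Fin (D + 1) := ⟨2, by omega⟩
  have e01 : i₀ ≠ i₁ := by simp [i₀, i₁]
  have e02 : i₀ ≠ i₂ := by simp [i₀, i₂, Fin.ext_iff]
  have e12 : i₁ ≠ i₂ := by simp [i₁, i₂]
  set I₁ := (Finset.univ.erase i₀).erase i₂ with hI₁
  set I₂ := (Finset.univ.erase i₀).erase i₁ with hI₂
  have g1 := hG i₀ i₁ e01
  have g2 := hG i₂ i₁ e12.symm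
  have g3 := hU I₁ i₀ i₂ (by simp [hI₁]) (by simp [hI₁]) e02.symm
  have g4 := hU I₁ i₂ i₀ (by simp [hI₁]) (by simp [hI₁]) e02
  have g5 := hU I₂ i₁ i₀ (by simp [hI₂]) (by simp [hI₂]) e01
  have key : ∀ α : Fin (D + 1) → HE n D, (∀ j, FailB s ω z m (μ / 16) (μ / 64) π o α j) →
      (¬ GoodE s ω z m (μ / 16) π (α i₀) ∧ FailB s ω z m (μ / 16) (μ / 64) π o α i₁) ∨
      (¬ GoodE s ω z m (μ / 16) π (α i₂) ∧ FailB s ω z m (μ / 16) (μ / 64) π o α i₁) ∨
      (ThreeU H z (μ / 256) π o I₁ i₂ α ∧ FailB s ω z m (μ / 16) (μ / 64) π o α i₀) ∨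
      (ThreeU H z (μ / 256) π o I₁ i₀ α ∧ FailB s ω z m (μ / 16) (μ / 64) π o α i₂) ∨
      (ThreeU H z (μ / 256) π o I₂ i₀ α ∧ FailB s ω z m (μ / 16) (μ / 64) π o α i₁) := by
    intro α hα
    by_contra hc
    simp only [hα, and_true, not_or, not_not, ThreeU] at hc
    obtain ⟨c1, c2, c3, c4, c5⟩ := hc
    have hpos := im_form_ge hμ hm hm2 le_rfl
      (G := fun b c => res H z (two (α i₂).1 (π.1 (α i₂)).1 b) (two (α i₂).1 (π.1 (α i₂)).1 c)) c2
    have hsub := Three_mem π o α (I := I₂) (k := i₂) (by simp [hI₂, e02.symm, e12.symm])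
    have un : ∀ x, Cpl H z (ptsEx π o α I₁) x (μ / 256) → Cpl H z (ptsEx π o α I₂) x (μ / 256) →
        Cpl H z (ptsEx π o α (Finset.univ.erase i₀)) x (μ / 64) := by
      intro x h1 h2
      have := Cpl.union hHs hz (c := μ / 8) (ε := μ / 256) (by positivity) (by positivity)
        (by linarith) hpos c3.1 c3.2 (by positivity) h1 (h2.mono_set hsub)
      rw [show 4 * (μ / 256) = μ / 64 by ring] at this
      exact this.mono_set (Three_sub π o α _ i₂)
    exact hα i₀ ⟨c1, un _ c4.1 c5.1, un _ c4.2 c5.2⟩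
  refine (frac_mono key).trans ?_
  refine (frac_or_le _ _).trans ((add_le_add g1 ((frac_or_le _ _).trans (add_le_add g2
    ((frac_or_le _ _).trans (add_le_add g3 ((frac_or_le _ _).trans (add_le_add g4 g5))))))).trans
    (le_of_eq ?_))
  rw [hy]
  ring

end Crest.Agent.R166.PA
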