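import Crest.Agent.R166.A.RB
import Crest.Agent.R166.A.Three

/-! # Part A: large `G_oo` is doubly rare -/

set_option autoImplicit false
set_option linter.unusedVariables false
set_option linter.unusedSectionVars false

open MeasureTheory ProbabilityTheory Filter Topology Matrix
open scoped ENNReal BoundedContinuousFunction

namespace Crest.Agent.R166.PA

/-- NO additive `1/n`: for `n ≥ 2C`, `frac_α StarOK ≥ 1/2` (`frac_not_starOK`), so with `P π o` the event,
`avg_π frac_o P ≤ 2 avg_π avg2 1_{P π o} = 2 avg_π avg2 1_{P π' o}` (`avg2_swap`).  On `OK`, `P π' o` gives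
`stB π, stT π ≤ b + C/K` (`stab_stats`) and all blocks fail (`rb`); `three`, `frac_not_good`. -/
theorem cstep {D : ℕ} (hD : 2 ≤ D) {μ : ℝ} (hμ : 0 < μ) : ∃ (C L₀ : ℝ) (N : ℕ), 0 < C ∧ 0 < L₀ ∧
    ∀ n : ℕ, N ≤ n → ∀ (s : ℝ) (ω : Fin n → J) (z m : ℂ), 0 < z.im → z.im ≤ 1 → μ ≤ m.im →
      ‖m‖ ^ 2 ≤ 1 / 2 → ∀ b : ℝ, 0 ≤ b →
        (avg fun π : Pairing n D => frac fun o => stB s ω z m π ≤ b ∧ stT s ω z m π ≤ b ∧
          L₀ < ‖res (ham s π.1 ω) z o o‖) ≤ C * (b + 1 / (n * z.im)) ^ 2 := by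
  classical
  obtain ⟨L₀, hL₀, hrb⟩ := rb D hμ
  obtain ⟨C3, hC3, h3⟩ := three hD hμ
  obtain ⟨Cg, hCg, hg⟩ := frac_not_good hμ (by positivity : 0 < μ / 16)
  obtain ⟨Cs, hCs, hs⟩ := stab_stats D hμ
  obtain ⟨Co, ho⟩ := frac_not_starOK D
  obtain ⟨N, hN⟩ := exists_nat_ge (2 * Co)
  refine ⟨2 * C3 * (2 * Cg * (Cs + 1) + 1) ^ 2, L₀, N + 1, by positivity, hL₀,
    fun n hn s ω z m hz hz1 hm hm2 b hb => ?_⟩
  have hn0 : (0 : ℝ) < n := by exact_mod_cast (by omega : 0 < n)
  have hnN : (N : ℝ) ≤ n := by exact_mod_cast (by omega : N ≤ n)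
  have hm1 : ‖m‖ ≤ 1 := by nlinarith [norm_nonneg m]
  have : Nonempty (Fin n) := ⟨⟨0, by omega⟩⟩
  set P : Pairing n D → Fin n → Prop := fun π o => stB s ω z m π ≤ b ∧ stT s ω z m π ≤ b ∧
    L₀ < ‖res (ham s π.1 ω) z o o‖ with hP
  set q : ℝ := 1 / (n * z.im) with hq
  have hq0 : 0 < q := by positivity
  have step1 : ∀ π, frac (P π) ≤ 2 * avg2 π fun o α => if P π o then 1 else 0 := by
    intro π
    unfold avg2 frac
    rw [← avg_const_mul]
    refine avg_mono fun o => ?_
    by_cases h : P π o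
    · have h1 := ho n π o
      rw [frac_not] at h1
      have h2 : Co / n ≤ 1 / 2 := by rw [div_le_iff₀ hn0]; linarith
      simp only [h, if_true]
      have h4 : frac (fun α => StarOK π.1 o α) = avg fun α => if StarOK π.1 o α then (1 : ℝ) else 0 := by
        unfold frac; congr
      linarith
    · simp [h, avg_zero]
  have step2 : ∀ π, (avg2 π fun o α => if P (sw π o α) o then (1 : ℝ) else 0) ≤
      C3 * ((2 * Cg * (Cs + 1) + 1) * (b + q)) ^ 2 := by
    intro π
    by_cases hπ : stB s ω z m π ≤ b + Cs * q ∧ stT s ω z m π ≤ b + Cs * q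
    · refine (avg2_le_avg (G := fun o α =>
        if ∀ j, FailB s ω z m (μ / 16) (μ / 64) π o α j then 1 else 0) (fun o α hok => ?_)
        fun o α => by split_ifs <;> norm_num).trans (avg_le_of_le (by positivity) fun o => ?_)
      · by_cases h : P (sw π o α) o
        · rw [if_pos h, if_pos]
          intro j
          by_contra hj
          exact absurd (hrb n s ω z m hz hm hm2 π o α hok j hj) (not_le.2 h.2.2)
        · rw [if_neg h]; split_ifs <;> norm_num
      · have h4 := h3 n s ω z m hz hm hm2 π o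
        have h5 := hg n D s ω z m hz hm hm2 π
        have h6 : frac (fun α => ∀ j, FailB s ω z m (μ / 16) (μ / 64) π o α j) =
            avg fun α => if ∀ j, FailB s ω z m (μ / 16) (μ / 64) π o α j then (1 : ℝ) else 0 := by
          unfold frac; exact avg_congr fun α => by congr
        rw [← h6]
        refine h4.trans ?_
        have h7 := frac_nonneg fun h => ¬ GoodE s ω z m (μ / 16) π h
        have h8 : Cg * (stB s ω z m π + stT s ω z m π) ≤ Cg * (2 * (b + Cs * q)) := by
          gcongr; linarith [hπ.1, hπ.2]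
        gcongr
        nlinarith [mul_nonneg hCg.le hb, mul_nonneg (mul_nonneg hCg.le hCs.le) hb,
          mul_nonneg hCg.le hq0.le]
    · refine (avg2_le_avg (G := fun _ _ => 0) (fun o α hok => ?_) fun _ _ => le_rfl).trans ?_
      · rw [if_neg]
        intro h
        obtain ⟨-, a1, -, a2⟩ := hs n s ω z m hz hz1 hm hm1 π o α hok
        have e : Cs / (n * z.im) = Cs * q := by rw [hq]; ring
        rw [e] at a1 a2
        exact hπ ⟨by linarith [(abs_le.1 a1).1, h.1], by linarith [(abs_le.1 a2).1, h.2.1]⟩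
      · simp only [avg_zero]; positivity
  calc (avg fun π => frac (P π)) ≤ avg fun π => 2 * avg2 π fun o α => if P π o then 1 else 0 :=
        avg_mono step1
    _ = 2 * avg fun π => avg2 π fun o α => if P (sw π o α) o then 1 else 0 := by
        rw [avg_const_mul, avg2_swap fun a _ o _ => if P a o then (1 : ℝ) else 0]
    _ ≤ 2 * (C3 * ((2 * Cg * (Cs + 1) + 1) * (b + q)) ^ 2) := by
        gcongr; exact avg_le_of_le (by positivity) step2
    _ = _ := by ring

end Crest.Agent.R166.PA
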