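import Crest.Agent.R166.A.Cpl1

/-! # Part A: near orthogonality (MATH, part A, (f)) -/

set_option autoImplicit false
set_option linter.unusedVariables false
set_option linter.unusedSectionVars false

open MeasureTheory ProbabilityTheory Filter Topology Matrix
open scoped ENNReal BoundedContinuousFunction

namespace Crest.Agent.R166.PA

section
variable {n : ℕ} {H : Matrix (Fin n) (Fin n) ℝ} {z : ℂ} {S : Finset (Fin n)} {a b : Fin n} {c ε : ℝ}

theorem cpl2_sum (a b : Fin n) (γ : Fin 2 → ℂ) (F : Fin n → ℂ) :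
    ∑ x, (∑ i, Pi.single (two a b i) (γ i) : Fin n → ℂ) x * F x = ∑ i, γ i * F (two a b i) := by
  simp only [Finset.sum_apply, Finset.sum_mul]
  rw [Finset.sum_comm]
  refine Finset.sum_congr rfl fun i _ => ?_
  simp [Pi.single_apply]

theorem cpl2_form (hH : H.IsSymm) (hz : 0 < z.im) (γ : Fin 2 → ℂ) :
    qf H z (∑ i, Pi.single (two a b i) (γ i)) =
      (∑ i, ∑ k, (starRingEnd ℂ) (γ i) * ((res H z (two a b i) (two a b k)).im : ℂ) * γ k).re := by
  have h := ward_form hH hz (∑ i, Pi.single (two a b i) (γ i)) (∑ i, Pi.single (two a b i) (γ i))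
  have e1 : ∀ x, (starRingEnd ℂ) ((∑ i, Pi.single (two a b i) (γ i) : Fin n → ℂ) x) =
      (∑ i, Pi.single (two a b i) ((starRingEnd ℂ) (γ i)) : Fin n → ℂ) x := by
    intro x
    simp only [Finset.sum_apply, map_sum, Pi.single_apply]
    exact Finset.sum_congr rfl fun i _ => by split_ifs <;> simp
  have e2 : ∀ x, ∑ y, (∑ i, Pi.single (two a b i) ((starRingEnd ℂ) (γ i)) : Fin n → ℂ) x *
      ((res H z x y).im : ℂ) * (∑ i, Pi.single (two a b i) (γ i) : Fin n → ℂ) y =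
      (∑ i, Pi.single (two a b i) ((starRingEnd ℂ) (γ i)) : Fin n → ℂ) x *
        ∑ k, γ k * ((res H z x (two a b k)).im : ℂ) := by
    intro x
    rw [← cpl2_sum a b γ fun y => ((res H z x y).im : ℂ), Finset.mul_sum]
    exact Finset.sum_congr rfl fun y _ => by ring
  simp only [e1, e2] at h
  rw [cpl2_sum] at h
  simp only [Complex.conj_mul'] at h
  have h2 := congrArg Complex.re h
  rw [qf]
  refine Eq.trans ?_ (h2.trans ?_)
  · rw [Complex.re_ofReal_mul, Complex.re_sum]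
    congr 1
    exact Finset.sum_congr rfl fun x _ => by rw [← Complex.ofReal_pow, Complex.ofReal_re]
  · congr 1
    refine Finset.sum_congr rfl fun i _ => ?_
    rw [Finset.mul_sum]
    exact Finset.sum_congr rfl fun k _ => by ring

theorem cpl2_supp (γ : Fin 2 → ℂ) (x : Fin n) (hx : x ∉ ({a, b} : Finset (Fin n))) :
    (∑ i, Pi.single (two a b i) (γ i) : Fin n → ℂ) x = 0 := by
  simp only [Finset.mem_insert, Finset.mem_singleton, not_or] at hx
  simp [Fin.sum_univ_two, two, hx.1, hx.2]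

theorem cpl2_split (q : Fin n → ℂ) :
    q = (fun x => if x ∈ ({a, b} : Finset (Fin n)) then 0 else q x) +
      ∑ i, Pi.single (two a b i) ((![q a, if a = b then 0 else q b] : Fin 2 → ℂ) i) := by
  funext x
  by_cases hab : a = b
  · subst hab
    by_cases hx : x = a
    · subst hx; simp [Fin.sum_univ_two, two]
    · simp [Fin.sum_univ_two, two, hx]
  · by_cases hx : x = a
    · subst hx; simp [Fin.sum_univ_two, two, hab]
    · by_cases hx' : x = b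
      · subst hx'; simp [Fin.sum_univ_two, two, hab, hx]
      · simp [Fin.sum_univ_two, two, hx, hx']

/-- `ψ = G q`, `χ = G γ̃`.  `η⟨ψ,χ⟩ = q* (Im G) γ̃` (`ward_form`); `2i (Im G) q = G q - conj (G conj q)`, so
`|((Im G) conj q) a|² ≤ ε η‖ψ‖²` (`norm_res_conj`), hence `|η⟨ψ,χ⟩| ≤ √(2ε/c) √(η‖ψ‖² η‖χ‖²) ≤ (η‖ψ‖² + η‖χ‖²)/4`. -/
theorem cpl_orth (hH : H.IsSymm) (hz : 0 < z.im) (hc : 0 < c) (hε : 0 ≤ ε) (hεc : 8 * ε ≤ c)
    (hpos : ∀ γ : Fin 2 → ℂ, c * ∑ i, ‖γ i‖ ^ 2 ≤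
      (∑ i, ∑ k, (starRingEnd ℂ) (γ i) * ((res H z (two a b i) (two a b k)).im : ℂ) * γ k).re)
    (ha : Cpl H z S a ε) (hb : Cpl H z S b ε) (q : Fin n → ℂ) (hq : ∀ x, x ∉ S → q x = 0)
    (γ : Fin 2 → ℂ) :
    z.im * ∑ x, ‖(res H z *ᵥ q) x‖ ^ 2 +
        z.im * ∑ x, ‖(res H z *ᵥ ∑ i, Pi.single (two a b i) (γ i)) x‖ ^ 2 ≤
      2 * (z.im * ∑ x, ‖(res H z *ᵥ (q + ∑ i, Pi.single (two a b i) (γ i))) x‖ ^ 2) ∧
    c * ∑ i, ‖γ i‖ ^ 2 ≤ z.im * ∑ x, ‖(res H z *ᵥ ∑ i, Pi.single (two a b i) (γ i)) x‖ ^ 2 := by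
  have h0 : c * ∑ i, ‖γ i‖ ^ 2 ≤ qf H z (∑ i, Pi.single (two a b i) (γ i)) := by
    rw [cpl2_form hH hz]; exact hpos γ
  refine ⟨?_, h0⟩
  change qf H z q + qf H z _ ≤ 2 * qf H z _
  have hA := qf_nonneg (H := H) hz q
  have h1 := qf_add_ge hH hz.ne' q (∑ i, Pi.single (two a b i) (γ i))
  set R : Fin n → ℝ := fun y =>
    ‖(res H z *ᵥ q) y‖ + ‖(res H z *ᵥ fun x => (starRingEnd ℂ) (q x)) y‖ with hR
  have R0 : ∀ y, 0 ≤ R y := fun y => add_nonneg (norm_nonneg _) (norm_nonneg _)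
  have h6 : √(ε * qf H z q) ^ 2 = ε * qf H z q := Real.sq_sqrt (mul_nonneg hε hA)
  set r := √(ε * qf H z q)
  have hRr : ∀ i, R (two a b i) ≤ r + r := by
    intro i
    have : Crest.Agent.R166.Cpl H z S (two a b i) ε := by
      unfold two
      split_ifs
      · exact ha
      · exact hb
    exact add_le_add (this.norm_le hq) (this.norm_conj_le hH hz.ne' hq)
  have h2 : ∑ y, ‖(∑ i, Pi.single (two a b i) (γ i) : Fin n → ℂ) y‖ * R y ≤
      ∑ i, ‖γ i‖ * R (two a b i) := by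
    calc _ ≤ ∑ y, ∑ i, ‖(Pi.single (two a b i) (γ i) : Fin n → ℂ) y‖ * R y := by
          refine Finset.sum_le_sum fun y _ => ?_
          rw [← Finset.sum_mul, Finset.sum_apply]
          exact mul_le_mul_of_nonneg_right (norm_sum_le _ _) (R0 y)
      _ = _ := by
          rw [Finset.sum_comm]
          refine Finset.sum_congr rfl fun i _ => ?_
          rw [Finset.sum_eq_single (two a b i) (fun y _ hy => by simp [hy]) (by simp)]
          simp
  have h3 : ∀ i, ‖γ i‖ * R (two a b i) ≤ c / 2 * ‖γ i‖ ^ 2 + 2 / c * (ε * qf H z q) := by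
    intro i
    rw [← h6]
    have h7 : c / 2 * ‖γ i‖ ^ 2 + 2 / c * r ^ 2 - ‖γ i‖ * (r + r) =
        (c * ‖γ i‖ - 2 * r) ^ 2 / (2 * c) := by field_simp; ring
    have h8 : 0 ≤ (c * ‖γ i‖ - 2 * r) ^ 2 / (2 * c) := by positivity
    have h9 := mul_le_mul_of_nonneg_left (hRr i) (norm_nonneg (γ i))
    linarith
  have h4 : 2 / c * (ε * qf H z q) ≤ qf H z q / 4 := by
    have : 2 / c * (ε * qf H z q) = (8 * ε) / c * (qf H z q / 4) := by field_simp; ring
    rw [this]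
    exact mul_le_of_le_one_left (by positivity) ((div_le_one hc).2 hεc)
  rw [Fin.sum_univ_two] at h0
  rw [Fin.sum_univ_two (f := fun i => ‖γ i‖ * R (two a b i))] at h2
  have h5 := h3 0
  have h7 := h3 1
  simp only [hR] at h2 h5 h7
  linarith

/-- (f) split `q` into its part off `{a, b}` and `γ = (q a, if a = b then 0 else q b)` -/
theorem Cpl.union (hH : H.IsSymm) (hz : 0 < z.im) (hc : 0 < c) (hε : 0 ≤ ε) (hεc : 8 * ε ≤ c)
    (hpos : ∀ γ : Fin 2 → ℂ, c * ∑ i, ‖γ i‖ ^ 2 ≤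
      (∑ i, ∑ k, (starRingEnd ℂ) (γ i) * ((res H z (two a b i) (two a b k)).im : ℂ) * γ k).re)
    (ha : Cpl H z S a ε) (hb : Cpl H z S b ε) {x : Fin n} {ε' : ℝ} (hε' : 0 ≤ ε')
    (h₁ : Cpl H z S x ε') (h₂ : Cpl H z {a, b} x ε') : Cpl H z (S ∪ {a, b}) x (4 * ε') := by
  intro q hq
  have hp : ∀ v, v ∉ S → (fun x => if x ∈ ({a, b} : Finset (Fin n)) then 0 else q x) v = 0 := by
    intro v hv
    by_cases h : v ∈ ({a, b} : Finset (Fin n))
    · exact if_pos h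
    · simp only [if_neg h]
      exact hq v fun hm => (Finset.mem_union.1 hm).elim hv h
  have h0 := (cpl_orth hH hz hc hε hεc hpos ha hb _ hp ![q a, if a = b then 0 else q b]).1
  have h3 := h₁ _ hp
  have h4 := h₂ _ (cpl2_supp ![q a, if a = b then 0 else q b])
  have h5 : (res H z *ᵥ q) x = (res H z *ᵥ
      fun x => if x ∈ ({a, b} : Finset (Fin n)) then 0 else q x) x + (res H z *ᵥ
        ∑ i, Pi.single (two a b i) ((![q a, if a = b then 0 else q b] : Fin 2 → ℂ) i)) x := by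
    conv_lhs => rw [cpl2_split (a := a) (b := b) q, Matrix.mulVec_add, Pi.add_apply]
  rw [← cpl2_split] at h0
  rw [h5]
  set u := (res H z *ᵥ fun x => if x ∈ ({a, b} : Finset (Fin n)) then 0 else q x) x
  set v := (res H z *ᵥ
    ∑ i, Pi.single (two a b i) ((![q a, if a = b then 0 else q b] : Fin 2 → ℂ) i)) x
  have h6 := pow_le_pow_left₀ (norm_nonneg _) (norm_add_le u v) 2
  have h7 := mul_le_mul_of_nonneg_left h0 hε'
  nlinarith [sq_nonneg (‖u‖ - ‖v‖)]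

/-- (RB, abstract form)  `f` with `r = (H - z) f` supported on `S ∪ {a, b}`, `a ≠ b`:  `f = G r = ψ + χ` with
`γ = (r a, r b)`, `f a = ψ a + G a a γ₀ + G a b γ₁`; so `‖f a‖² + ‖r b‖² ≤ C η‖f‖²`. -/
theorem rb_abs {C₁ : ℝ} (hc : 0 < c) (hC₁ : 0 ≤ C₁) : ∃ C : ℝ, 0 < C ∧
    ∀ (n : ℕ) (H : Matrix (Fin n) (Fin n) ℝ) (z : ℂ) (S : Finset (Fin n)) (a b : Fin n) (ε : ℝ),
      H.IsSymm → 0 < z.im → 0 ≤ ε → 8 * ε ≤ c → a ≠ b →
      (∀ γ : Fin 2 → ℂ, c * ∑ i, ‖γ i‖ ^ 2 ≤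
        (∑ i, ∑ k, (starRingEnd ℂ) (γ i) * ((res H z (two a b i) (two a b k)).im : ℂ) * γ k).re) →
      (∀ i k, ‖res H z (two a b i) (two a b k)‖ ≤ C₁) → Cpl H z S a ε → Cpl H z S b ε →
      ∀ f : Fin n → ℂ, (∀ x, x ∉ S → x ≠ a → x ≠ b → ((cx H - z • 1) *ᵥ f) x = 0) →
        ‖f a - ((cx H - z • 1) *ᵥ f) b‖ ^ 2 ≤ C * (z.im * ∑ x, ‖f x‖ ^ 2) := by
  refine ⟨3 * (c / 4 + 2 * (C₁ + 1) ^ 2 / c), by positivity,
    fun n H z S a b ε hH hz hε hεc hab hpos hG ha hb f hf => ?_⟩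
  set r := (cx H - z • (1 : Matrix (Fin n) (Fin n) ℂ)) *ᵥ f with hr
  have hfr : res H z *ᵥ r = f := by
    rw [hr, Matrix.mulVec_mulVec, res_mul hH hz.ne', Matrix.one_mulVec]
  have hp : ∀ v, v ∉ S → (fun x => if x ∈ ({a, b} : Finset (Fin n)) then 0 else r x) v = 0 := by
    intro v hv
    by_cases h : v ∈ ({a, b} : Finset (Fin n))
    · exact if_pos h
    · simp only [if_neg h]
      simp only [Finset.mem_insert, Finset.mem_singleton, not_or] at h
      exact hf v hv h.1 h.2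
  obtain ⟨h0, h1⟩ := cpl_orth hH hz hc hε hεc hpos ha hb _ hp ![r a, if a = b then 0 else r b]
  have h3 := ha _ hp
  have h5 : f a = (res H z *ᵥ fun x => if x ∈ ({a, b} : Finset (Fin n)) then 0 else r x) a +
      (res H z a a * r a + res H z a b * r b) := by
    conv_lhs => rw [← hfr, cpl2_split (a := a) (b := b) r, Matrix.mulVec_add, Pi.add_apply]
    congr 1
    simp [Fin.sum_univ_two, two, hab, Matrix.mulVec_add, mul_comm]
  rw [← cpl2_split, hfr] at h0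
  rw [Fin.sum_univ_two] at h1
  simp only [Matrix.cons_val_zero, Matrix.cons_val_one, if_neg hab] at h0 h1
  have g1 : ‖res H z a a‖ ≤ C₁ := hG 0 0
  have g2 : ‖res H z a b‖ ≤ C₁ := hG 0 1
  set u := (res H z *ᵥ fun x => if x ∈ ({a, b} : Finset (Fin n)) then 0 else r x) a
  set F := z.im * ∑ x, ‖f x‖ ^ 2
  set A := z.im * ∑ x, ‖(res H z *ᵥ
    fun x => if x ∈ ({a, b} : Finset (Fin n)) then 0 else r x) x‖ ^ 2 with hA
  have A0 : 0 ≤ A := mul_nonneg hz.le (Finset.sum_nonneg fun _ _ => sq_nonneg _)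
  have h6 : ‖f a - r b‖ ≤ ‖u‖ + (C₁ + 1) * ‖r a‖ + (C₁ + 1) * ‖r b‖ := by
    rw [h5]
    have e1 := norm_sub_le (u + (res H z a a * r a + res H z a b * r b)) (r b)
    have e2 := norm_add_le u (res H z a a * r a + res H z a b * r b)
    have e3 := norm_add_le (res H z a a * r a) (res H z a b * r b)
    rw [norm_mul, norm_mul] at e3
    have e4 := mul_le_mul_of_nonneg_right g1 (norm_nonneg (r a))
    have e5 := mul_le_mul_of_nonneg_right g2 (norm_nonneg (r b))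
    nlinarith [norm_nonneg (r a)]
  have h7 := pow_le_pow_left₀ (norm_nonneg _) h6 2
  have h8 : c * (‖r a‖ ^ 2 + ‖r b‖ ^ 2) ≤ 2 * F := by linarith
  have h9 : ‖u‖ ^ 2 ≤ c / 4 * F := by
    have B0 : 0 ≤ c * (‖r a‖ ^ 2 + ‖r b‖ ^ 2) := by positivity
    have : ε * A ≤ c / 8 * (2 * F) := mul_le_mul (by linarith) (by linarith) A0 (by positivity)
    linarith
  have h10 : (C₁ + 1) ^ 2 * (‖r a‖ ^ 2 + ‖r b‖ ^ 2) ≤ 2 * (C₁ + 1) ^ 2 / c * F := by
    have : ‖r a‖ ^ 2 + ‖r b‖ ^ 2 ≤ 2 * F / c := by rw [le_div_iff₀' hc]; exact h8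
    calc _ ≤ (C₁ + 1) ^ 2 * (2 * F / c) := mul_le_mul_of_nonneg_left this (sq_nonneg _)
      _ = _ := by ring
  nlinarith [sq_nonneg (‖u‖ - (C₁ + 1) * ‖r a‖), sq_nonneg (‖u‖ - (C₁ + 1) * ‖r b‖),
    sq_nonneg ((C₁ + 1) * ‖r a‖ - (C₁ + 1) * ‖r b‖)]

end

end Crest.Agent.R166.PA
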