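import Crest.Agent.R166.G3
import Crest.Agent.R166.T0c

/-! # Part A (local law): definitions

**Terminated ports.**  `Bz = H - z`.  Cutting the edge `x y` and *loading* both ends with `m`
(`Im m ≥ μ > 0`) means subtracting `Jm m x y = edge + m (P_x + P_y)`.  All matrices obtained this way are
`Dis` (complex symmetric, real off the diagonal, `Im` of the diagonal `≤ -η`).  A loaded vertex is a `Port`;
between ports the inverse is bounded by `1/μ`, and `η ∑ₓ ‖B⁻¹ x p‖² ≤ 1/μ` for a port `p` (Ward), whatever the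
graph.  For a half-edge `h = (x, i)`, `y = (π h).1`:  `Sh` = inverse with the edge of `h` cut and loaded,
`Nh = Sh x x`, `Th = Sh x y` (transmission), `Mh = mOf m Nh` (cavity value at `x`, load at `x` removed),
`Zh = zeta m Mh = -m ((1 - m²) Nh - m)`.  `K = n η` throughout.

Everything of part A lives in the namespace `Crest.Agent.R166.PA`.  File order: Defs, Avg, Dis1, Dis2, Loc, Edge, Lip, Cpl1, Cpl2, Stab, Key1, Key2, Key3, Trans, Exch, Emp, Err2, MomA,
MomB, Mom, Scale, Init, Boot, Meas, Env, Q1-Q4, TreeE, ZClose, Loclaw, Weg, TightC, UIu, RB, Three, CStep, UIc, Tr,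
and `R166/PartA.lean`. -/

set_option autoImplicit false
set_option linter.unusedVariables false
set_option linter.unusedSectionVars false

open MeasureTheory ProbabilityTheory Filter Topology Matrix
open scoped ENNReal BoundedContinuousFunction

namespace Crest.Agent.R166.PA

noncomputable section

/-- dissipative complex symmetric matrices -/
structure Dis {ι : Type} (η : ℝ) (B : Matrix ι ι ℂ) : Prop where
  symm : ∀ x y, B x y = B y x
  off : ∀ x y, x ≠ y → (B x y).im = 0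
  diag : ∀ x, (B x x).im ≤ -η

/-- a loaded vertex -/
def Port {ι : Type} (μ : ℝ) (B : Matrix ι ι ℂ) (p : ι) : Prop := (B p p).im ≤ -μ

/-- the edge `x y` together with the loads `m` at both ends -/
def Jm {n : ℕ} (m : ℂ) (x y : Fin n) : Matrix (Fin n) (Fin n) ℂ :=
  cx (edgeM x y) + m • (Matrix.single x x 1 + Matrix.single y y 1)

/-- loaded value of the cavity value `M` -/
def nOf (m M : ℂ) : ℂ := M / (1 - m * M)

/-- cavity value of the loaded value `N` -/
def mOf (m N : ℂ) : ℂ := N / (1 + m * N)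

/-- complex uniform average -/
def cavg {A : Type} [Fintype A] (f : A → ℂ) : ℂ := (∑ a, f a) / Fintype.card A

/-- the two points `x, y` as a function on `Fin 2` (compare `ends`) -/
def two {n : ℕ} (x y : Fin n) : Fin 2 → Fin n := fun b => if b = 0 then x else y

/-- the star switch -/
def sw {n D : ℕ} (π : Pairing n D) (o : Fin n) (α : Fin (D + 1) → HE n D) : Pairing n D :=
  switchP (starSw o α) π

open Classical in
/-- average over `(o, α)` restricted to valid star switches -/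
def avg2 {n D : ℕ} (π : Pairing n D) (F : Fin n → (Fin (D + 1) → HE n D) → ℝ) : ℝ :=
  avg fun o => avg fun α => if StarOK π.1 o α then F o α else 0

section Graph
variable {n D : ℕ} (s : ℝ) (ω : Fin n → J) (z m : ℂ)

/-- `H - z` -/
def Bz (π : Pairing n D) : Matrix (Fin n) (Fin n) ℂ := cx (ham s π.1 ω) - z • 1

def Jh (π : Pairing n D) (h : HE n D) : Matrix (Fin n) (Fin n) ℂ := Jm m h.1 (π.1 h).1

/-- inverse with the edge of `h` cut and loaded -/
def Sh (π : Pairing n D) (h : HE n D) : Matrix (Fin n) (Fin n) ℂ := (Bz s ω z π - Jh m π h)⁻¹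

def Nh (π : Pairing n D) (h : HE n D) : ℂ := Sh s ω z m π h h.1 h.1

def Th (π : Pairing n D) (h : HE n D) : ℂ := Sh s ω z m π h h.1 (π.1 h).1

def Mh (π : Pairing n D) (h : HE n D) : ℂ := mOf m (Nh s ω z m π h)

def Zh (π : Pairing n D) (h : HE n D) : ℂ := zeta m (Mh s ω z m π h)

def stB (π : Pairing n D) : ℝ := avg fun h => ‖Zh s ω z m π h‖ ^ 2

def stA (π : Pairing n D) : ℂ := cavg fun h => Zh s ω z m π h

def stT (π : Pairing n D) : ℝ := avg fun h => ‖Th s ω z m π h‖ ^ 2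

/-- fraction of large cavity values -/
def tailM (T : ℝ) (π : Pairing n D) : ℝ := frac fun h => T < ‖Mh s ω z m π h‖

/-- inverse with the star at `o` cut and loaded -/
def Gst (π : Pairing n D) (o : Fin n) : Matrix (Fin n) (Fin n) ℂ :=
  (Bz s ω z π - ∑ i, Jh m π (o, i))⁻¹

/-- couplings of the ports of the cut star to the random edges -/
def err1 (π : Pairing n D) (o : Fin n) (α : Fin (D + 1) → HE n D) : ℝ :=
  ∑ i, ∑ c, (‖Gst s ω z m π o (α i).1 (π.1 (o, c)).1‖ +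
    ‖Gst s ω z m π o (π.1 (α i)).1 (π.1 (o, c)).1‖)

/-- couplings of the port `b_c` of the cut edge `α c` to the star and to the other random edges -/
def err2 (π : Pairing n D) (o : Fin n) (α : Fin (D + 1) → HE n D) : ℝ :=
  ∑ c, (∑ i, (‖Sh s ω z m π (α c) o (π.1 (α c)).1‖ +
      ‖Sh s ω z m π (α c) (π.1 (o, i)).1 (π.1 (α c)).1‖) +
    ∑ i ∈ Finset.univ.erase c, (‖Sh s ω z m π (α c) (α i).1 (π.1 (α c)).1‖ +
      ‖Sh s ω z m π (α c) (π.1 (α i)).1 (π.1 (α c)).1‖))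

def errK (π : Pairing n D) (o : Fin n) (α : Fin (D + 1) → HE n D) : ℝ :=
  err1 s ω z m (sw π o α) o α + err2 s ω z m π o α

/-- the children of `(o, j)` after the switch, as half-edges -/
def kids (π : Pairing n D) (α : Fin (D + 1) → HE n D) (j : Fin (D + 1)) : Fin D → HE n D :=
  fun c => π.1 (α (j.succAbove c))

/-- one-step error with reference `z` and perturbation `-s ω_o` -/
def eStep (π : Pairing n D) (o : Fin n) (α : Fin (D + 1) → HE n D) (j : Fin (D + 1)) : ℝ :=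
  ‖Zh s ω z m (sw π o α) (o, j) -
    zeta m (recF z (-((s * (ω o : ℝ) : ℝ) : ℂ)) fun c => Mh s ω z m π (kids π α j c))‖

/-- tree cavity value of the environment of `h` -/
def mE (π : Pairing n D) (h : HE n D) : ℂ := mT s z (envH π.1 ω h)

/-- the Green block of the edge of `h` is within `δ` of the reference block -/
def GoodE (δ : ℝ) (π : Pairing n D) (h : HE n D) : Prop :=
  ∀ b c, ‖res (ham s π.1 ω) z (ends π.1 h b) (ends π.1 h c) - gE m m b c‖ ≤ δ

end Graph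

/-- `stB` on the reference curve -/
def sB {n D : ℕ} (s : ℝ) (ω : Fin n → J) (E η : ℝ) (π : Pairing n D) : ℝ :=
  stB s ω (E + η * Complex.I) (mz D (E + η * Complex.I)) π

/-- `stT` on the reference curve -/
def sT {n D : ℕ} (s : ℝ) (ω : Fin n → J) (E η : ℝ) (π : Pairing n D) : ℝ :=
  stT s ω (E + η * Complex.I) (mz D (E + η * Complex.I)) π

/-- empirical average of a bivariate test function: graph at `E + iη`, tree at `w` -/
def stF {n D : ℕ} (s : ℝ) (ω : Fin n → J) (E η : ℝ) (w m : ℂ) (φ : ℂ × ℂ → ℝ) (π : Pairing n D) : ℝ :=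
  avg fun h => φ (Zh s ω (E + η * Complex.I) m π h, zeta m (mE s ω w π h))

/-- the same after one step of the recursion with independent children -/
def stP {n D : ℕ} (s : ℝ) (ω : Fin n → J) (E η : ℝ) (w m : ℂ) (φ : ℂ × ℂ → ℝ) (π : Pairing n D) : ℝ :=
  avg fun o : Fin n => avg fun a : Fin D → HE n D =>
    φ (zeta m (recF E (η * Complex.I - ((s * (ω o : ℝ) : ℝ) : ℂ))
          fun c => Mh s ω (E + η * Complex.I) m π (a c)),
       zeta m (recF E (w - E - ((s * (ω o : ℝ) : ℝ) : ℂ)) fun c => mE s ω w π (a c)))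

/-- the content of `ref_band` -/
def Band (D : ℕ) (κ c₀ η₁ C : ℝ) : Prop :=
  0 < c₀ ∧ 0 < η₁ ∧ η₁ ≤ 1 ∧ 0 ≤ C ∧ ∀ E : ℝ, E ^ 2 ≤ 4 * D - κ → Ref D c₀ E (mc D E) ∧
    ∀ η : ℝ, 0 < η → η ≤ η₁ → Ref D c₀ (E + η * Complex.I) (mz D (E + η * Complex.I)) ∧
      ‖mz D (E + η * Complex.I) - mc D E‖ ≤ C * η ∧ ∀ η' : ℝ, 0 < η' → η' ≤ η₁ →
        ‖mz D (E + η * Complex.I) - mz D (E + η' * Complex.I)‖ ≤ C * |η - η'|

theorem band_exists {D : ℕ} (hD : 2 ≤ D) {κ : ℝ} (hκ : 0 < κ) : ∃ c₀ η₁ C, Band D κ c₀ η₁ C := by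
  obtain ⟨c₀, η₁, C, h1, h2, h3, h4⟩ := ref_band hD hκ
  refine ⟨c₀, η₁, |C|, h1, h2, h3, abs_nonneg _, fun E hE => ⟨(h4 E hE).1, fun η hη hη' => ?_⟩⟩
  obtain ⟨a, b, c⟩ := (h4 E hE).2 η hη hη'
  refine ⟨a, b.trans (by gcongr; exact le_abs_self _), fun η' h h' => (c η' h h').trans ?_⟩
  gcongr; exact le_abs_self _

/-- every vector `G q` with `q` supported on `S` is small at `y` relative to its norm -/
def Cpl {ι : Type} [Fintype ι] [DecidableEq ι] (H : Matrix ι ι ℝ) (z : ℂ) (S : Finset ι) (y : ι)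
    (ε : ℝ) : Prop :=
  ∀ q : ι → ℂ, (∀ x, x ∉ S → q x = 0) →
    ‖(res H z *ᵥ q) y‖ ^ 2 ≤ ε * (z.im * ∑ x, ‖(res H z *ᵥ q) x‖ ^ 2)

/-- the switch points other than the ends `a_j, b_j` of `α j` (does not depend on `α j`) -/
def ptsEx {n D : ℕ} (π : Pairing n D) (o : Fin n) (α : Fin (D + 1) → HE n D) (I : Finset (Fin (D + 1))) :
    Finset (Fin n) :=
  insert o (Finset.univ.image fun i => (π.1 (o, i)).1) ∪
    (I.image fun i => (α i).1) ∪ (I.image fun i => (π.1 (α i)).1)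

/-- block `j` fails -/
def FailB {n D : ℕ} (s : ℝ) (ω : Fin n → J) (z m : ℂ) (δ ε : ℝ) (π : Pairing n D) (o : Fin n)
    (α : Fin (D + 1) → HE n D) (j : Fin (D + 1)) : Prop :=
  ¬ (GoodE s ω z m δ π (α j) ∧
    Cpl (ham s π.1 ω) z (ptsEx π o α (Finset.univ.erase j)) (α j).1 ε ∧
    Cpl (ham s π.1 ω) z (ptsEx π o α (Finset.univ.erase j)) (π.1 (α j)).1 ε)

/-- tightness of the cavity values at `η = K / n`, load `mc D E` -/
def Tight (D : ℕ) (s : ℝ) (β : Measure J) (E : ℝ) : Prop :=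
  ∀ ε : ℝ, 0 < ε → ∃ T K₀ : ℝ, ∀ K : ℝ, K₀ ≤ K → 0 < K → ∀ᶠ n in atTop,
    POm n D β {o | ε < tailM s o.2 (E + (K / n : ℝ) * Complex.I) (mc D E) T o.1} ≤ ENNReal.ofReal ε

/-- the compact pieces of the upper half plane -/
def InK (T : ℝ) (M : ℂ) : Prop := 1 / T ≤ M.im ∧ ‖M‖ ≤ T

/-- tightness of the tree values along the edges of the graph -/
def TreeTight (D : ℕ) (s : ℝ) (β : Measure J) (E : ℝ) : Prop :=
  ∀ ε : ℝ, 0 < ε → ∃ (T : ℝ) (j₀ : ℕ), 1 ≤ T ∧ ∀ j, j₀ ≤ j → ∀ᶠ n in atTop,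
    POm n D β {o | ε < frac fun h : HE n D =>
      ¬ (InK T (mE s o.2 (zj E j) o.1 h) ∧ InK T (mE s o.2 (zj E j) o.1 (o.1.1 h)))} ≤ ENNReal.ofReal ε

/-- graph and tree cavity values agree in the bounded coordinate -/
def ZClose (D : ℕ) (s : ℝ) (β : Measure J) (E : ℝ) : Prop :=
  ∀ ε : ℝ, 0 < ε → ∃ (K₀ : ℝ) (j₀ : ℕ), ∀ K : ℝ, K₀ ≤ K → 0 < K → ∀ j, j₀ ≤ j → ∀ᶠ n in atTop,
    POm n D β {o | ε < avg fun h : HE n D =>
      ‖Zh s o.2 (E + (K / n : ℝ) * Complex.I) (mc D E) o.1 h -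
        zeta (mc D E) (mE s o.2 (zj E j) o.1 h)‖ ^ 2} ≤ ENNReal.ofReal ε

/-- the part of `Im G_xx` above level `L`, averaged -/
def topY {n D : ℕ} (s : ℝ) (ω : Fin n → J) (z : ℂ) (L : ℝ) (π : Pairing n D) : ℝ :=
  avg fun x => if L < (res (ham s π.1 ω) z x x).im then (res (ham s π.1 ω) z x x).im else 0

/-- uniform integrability of `Im G_xx (E + iK/n)` -/
def UIG (D : ℕ) (s : ℝ) (β : Measure J) (E : ℝ) : Prop :=
  ∀ ε : ℝ, 0 < ε → ∃ K₀ : ℝ, ∀ ε' : ℝ, 0 < ε' → ∃ L : ℝ, ∀ K : ℝ, K₀ ≤ K → 0 < K → ∀ᶠ n in atTop,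
    POm n D β {o | ε' < topY s o.2 (E + (K / n : ℝ) * Complex.I) L o.1} ≤ ENNReal.ofReal ε

end

end Crest.Agent.R166.PA
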