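import Crest.Agent.R166.A.Defs
import Crest.Agent.R166.Spec

/-! # Part A: dissipative matrices

`v* B v` has imaginary part `∑ (B x x).im ‖v x‖²` (the off-diagonal part is real symmetric), so `B` is injective,
and with `v = B⁻¹ e_p`: `conj (v p) = v* B v`, which is the Ward identity. -/

set_option autoImplicit false
set_option linter.unusedVariables false
set_option linter.unusedSectionVars false

open MeasureTheory ProbabilityTheory Filter Topology Matrix
open scoped ENNReal BoundedContinuousFunction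

namespace Crest.Agent.R166.PA

section
variable {ι : Type} [Fintype ι] [DecidableEq ι] {η η' μ : ℝ} {B B' : Matrix ι ι ℂ}

theorem Dis1_form (hB : Dis η B) (v : ι → ℂ) :
    (∑ x, (starRingEnd ℂ) (v x) * (B *ᵥ v) x).im = ∑ x, (B x x).im * ‖v x‖ ^ 2 := by
  have e : (∑ x, (starRingEnd ℂ) (v x) * (B *ᵥ v) x).im =
      ∑ x, ∑ y, (B x y).re * ((v x).re * (v y).im - (v x).im * (v y).re) +
        ∑ x, ∑ y, (B x y).im * ((v x).re * (v y).re + (v x).im * (v y).im) := by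
    simp only [mulVec, dotProduct, Finset.mul_sum, Complex.im_sum, ← Finset.sum_add_distrib]
    refine Finset.sum_congr rfl fun x _ => Finset.sum_congr rfl fun y _ => ?_
    simp only [Complex.mul_im, Complex.mul_re, Complex.conj_re, Complex.conj_im]
    ring
  have h1 : ∑ x, ∑ y, (B x y).re * ((v x).re * (v y).im - (v x).im * (v y).re) =
      -∑ x, ∑ y, (B x y).re * ((v x).re * (v y).im - (v x).im * (v y).re) := by
    conv_lhs => rw [Finset.sum_comm]
    simp only [← Finset.sum_neg_distrib]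
    refine Finset.sum_congr rfl fun x _ => Finset.sum_congr rfl fun y _ => ?_
    rw [hB.symm y x]
    ring
  have h2 : ∑ x, ∑ y, (B x y).im * ((v x).re * (v y).re + (v x).im * (v y).im) =
      ∑ x, (B x x).im * ‖v x‖ ^ 2 := by
    refine Finset.sum_congr rfl fun x _ => ?_
    rw [Finset.sum_eq_single x (fun y _ hy => by rw [hB.off x y hy.symm, zero_mul]) (by simp),
      Complex.sq_norm, Complex.normSq_apply]
  rw [e, h2]
  linarith

theorem Dis1_det (hB : Dis η B) (hη : 0 < η) : IsUnit B.det := by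
  rw [← Matrix.isUnit_iff_isUnit_det, ← Matrix.mulVec_injective_iff_isUnit]
  refine (injective_iff_map_eq_zero (Matrix.mulVecLin B)).2 fun v hv => ?_
  have h1 := Dis1_form hB v
  rw [show B *ᵥ v = 0 from hv] at h1
  simp only [Pi.zero_apply, mul_zero, Finset.sum_const_zero, Complex.zero_im] at h1
  have h2 := (Finset.sum_eq_zero_iff_of_nonpos fun x _ =>
    mul_nonpos_of_nonpos_of_nonneg (by linarith [hB.diag x]) (sq_nonneg ‖v x‖)).1 h1.symm
  funext x
  have h3 := (mul_eq_zero.1 (h2 x (Finset.mem_univ x))).resolve_left (by linarith [hB.diag x])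
  simpa using h3

theorem Dis.mul_inv (hB : Dis η B) (hη : 0 < η) : B * B⁻¹ = 1 := by
  exact Matrix.mul_nonsing_inv B (Dis1_det hB hη)

theorem Dis.inv_mul (hB : Dis η B) (hη : 0 < η) : B⁻¹ * B = 1 := by
  exact Matrix.nonsing_inv_mul B (Dis1_det hB hη)

theorem Dis.inv_symm (hB : Dis η B) (x y : ι) : B⁻¹ x y = B⁻¹ y x := by
  have h : Bᵀ = B := by
    ext a b
    exact hB.symm b a
  have h1 := Matrix.transpose_nonsing_inv B
  rw [h] at h1
  exact (congrFun (congrFun h1 x) y).symm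

theorem Dis.ward (hB : Dis η B) (hη : 0 < η) (p : ι) :
    (B⁻¹ p p).im = ∑ x, -(B x x).im * ‖B⁻¹ x p‖ ^ 2 := by
  have h1 := Dis1_form hB fun x => B⁻¹ x p
  have h2 : ∀ x, (B *ᵥ fun x => B⁻¹ x p) x = (1 : Matrix ι ι ℂ) x p := fun x => by
    rw [← hB.mul_inv hη]
    rfl
  simp only [h2, Matrix.one_apply, mul_ite, mul_one, mul_zero, Finset.sum_ite_eq', Finset.mem_univ,
    if_true, Complex.conj_im] at h1
  simp only [neg_mul, Finset.sum_neg_distrib]
  linarith

/-- strict passivity at `p`: uses that the column `B⁻¹ · p` is not zero -/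
theorem Dis.im_pos (hB : Dis η B) (hη : 0 < η) (p : ι) : 0 < (B⁻¹ p p).im := by
  rw [hB.ward hη]
  refine Finset.sum_pos' (fun x _ => mul_nonneg (by linarith [hB.diag x]) (sq_nonneg _)) ?_
  by_contra hcon
  have h0 : ∀ x, B⁻¹ x p = 0 := fun x => by
    by_contra hx
    exact hcon ⟨x, Finset.mem_univ x, mul_pos (by linarith [hB.diag x]) (by positivity)⟩
  have h1 := congrFun (congrFun (hB.mul_inv hη) p) p
  simp [Matrix.mul_apply, h0] at h1

theorem Dis1_single (hB : Dis η B) (hη : 0 < η) {p q : ι} (hq : Port μ B q) :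
    μ * ‖B⁻¹ q p‖ ^ 2 ≤ (B⁻¹ p p).im := by
  rw [hB.ward hη]
  refine le_trans ?_ (Finset.single_le_sum (f := fun x => -(B x x).im * ‖B⁻¹ x p‖ ^ 2)
    (fun x _ => mul_nonneg (by linarith [hB.diag x]) (sq_nonneg _)) (Finset.mem_univ q))
  have : μ ≤ -(B q q).im := le_neg.1 hq
  gcongr

theorem Dis1_im_le (hB : Dis η B) (hη : 0 < η) (hμ : 0 < μ) {p : ι} (hp : Port μ B p) :
    (B⁻¹ p p).im ≤ 1 / μ := by
  have h1 := Dis1_single hB hη (p := p) hp
  have h2 := Complex.im_le_norm (B⁻¹ p p)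
  have h3 := hB.im_pos hη p
  rw [le_div_iff₀ hμ]
  have h4 : μ * (B⁻¹ p p).im ^ 2 ≤ (B⁻¹ p p).im := le_trans (by gcongr) h1
  nlinarith

/-- `μ ‖G p p‖² ≤ Im G p p ≤ ‖G p p‖`, then `μ ‖G q p‖² ≤ Im G p p ≤ 1/μ` -/
theorem Dis.port_norm (hB : Dis η B) (hη : 0 < η) (hμ : 0 < μ) {p q : ι} (hp : Port μ B p)
    (hq : Port μ B q) : ‖B⁻¹ q p‖ ≤ 1 / μ := by
  have h1 := (Dis1_single hB hη (p := p) hq).trans (Dis1_im_le hB hη hμ hp)
  refine le_of_sq_le_sq ?_ (by positivity)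
  rw [div_pow, one_pow, le_div_iff₀ (by positivity)]
  rw [le_div_iff₀ hμ] at h1
  linarith

theorem Dis.port_ward (hB : Dis η B) (hη : 0 < η) (hμ : 0 < μ) {p : ι} (hp : Port μ B p) :
    η * ∑ x, ‖B⁻¹ x p‖ ^ 2 ≤ 1 / μ := by
  refine le_trans ?_ (Dis1_im_le hB hη hμ hp)
  rw [hB.ward hη, Finset.mul_sum]
  refine Finset.sum_le_sum fun x _ => ?_
  have : η ≤ -(B x x).im := le_neg.1 (hB.diag x)
  gcongr

theorem Dis.inv_sub_inv (hB : Dis η B) (hη : 0 < η) (hB' : Dis η' B') (hη' : 0 < η') :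
    B'⁻¹ - B⁻¹ = B'⁻¹ * (B - B') * B⁻¹ := by
  rw [Matrix.mul_sub, Matrix.sub_mul, Matrix.mul_assoc, hB.mul_inv hη, hB'.inv_mul hη',
    Matrix.mul_one, Matrix.one_mul]

theorem Dis.inv_sub_inv' (hB : Dis η B) (hη : 0 < η) (hB' : Dis η' B') (hη' : 0 < η') :
    B'⁻¹ - B⁻¹ = B⁻¹ * (B - B') * B'⁻¹ := by
  rw [Matrix.mul_sub, Matrix.sub_mul, hB.inv_mul hη, Matrix.mul_assoc, hB'.mul_inv hη',
    Matrix.mul_one, Matrix.one_mul]

/-- diagonal perturbations: resolvent identity, Cauchy-Schwarz, Ward twice -/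
theorem Dis.diag_pert (hB : Dis η B) (hη : 0 < η) (hB' : Dis η' B') (hη' : 0 < η') {v : ι → ℂ}
    (hv : B - B' = diagonal v) {l : ℝ}
    (h : ∀ x, ‖v x‖ ^ 2 ≤ l ^ 2 * ((B x x).im * (B' x x).im)) (p q : ι) :
    ‖B⁻¹ q p - B'⁻¹ q p‖ ^ 2 ≤ l ^ 2 * ((B⁻¹ p p).im * (B'⁻¹ q q).im) := by
  have h1 := congrFun (congrFun (hB.inv_sub_inv hη hB' hη') q) p
  rw [hv, Matrix.sub_apply, Matrix.mul_apply] at h1
  simp only [Matrix.mul_diagonal] at h1
  have h2 : ‖B⁻¹ q p - B'⁻¹ q p‖ ≤ ∑ x, ‖B'⁻¹ x q‖ * ‖v x‖ * ‖B⁻¹ x p‖ := by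
    rw [norm_sub_rev, h1]
    refine (norm_sum_le _ _).trans_eq (Finset.sum_congr rfl fun x _ => ?_)
    rw [norm_mul, norm_mul, hB'.inv_symm q x]
  have h3 := Finset.sum_sq_le_sum_mul_sum_of_sq_le_mul Finset.univ
    (r := fun x => ‖B'⁻¹ x q‖ * ‖v x‖ * ‖B⁻¹ x p‖)
    (f := fun x => l ^ 2 * (-(B x x).im * ‖B⁻¹ x p‖ ^ 2))
    (g := fun x => -(B' x x).im * ‖B'⁻¹ x q‖ ^ 2)
    (fun x _ => mul_nonneg (sq_nonneg _) (mul_nonneg (by linarith [hB.diag x]) (sq_nonneg _)))
    (fun x _ => mul_nonneg (by linarith [hB'.diag x]) (sq_nonneg _)) (fun x _ => by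
      have := mul_le_mul_of_nonneg_right (h x) (sq_nonneg (‖B'⁻¹ x q‖ * ‖B⁻¹ x p‖))
      nlinarith)
  rw [← Finset.mul_sum, ← hB.ward hη, ← hB'.ward hη', mul_assoc] at h3
  exact le_trans (by gcongr) h3

theorem Dis.add_single (hB : Dis η B) (x : ι) (t : ℝ) :
    Dis η (B + (t : ℂ) • Matrix.single x x 1) := by
  refine ⟨fun a b => ?_, fun a b hab => ?_, fun a => ?_⟩
  · simp only [Matrix.add_apply, Matrix.smul_apply, Matrix.single_apply, hB.symm a b, and_comm]
  · have : ¬ (x = a ∧ x = b) := fun h => hab (h.1.symm.trans h.2)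
    simp [this, hB.off a b hab]
  · have := hB.diag a
    by_cases h : x = a <;> simpa [Matrix.single_apply, h] using this

/-- rank-one formula on the diagonal -/
theorem Dis.inv_add_single (hB : Dis η B) (hη : 0 < η) (x : ι) (t : ℝ) :
    1 / ((B + (t : ℂ) • Matrix.single x x 1)⁻¹ : Matrix ι ι ℂ) x x = 1 / B⁻¹ x x + t := by
  have hB' := hB.add_single x t
  have h1 := congrFun (congrFun (hB.inv_sub_inv hη hB' hη) x) x
  have n1 : B⁻¹ x x ≠ 0 := fun h => by simpa [h] using hB.im_pos hη x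
  have n2 : ((B + (t : ℂ) • Matrix.single x x 1)⁻¹ : Matrix ι ι ℂ) x x ≠ 0 := fun h => by
    have := hB'.im_pos hη x
    rw [h] at this
    simp at this
  have e : B - (B + (t : ℂ) • Matrix.single x x 1) = Matrix.single x x (-(t : ℂ)) := by
    rw [sub_add_cancel_left, Matrix.smul_single, smul_eq_mul, mul_one, Matrix.single_neg]
  rw [e, Matrix.sub_apply, Matrix.mul_assoc, Matrix.mul_apply,
    Finset.sum_eq_single x (fun y _ hy => by simp [hy]) (by simp),
    Matrix.single_mul_apply_same] at h1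
  field_simp
  linear_combination -h1

theorem Dis.continuous_inv {X : Type} [TopologicalSpace X] {F : X → Matrix ι ι ℂ} (hF : Continuous F)
    (h : ∀ t, Dis η (F t)) (hη : 0 < η) (x y : ι) : Continuous fun t => (F t)⁻¹ x y := by
  simp only [Matrix.inv_def, Ring.inverse_eq_inv, Matrix.smul_apply, smul_eq_mul]
  exact (hF.matrix_det.inv₀ fun t => (Dis1_det (h t) hη).ne_zero).mul
    (hF.matrix_adjugate.matrix_elem x y)

theorem dis_cx {H : Matrix ι ι ℝ} (hH : H.IsSymm) (z : ℂ) : Dis z.im (cx H - z • 1) := by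
  refine ⟨fun a b => ?_, fun a b hab => ?_, fun a => ?_⟩
  · simp only [cx, Matrix.sub_apply, Matrix.map_apply, Matrix.smul_apply, Matrix.one_apply,
      hH.apply a b, eq_comm]
  · simp [cx, hab]
  · simp [cx]

theorem le_mul_of_sq_le {x y l : ℝ} (hx : 0 ≤ x) (hy : 0 ≤ y) (hl : 1 ≤ l)
    (h : (x - y) ^ 2 ≤ (l - 1) ^ 2 / l * (x * y)) : x ≤ l * y := by
  by_contra hcon
  push Not at hcon
  have hl0 : 0 < l := by linarith
  rw [div_mul_eq_mul_div, le_div_iff₀ hl0] at h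
  have h1 : y ≤ l * y := le_mul_of_one_le_left hy hl
  have h2 : x ≤ l * x := le_mul_of_one_le_left hx hl
  have h3 : 0 < (x - l * y) * (l * x - y) := mul_pos (by linarith) (by linarith)
  nlinarith

theorem Dis1_pert {H : Matrix ι ι ℝ} (hH : H.IsSymm) (E : ℝ) {a b : ℝ} (ha : 0 < a) (hb : 0 < b)
    (x : ι) : 0 < (res H (E + a * Complex.I) x x).im ∧ 0 < (res H (E + b * Complex.I) x x).im ∧
      ‖res H (E + a * Complex.I) x x - res H (E + b * Complex.I) x x‖ ^ 2 ≤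
        (b / a - 1) ^ 2 / (b / a) *
          ((res H (E + a * Complex.I) x x).im * (res H (E + b * Complex.I) x x).im) := by
  have h1 := dis_cx hH (E + a * Complex.I)
  have h2 := dis_cx hH (E + b * Complex.I)
  have a1 : 0 < ((E : ℂ) + a * Complex.I).im := by simpa using ha
  have b1 : 0 < ((E : ℂ) + b * Complex.I).im := by simpa using hb
  refine ⟨h1.im_pos a1 x, h2.im_pos b1 x, ?_⟩
  have e : (b / a - 1) ^ 2 / (b / a) = √((b / a - 1) ^ 2 / (b / a)) ^ 2 :=
    (Real.sq_sqrt (by positivity)).symm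
  rw [e]
  refine h1.diag_pert a1 h2 b1 (v := fun _ => ((b - a : ℝ) : ℂ) * Complex.I) ?_ (fun y => ?_) x x
  · ext i j
    by_cases h : i = j
    · subst h
      simp
      ring
    · simp [h]
  · rw [← e]
    simp only [norm_mul, Complex.norm_real, Complex.norm_I, mul_one, Real.norm_eq_abs, sq_abs]
    simp [cx]
    apply le_of_eq
    field_simp

/-- `Im (-1/G_xx) / η` decreases.  `Q = -1/G_xx`: `Q - Q' = (G - G')/(G G')`, `diag_pert` with
`l² = (η'-η)²/(η η')`, `Im Q = Im G / ‖G‖²`, `le_mul_of_sq_le`. -/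
theorem im_neg_inv_mono {H : Matrix ι ι ℝ} (hH : H.IsSymm) (E : ℝ) {a b : ℝ} (ha : 0 < a) (hab : a ≤ b)
    (x : ι) : a * (-1 / res H (E + b * Complex.I) x x).im ≤
      b * (-1 / res H (E + a * Complex.I) x x).im := by
  have hb : 0 < b := ha.trans_le hab
  obtain ⟨h1, h2, h3⟩ := Dis1_pert hH E ha hb x
  generalize res H (E + a * Complex.I) x x = g at h1 h3 ⊢
  generalize res H (E + b * Complex.I) x x = g' at h2 h3 ⊢
  have n1 : g ≠ 0 := fun h => by simp [h] at h1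
  have n2 : g' ≠ 0 := fun h => by simp [h] at h2
  have m1 : 0 < ‖g‖ := norm_pos_iff.2 n1
  have m2 : 0 < ‖g'‖ := norm_pos_iff.2 n2
  have e : ∀ w : ℂ, (-1 / w).im = w.im / ‖w‖ ^ 2 := fun w => by
    rw [neg_div, one_div, Complex.neg_im, Complex.inv_im, Complex.sq_norm, neg_div, neg_neg]
  have h4 : ‖-1 / g' - -1 / g‖ ^ 2 = ‖g - g'‖ ^ 2 / (‖g‖ ^ 2 * ‖g'‖ ^ 2) := by
    rw [show -1 / g' - -1 / g = -((g - g') / (g * g')) by field_simp; ring, norm_neg, norm_div,
      norm_mul, div_pow, mul_pow]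
  have h5 : ((-1 / g').im - (-1 / g).im) ^ 2 ≤ ‖-1 / g' - -1 / g‖ ^ 2 := by
    rw [← Complex.sub_im, ← sq_abs]
    gcongr
    exact Complex.abs_im_le_norm _
  have h6 := le_mul_of_sq_le (x := (-1 / g').im) (y := (-1 / g).im) (l := b / a)
    (by rw [e]; positivity) (by rw [e]; positivity) ((one_le_div ha).2 hab) (by
      refine h5.trans ?_
      rw [h4, e, e, div_le_iff₀ (by positivity)]
      refine h3.trans_eq ?_
      field_simp)
  rw [div_mul_eq_mul_div, le_div_iff₀ ha] at h6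
  linarith

/-- `η Im G_xx` increases (special case of `im_res_mono`, or as above) -/
theorem im_res_diag_mono {H : Matrix ι ι ℝ} (hH : H.IsSymm) (E : ℝ) {a b : ℝ} (ha : 0 < a) (hab : a ≤ b)
    (x : ι) : a * (res H (E + a * Complex.I) x x).im ≤ b * (res H (E + b * Complex.I) x x).im := by
  have hb : 0 < b := ha.trans_le hab
  obtain ⟨h1, h2, h3⟩ := Dis1_pert hH E ha hb x
  have h6 := le_mul_of_sq_le h1.le h2.le ((one_le_div ha).2 hab) (le_trans (by
    rw [← Complex.sub_im, ← sq_abs]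
    gcongr
    exact Complex.abs_im_le_norm _) h3)
  rw [div_mul_eq_mul_div, le_div_iff₀ ha] at h6
  linarith

end

theorem avg_port_sq {n : ℕ} {η μ : ℝ} {B : Matrix (Fin n) (Fin n) ℂ} (hB : Dis η B) (hη : 0 < η)
    (hμ : 0 < μ) {p : Fin n} (hp : Port μ B p) :
    (avg fun x => ‖B⁻¹ x p‖ ^ 2) ≤ 1 / (μ * (n * η)) := by
  have h1 := hB.port_ward hη hμ hp
  have hn : (0 : ℝ) < n := Nat.cast_pos.2 p.pos
  rw [avg, Fintype.card_fin, div_le_div_iff₀ hn (by positivity)]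
  rw [le_div_iff₀ hμ] at h1
  nlinarith

end Crest.Agent.R166.PA
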