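import Crest.Agent.R166.A.Dis1

/-! # Part A: cutting edges and loading their ends -/

set_option autoImplicit false
set_option linter.unusedVariables false
set_option linter.unusedSectionVars false

open MeasureTheory ProbabilityTheory Filter Topology Matrix
open scoped ENNReal BoundedContinuousFunction

namespace Crest.Agent.R166.PA

section
variable {n : ℕ} {η η' μ : ℝ} {B B' : Matrix (Fin n) (Fin n) ℂ} {m : ℂ}

theorem Dis2_Jm_eq (m : ℂ) (x y : Fin n) : Jm m x y =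
    Matrix.single x y 1 + Matrix.single y x 1 + m • (Matrix.single x x 1 + Matrix.single y y 1) := by
  unfold Jm edgeM
  congr 1
  ext a b
  simp only [cx_apply, Matrix.add_apply, Matrix.single_apply]
  split_ifs <;> simp

theorem Dis2_Jm_apply (m : ℂ) (x y a b : Fin n) : Jm m x y a b =
    (if x = a ∧ y = b then 1 else 0) + (if y = a ∧ x = b then 1 else 0) +
      m * ((if x = a ∧ x = b then 1 else 0) + (if y = a ∧ y = b then 1 else 0)) := by
  rw [Dis2_Jm_eq]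
  simp only [Matrix.add_apply, Matrix.smul_apply, Matrix.single_apply, smul_eq_mul]

theorem Dis2_Jm_symm (m : ℂ) (x y a b : Fin n) : Jm m x y a b = Jm m x y b a := by
  rw [Dis2_Jm_apply, Dis2_Jm_apply]
  simp only [and_comm (a := x = a), and_comm (a := y = a)]
  ring

theorem Dis2_Jm_off (m : ℂ) (x y : Fin n) {a b : Fin n} (hab : a ≠ b) : (Jm m x y a b).im = 0 := by
  rw [Dis2_Jm_apply, if_neg (c := x = a ∧ x = b) fun h => hab (h.1.symm.trans h.2),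
    if_neg (c := y = a ∧ y = b) fun h => hab (h.1.symm.trans h.2)]
  split_ifs <;> simp

theorem Dis2_Jm_diag (m : ℂ) (x y a : Fin n) :
    (Jm m x y a a).im = (if x = a then m.im else 0) + (if y = a then m.im else 0) := by
  rw [Dis2_Jm_apply]
  by_cases hx : x = a <;> by_cases hy : y = a <;> simp [hx, hy]
  ring

theorem Dis2_Jm_diag_nonneg (hm : 0 ≤ m.im) (x y a : Fin n) : 0 ≤ (Jm m x y a a).im := by
  rw [Dis2_Jm_diag]
  split_ifs <;> linarith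

theorem Dis2_mul_single_mul (X Y : Matrix (Fin n) (Fin n) ℂ) (a b q p : Fin n) :
    (X * Matrix.single a b (1 : ℂ) * Y : Matrix (Fin n) (Fin n) ℂ) q p = X q a * Y b p := by
  simp [Matrix.mul_apply, Matrix.single_apply, ite_and]

theorem Jm_comm (m : ℂ) (x y : Fin n) : Jm m x y = Jm m y x := by
  rw [Dis2_Jm_eq, Dis2_Jm_eq, add_comm (Matrix.single x y 1), add_comm (Matrix.single x x 1)]

theorem Jm_mulVec (m : ℂ) (x y : Fin n) (f : Fin n → ℂ) (v : Fin n) :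
    (Jm m x y *ᵥ f) v = (if v = x then f y + m * f x else 0) + (if v = y then f x + m * f y else 0) := by
  rw [Dis2_Jm_eq]
  simp only [Matrix.add_mulVec, Matrix.smul_mulVec, Matrix.single_mulVec, Pi.add_apply, Pi.smul_apply,
    Function.update_apply, Pi.zero_apply, one_mul, smul_eq_mul]
  split_ifs <;> ring

theorem mul_Jm_mul (X Y : Matrix (Fin n) (Fin n) ℂ) (m : ℂ) (x y q p : Fin n) :
    (X * Jm m x y * Y) q p = X q x * (Y y p + m * Y x p) + X q y * (Y x p + m * Y y p) := by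
  rw [Dis2_Jm_eq]
  simp only [Matrix.mul_add, Matrix.add_mul, Matrix.mul_smul, Matrix.smul_mul, Matrix.add_apply,
    Matrix.smul_apply, Dis2_mul_single_mul, smul_eq_mul]
  ring

theorem Dis.sub_Jm (hB : Dis η B) (hm : 0 ≤ m.im) (x y : Fin n) : Dis η (B - Jm m x y) := by
  refine ⟨fun a b => ?_, fun a b hab => ?_, fun a => ?_⟩
  · rw [Matrix.sub_apply, Matrix.sub_apply, hB.symm a b, Dis2_Jm_symm m x y a b]
  · rw [Matrix.sub_apply, Complex.sub_im, hB.off a b hab, Dis2_Jm_off m x y hab, sub_zero]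
  · rw [Matrix.sub_apply, Complex.sub_im]
    linarith [hB.diag a, Dis2_Jm_diag_nonneg hm x y a]

theorem Dis.sub_sum_Jm (hB : Dis η B) (hm : 0 ≤ m.im) {I : Type} (S : Finset I) (x y : I → Fin n) :
    Dis η (B - ∑ i ∈ S, Jm m (x i) (y i)) := by
  classical
  induction S using Finset.induction_on with
  | empty => simpa using hB
  | insert a S ha ih => rw [Finset.sum_insert ha, add_comm, ← sub_sub]; exact ih.sub_Jm hm _ _

theorem Port.sub_Jm {p : Fin n} (hp : Port μ B p) (hm : 0 ≤ m.im) (x y : Fin n) :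
    Port μ (B - Jm m x y) p := by
  unfold Port at hp ⊢
  rw [Matrix.sub_apply, Complex.sub_im]
  linarith [Dis2_Jm_diag_nonneg hm x y p]

theorem Port.sub_sum_Jm {p : Fin n} (hp : Port μ B p) (hm : 0 ≤ m.im) {I : Type} (S : Finset I)
    (x y : I → Fin n) : Port μ (B - ∑ i ∈ S, Jm m (x i) (y i)) p := by
  classical
  induction S using Finset.induction_on with
  | empty => simpa using hp
  | insert a S ha ih => rw [Finset.sum_insert ha, add_comm, ← sub_sub]; exact ih.sub_Jm hm _ _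

theorem Dis.port_left (hB : Dis η B) (hη : 0 ≤ η) (hμ : 0 ≤ μ) (hm : μ ≤ m.im) (x y : Fin n) :
    Port μ (B - Jm m x y) x := by
  unfold Port
  rw [Matrix.sub_apply, Complex.sub_im, Dis2_Jm_diag]
  have := hB.diag x
  simp only [if_true]
  split_ifs <;> linarith

theorem Dis.port_right (hB : Dis η B) (hη : 0 ≤ η) (hμ : 0 ≤ μ) (hm : μ ≤ m.im) (x y : Fin n) :
    Port μ (B - Jm m x y) y := by
  rw [Jm_comm]; exact hB.port_left hη hμ hm y x

theorem Dis.port_sum_left (hB : Dis η B) (hη : 0 ≤ η) (hμ : 0 ≤ μ) (hm : μ ≤ m.im) {I : Type}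
    {S : Finset I} (x y : I → Fin n) {i : I} (hi : i ∈ S) :
    Port μ (B - ∑ i ∈ S, Jm m (x i) (y i)) (x i) := by
  classical
  rw [← Finset.add_sum_erase S _ hi, ← sub_sub]
  exact (hB.port_left hη hμ hm _ _).sub_sum_Jm (hμ.trans hm) _ _ _

theorem Dis.port_sum_right (hB : Dis η B) (hη : 0 ≤ η) (hμ : 0 ≤ μ) (hm : μ ≤ m.im) {I : Type}
    {S : Finset I} (x y : I → Fin n) {i : I} (hi : i ∈ S) :
    Port μ (B - ∑ i ∈ S, Jm m (x i) (y i)) (y i) := by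
  classical
  rw [← Finset.add_sum_erase S _ hi, ← sub_sub]
  exact (hB.port_right hη hμ hm _ _).sub_sum_Jm (hμ.trans hm) _ _ _

theorem Dis2_bound (hm1 : ‖m‖ ≤ 1) (X Y : Matrix (Fin n) (Fin n) ℂ) (x y q p : Fin n) {a : ℝ}
    (hx : ‖X q x‖ ≤ a) (hy : ‖X q y‖ ≤ a) :
    ‖(X * Jm m x y * Y) q p‖ ≤ 2 * a * (‖Y x p‖ + ‖Y y p‖) := by
  have ha : 0 ≤ a := (norm_nonneg _).trans hx
  have h1 : ∀ u v : ℂ, ‖u + m * v‖ ≤ ‖u‖ + ‖v‖ := fun u v =>
    (norm_add_le _ _).trans (add_le_add le_rfl (by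
      rw [norm_mul]; exact mul_le_of_le_one_left (norm_nonneg _) hm1))
  rw [mul_Jm_mul]
  calc _ ≤ a * (‖Y y p‖ + ‖Y x p‖) + a * (‖Y x p‖ + ‖Y y p‖) := by
        refine (norm_add_le _ _).trans (add_le_add ?_ ?_) <;> rw [norm_mul]
        · exact mul_le_mul hx (h1 _ _) (norm_nonneg _) ha
        · exact mul_le_mul hy (h1 _ _) (norm_nonneg _) ha
    _ = _ := by ring

theorem Dis2_port_two (hB : Dis η B) (hη : 0 ≤ η) (hμ : 0 ≤ μ) (hm : μ ≤ m.im) (x y : Fin n)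
    (b : Fin 2) : Port μ (B - Jm m x y) (two x y b) := by
  unfold two
  split_ifs
  · exact hB.port_left hη hμ hm x y
  · exact hB.port_right hη hμ hm x y

/-- (CUT) `(B - J)⁻¹ - B⁻¹ = (B - J)⁻¹ J B⁻¹`, the left factor joins two ports -/
theorem Dis.cut_le (hB : Dis η B) (hη : 0 < η) (hμ : 0 < μ) (hm : μ ≤ m.im) (hm1 : ‖m‖ ≤ 1)
    {I : Type} (S : Finset I) (x y : I → Fin n) {q : Fin n}
    (hq : Port μ (B - ∑ i ∈ S, Jm m (x i) (y i)) q) (p : Fin n) :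
    ‖(B - ∑ i ∈ S, Jm m (x i) (y i))⁻¹ q p - B⁻¹ q p‖ ≤
      2 / μ * ∑ i ∈ S, (‖B⁻¹ (x i) p‖ + ‖B⁻¹ (y i) p‖) := by
  have hB' := hB.sub_sum_Jm (hμ.le.trans hm) S x y
  have h1 := hB.inv_sub_inv hη hB' hη
  rw [sub_sub_cancel] at h1
  rw [← Matrix.sub_apply, h1, Matrix.mul_sum, Matrix.sum_mul, Matrix.sum_apply, Finset.mul_sum]
  refine (norm_sum_le _ _).trans (Finset.sum_le_sum fun i hi => ?_)
  refine (Dis2_bound hm1 _ _ _ _ _ _
    (hB'.port_norm hη hμ (hB.port_sum_left hη.le hμ.le hm x y hi) hq)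
    (hB'.port_norm hη hμ (hB.port_sum_right hη.le hμ.le hm x y hi) hq)).trans (le_of_eq ?_)
  ring

theorem Dis.cut_le₁ (hB : Dis η B) (hη : 0 < η) (hμ : 0 < μ) (hm : μ ≤ m.im) (hm1 : ‖m‖ ≤ 1)
    (x y : Fin n) {q : Fin n} (hq : Port μ (B - Jm m x y) q) (p : Fin n) :
    ‖(B - Jm m x y)⁻¹ q p - B⁻¹ q p‖ ≤ 2 / μ * (‖B⁻¹ x p‖ + ‖B⁻¹ y p‖) := by
  have := hB.cut_le hη hμ hm hm1 (Finset.univ : Finset Unit) (fun _ => x) (fun _ => y) (q := q)
    (by simpa using hq) p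
  simpa using this

/-- with `S = (B - J)⁻¹`, `S' = (B' - J)⁻¹`:  `S' - S = (1 + S' J) (B'⁻¹ - B⁻¹) (1 + J S)`
(because `S' = (1 + S' J) B'⁻¹`, `S = B⁻¹ (1 + J S)`, `S' - S = S' (B - B') S`) -/
theorem Dis.transfer (hB : Dis η B) (hη : 0 < η) (hB' : Dis η' B') (hη' : 0 < η') (hμ : 0 < μ)
    (hm : μ ≤ m.im) (hm1 : ‖m‖ ≤ 1) (x y : Fin n) {ε : ℝ}
    (h : ∀ b c, ‖B'⁻¹ (two x y b) (two x y c) - B⁻¹ (two x y b) (two x y c)‖ ≤ ε) (b c : Fin 2) :
    ‖(B' - Jm m x y)⁻¹ (two x y b) (two x y c) - (B - Jm m x y)⁻¹ (two x y b) (two x y c)‖ ≤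
      (1 + 4 / μ) ^ 2 * ε := by
  have hm0 : 0 ≤ m.im := hμ.le.trans hm
  have hS := hB.sub_Jm hm0 x y
  have hS' := hB'.sub_Jm hm0 x y
  have h1 := hS.inv_sub_inv hη hS' hη'
  have h2 := hB'.inv_sub_inv hη' hS' hη'
  have h3 := hB.inv_sub_inv' hη hS hη
  have h4 := hB.inv_sub_inv hη hB' hη'
  rw [sub_sub_cancel] at h2 h3
  rw [sub_sub_sub_cancel_right] at h1
  have pS : ∀ b c, ‖(B - Jm m x y)⁻¹ (two x y b) (two x y c)‖ ≤ 1 / μ := fun b c =>
    hS.port_norm hη hμ (Dis2_port_two hB hη.le hμ.le hm x y c) (Dis2_port_two hB hη.le hμ.le hm x y b)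
  have pS' : ∀ b c, ‖(B' - Jm m x y)⁻¹ (two x y b) (two x y c)‖ ≤ 1 / μ := fun b c =>
    hS'.port_norm hη' hμ (Dis2_port_two hB' hη'.le hμ.le hm x y c)
      (Dis2_port_two hB' hη'.le hμ.le hm x y b)
  obtain ⟨T, hT⟩ : ∃ T, T = (B - Jm m x y)⁻¹ := ⟨_, rfl⟩
  obtain ⟨T', hT'⟩ : ∃ T', T' = (B' - Jm m x y)⁻¹ := ⟨_, rfl⟩
  rw [← hT] at h1 h3 pS ⊢
  rw [← hT'] at h1 h2 pS' ⊢
  obtain ⟨Δ, hΔ⟩ : ∃ Δ, Δ = B'⁻¹ - B⁻¹ := ⟨_, rfl⟩
  have hΔ' : ∀ b c, ‖Δ (two x y b) (two x y c)‖ ≤ ε := fun b c => by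
    rw [hΔ, Matrix.sub_apply]; exact h b c
  obtain ⟨W, hW⟩ : ∃ W, W = Δ + Δ * Jm m x y * T := ⟨_, rfl⟩
  have e : T' - T = W + T' * Jm m x y * W := by
    have e1 : T' = (1 + T' * Jm m x y) * B'⁻¹ := by
      rw [Matrix.add_mul, Matrix.one_mul, ← h2]; abel
    have e2 : T = B⁻¹ * (1 + Jm m x y * T) := by
      rw [Matrix.mul_add, Matrix.mul_one, ← Matrix.mul_assoc, ← h3]; abel
    calc T' - T = T' * (B - B') * T := h1
      _ = ((1 + T' * Jm m x y) * B'⁻¹) * (B - B') * (B⁻¹ * (1 + Jm m x y * T)) := by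
        rw [← e1, ← e2]
      _ = (1 + T' * Jm m x y) * ((B'⁻¹ * (B - B') * B⁻¹) * (1 + Jm m x y * T)) := by
        simp only [Matrix.mul_assoc]
      _ = W + T' * Jm m x y * W := by
        rw [← h4, ← hΔ, Matrix.mul_add Δ, Matrix.mul_one, ← Matrix.mul_assoc Δ, ← hW, Matrix.add_mul,
          Matrix.one_mul]
  have hε : 0 ≤ ε := (norm_nonneg _).trans (hΔ' 0 0)
  have hWb : ∀ b c, ‖W (two x y b) (two x y c)‖ ≤ (1 + 4 / μ) * ε := fun b c => by
    rw [hW, Matrix.add_apply]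
    have a1 := Dis2_bound hm1 Δ T x y (two x y b) (two x y c) (hΔ' b 0) (hΔ' b 1)
    have a2 : ‖T x (two x y c)‖ ≤ 1 / μ := pS 0 c
    have a3 : ‖T y (two x y c)‖ ≤ 1 / μ := pS 1 c
    calc _ ≤ ε + 2 * ε * (1 / μ + 1 / μ) :=
          (norm_add_le _ _).trans (add_le_add (hΔ' b c) (a1.trans (by gcongr)))
      _ = _ := by ring
  rw [← Matrix.sub_apply, e, Matrix.add_apply]
  have a1 := Dis2_bound hm1 T' W x y (two x y b) (two x y c) (pS' b 0) (pS' b 1)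
  have a2 : ‖W x (two x y c)‖ ≤ (1 + 4 / μ) * ε := hWb 0 c
  have a3 : ‖W y (two x y c)‖ ≤ (1 + 4 / μ) * ε := hWb 1 c
  calc _ ≤ (1 + 4 / μ) * ε + 2 * (1 / μ) * ((1 + 4 / μ) * ε + (1 + 4 / μ) * ε) :=
        (norm_add_le _ _).trans (add_le_add (hWb b c) (a1.trans (by gcongr)))
    _ = _ := by ring

end

end Crest.Agent.R166.PA
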