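import Crest.Agent.R166.A.Avg
import Crest.Agent.R166.T0e
import Crest.Agent.R166.T1

/-! # Part A: `ab_step` and `endo` for empirical laws

Put `⊤` σ-algebra on `A`, `μ = (uniformOn univ).map M`; `Measure.pi_map_pi` (or `measurePreserving_pi`),
`pi_uniformOn_univ`, `integral_uniformOn_univ` (real and imaginary parts for `cavg`).  The integrands need only be
a.e. strongly measurable: they are measurable (`zeta`, `recF` are rational), or use that the laws are finitely supported. -/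

set_option autoImplicit false
set_option linter.unusedVariables false
set_option linter.unusedSectionVars false

open MeasureTheory ProbabilityTheory Filter Topology Matrix
open scoped ENNReal BoundedContinuousFunction

namespace Crest.Agent.R166.PA

section
variable {A X : Type} [Fintype A] [MeasurableSpace A] [DiscreteMeasurableSpace A]
  [MeasurableSpace X] [MeasurableSingletonClass X]

theorem Emp_prob [Nonempty A] (M : A → X) :
    IsProbabilityMeasure ((uniformOn (Set.univ : Set A)).map M) :=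
  Measure.isProbabilityMeasure_map Measurable.of_discrete.aemeasurable

theorem Emp_ae (M : A → X) {P : X → Prop} (h : ∀ a, P (M a)) :
    ∀ᵐ x ∂((uniformOn (Set.univ : Set A)).map M), P x := by
  have h1 : ∀ᵐ x ∂((uniformOn (Set.univ : Set A)).map M), x ∈ Set.range M :=
    (ae_map_iff Measurable.of_discrete.aemeasurable (Set.finite_range M).measurableSet).2
      (ae_of_all _ fun a => ⟨a, rfl⟩)
  filter_upwards [h1] with x ⟨a, ha⟩ using ha ▸ h a

theorem Emp_int {E : Type} [NormedAddCommGroup E] [NormedSpace ℝ E] (M : A → X) (f : X → E) :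
    ∫ x, f x ∂((uniformOn (Set.univ : Set A)).map M) =
      ∫ a, f (M a) ∂(uniformOn (Set.univ : Set A)) := by
  refine integral_map Measurable.of_discrete.aemeasurable ?_
  rw [← Measure.restrict_eq_self_of_ae_mem (Emp_ae M (P := (· ∈ Set.range M)) fun a => ⟨a, rfl⟩)]
  exact (IntegrableOn.of_finite (f := f) (Set.finite_range M)).aestronglyMeasurable

theorem Emp_real (M : A → X) (P : X → Prop) :
    ((uniformOn (Set.univ : Set A)).map M).real {x | P x} = frac fun a => P (M a) := by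
  classical
  have h1 : {x | P x} =ᵐ[(uniformOn (Set.univ : Set A)).map M] {x | P x ∧ x ∈ Set.range M} :=
    Emp_ae M (P := fun x => P x = (P x ∧ x ∈ Set.range M)) fun a => by simp
  rw [measureReal_congr h1, map_measureReal_apply Measurable.of_discrete
    ((Set.finite_range M).subset fun x hx => hx.2).measurableSet, ← uniformOn_univ_real]
  congr 1
  ext a
  simp

theorem Emp_pi [Nonempty A] {D : ℕ} (M : A → X) :
    (Measure.pi fun _ : Fin D => (uniformOn (Set.univ : Set A)).map M) =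
      (uniformOn (Set.univ : Set (Fin D → A))).map fun a c => M (a c) := by
  rw [← pi_uniformOn_univ, Measure.pi_map_pi fun _ => Measurable.of_discrete.aemeasurable]

theorem Emp_cint (f : A → ℂ) : ∫ a, f a ∂(uniformOn (Set.univ : Set A)) = cavg f := by
  rw [integral_fintype Integrable.of_finite]
  unfold cavg
  rw [Finset.sum_div]
  refine Finset.sum_congr rfl fun a _ => ?_
  rw [Measure.real, uniformOn_univ_singleton, Complex.real_smul, ENNReal.toReal_inv,
    ENNReal.toReal_natCast, div_eq_inv_mul]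
  simp

end

theorem ab_emp {D : ℕ} (hD : 2 ≤ D) {c₀ : ℝ} (hc : 0 < c₀) : ∃ C : ℝ, 0 < C ∧
    ∀ z m : ℂ, Ref D c₀ z m → ∀ (A : Type) [Fintype A] [Nonempty A] (M : A → ℂ), (∀ a, 0 < (M a).im) →
      ∀ t : ℂ, 0 ≤ t.im →
      ‖(cavg fun a : Fin D → A => zeta m (recF z t fun c => M (a c))) -
          D * m ^ 2 * cavg fun a => zeta m (M a)‖ ≤ C * ((avg fun a => ‖zeta m (M a)‖ ^ 2) + ‖t‖) ∧
      (avg fun a : Fin D → A => ‖zeta m (recF z t fun c => M (a c))‖ ^ 2) ≤
        3 / 4 * (avg fun a => ‖zeta m (M a)‖ ^ 2) +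
          C * (‖cavg fun a => zeta m (M a)‖ ^ 2 + (avg fun a => ‖zeta m (M a)‖ ^ 2) ^ 2 + ‖t‖ ^ 2) := by
  obtain ⟨C, hC, H⟩ := ab_step hD hc
  refine ⟨C, hC, fun z m hr A _ _ M hM t ht => ?_⟩
  let _ : MeasurableSpace A := ⊤
  have : DiscreteMeasurableSpace A := ⟨fun _ => trivial⟩
  have := Emp_prob M
  have h := H z m hr ((uniformOn (Set.univ : Set A)).map M) (Emp_ae M hM) t ht
  rw [Emp_pi] at h
  simp only [Emp_int, Emp_cint, integral_uniformOn_univ] at h
  exact h

theorem endo_emp {D : ℕ} (hD : 2 ≤ D) {c₀ : ℝ} (hc : 0 < c₀) : ∃ δ τ s₁ C : ℝ, 0 < δ ∧ 0 < τ ∧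
    0 < s₁ ∧ 0 < C ∧ ∀ z m : ℂ, Ref D c₀ z m → ∀ ε : ℝ, 0 < ε →
      ∃ (Φ : Finset C(ℂ × ℂ, ℝ)) (ε' : ℝ), 0 < ε' ∧
        ∀ (A O : Type) [Fintype A] [Nonempty A] [Fintype O] [Nonempty O] (P Q : A → ℂ) (t u : O → ℂ)
          (σ : ℝ), (∀ a, 0 < (P a).im ∧ 0 < (Q a).im) →
          (∀ o, 0 ≤ (t o).im ∧ 0 ≤ (u o).im ∧ ‖t o‖ ≤ s₁ ∧ ‖u o‖ ≤ s₁ ∧ ‖t o - u o‖ ≤ σ) →
          (frac fun a => δ < ‖P a - m‖) ≤ τ → (frac fun a => δ < ‖Q a - m‖) ≤ τ →
          (∀ φ ∈ Φ, |(avg fun a => φ (zeta m (P a), zeta m (Q a))) -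
            avg fun o => avg fun a : Fin D → A =>
              φ (zeta m (recF z (t o) fun c => P (a c)), zeta m (recF z (u o) fun c => Q (a c)))| ≤ ε') →
          (avg fun a => ‖zeta m (P a) - zeta m (Q a)‖ ^ 2) ≤ ε + C * σ ^ 2 := by
  obtain ⟨δ, τ, s₁, C, hδ, hτ, hs, hC, H⟩ := endo hD hc
  refine ⟨δ, τ, s₁, C, hδ, hτ, hs, hC, fun z m hr ε hε => ?_⟩
  obtain ⟨Φ, ε', hε', H⟩ := H z m hr ε hε
  refine ⟨Φ, ε', hε', fun A O _ _ _ _ P Q t u σ h1 h2 h3 h4 h5 => ?_⟩
  let _ : MeasurableSpace A := ⊤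
  have : DiscreteMeasurableSpace A := ⟨fun _ => trivial⟩
  let _ : MeasurableSpace O := ⊤
  have : DiscreteMeasurableSpace O := ⟨fun _ => trivial⟩
  have := Emp_prob fun a => (P a, Q a)
  have := Emp_prob fun o => (t o, u o)
  have h := H ((uniformOn (Set.univ : Set A)).map fun a => (P a, Q a))
    ((uniformOn (Set.univ : Set O)).map fun o => (t o, u o)) σ (Emp_ae _ h1) (Emp_ae _ h2)
    (by rw [Emp_real]; exact h3) (by rw [Emp_real]; exact h4) fun φ hφ => by
      rw [Emp_pi]
      simp only [Emp_int, integral_uniformOn_univ]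
      exact h5 φ hφ
  simp only [Emp_int, integral_uniformOn_univ] at h
  exact h

end Crest.Agent.R166.PA
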