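import Crest.Agent.R166.A.Stab
import Crest.Agent.R166.PartG

/-! # Part A: tree values of the environments under a star switch -/

set_option autoImplicit false
set_option linter.unusedVariables false
set_option linter.unusedSectionVars false

open MeasureTheory ProbabilityTheory Filter Topology Matrix
open scoped ENNReal BoundedContinuousFunction

namespace Crest.Agent.R166.PA

/-- `mT_local` gives `k`.  If the exploration from `h` up to depth `k` avoids the `3(D+1)+1` switch points then
`π'` and `π` agree on every half-edge at a visited vertex (`StarOK.spec`), `vtx_congr`; count with `card_sees_le`,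
`frac_le_card`. -/
theorem env_stab (D : ℕ) (s : ℝ) {w : ℂ} (hw : 0 < w.im) {ε : ℝ} (hε : 0 < ε) : ∃ C : ℝ, 0 < C ∧
    ∀ (n : ℕ) (ω : Fin n → J) (π : Pairing n D) (o : Fin n) (α : Fin (D + 1) → HE n D),
      StarOK π.1 o α →
        (frac fun h => ε < ‖mE s ω w (sw π o α) h - mE s ω w π h‖) ≤ C / n := by
  classical
  obtain ⟨k, hk⟩ := mT_local (D := D) (s := s) hw hε
  obtain ⟨C, hC0, hC⟩ := G6_frac_sees D k
  refine ⟨(Fintype.card (Option (Fin 3 × Fin (D + 1))) : ℕ) * C + 1, by positivity,
    fun n ω π o α hS => ?_⟩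
  obtain ⟨-, -, -, -, h5⟩ := hS.spec
  have h1 := G6_frac_sees_set hC0 (hC n π.1) (Finset.univ.image (starPts π.1 o α))
    (M := Fintype.card (Option (Fin 3 × Fin (D + 1)))) Finset.card_image_le
  rw [← frac_equiv π.1]
  refine ((frac_mono fun a ha => ?_).trans h1).trans ?_
  · by_contra hcon
    push Not at hcon
    refine absurd ha (not_lt.2 (hk _ _ fun l hl => ?_))
    have key : ∀ l : List (Fin D), l.length ≤ k → ∀ p, vtx π.1 (π.1 a) l ≠ starPts π.1 o α p :=
      fun l hl p he => hcon _ (Finset.mem_image_of_mem _ (Finset.mem_univ p)) (Or.inr ⟨l, hl, he⟩)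
    refine congrArg ω (vtx_congr (k := k) (fun l hl i _ => h5 _ fun j => ⟨?_, ?_, ?_, ?_⟩) l hl)
    · exact fun he => key l hl.le none (congrArg Prod.fst he)
    · exact fun he => key l hl.le (some (1, j)) (congrArg Prod.fst he)
    · exact fun he => key l hl.le (some (0, j)) (congrArg Prod.fst he)
    · exact fun he => key l hl.le (some (2, j)) (congrArg Prod.fst he)
  · rw [← mul_div_assoc]
    gcongr
    linarith

theorem Env_same {n D k : ℕ} {π : Pairing n D} {o : Fin n} {α : Fin (D + 1) → HE n D}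
    (hS : StarOK π.1 o α) (hB : ¬ G6_Bad π.1 k o α) (i : Fin (D + 1)) :
    ∀ l : List (Fin D), l.length ≤ k + 1 →
      vtx (sw π o α).1 (π.1 (α i)) l = vtx π.1 (π.1 (α i)) l := by
  obtain ⟨-, -, -, h4, h5⟩ := hS.spec
  unfold G6_Bad at hB
  push Not at hB
  obtain ⟨hT, hO, hD⟩ := hB
  have hsee : ∀ i (l : List (Fin D)), l.length ≤ k + 1 →
      G6_Sees π.1 (k + 1) (α i) (vtx π.1 (π.1 (α i)) l) := fun i l hl => Or.inr ⟨l, hl, rfl⟩
  refine vtx_congr fun l hl i' hi' => h5 _ fun j => ⟨?_, ?_, ?_, ?_⟩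
  · intro he
    apply (hO i).1
    have := hsee i l hl.le
    rwa [show vtx π.1 (π.1 (α i)) l = o from congrArg Prod.fst he] at this
  · intro he
    have he1 : vtx π.1 (π.1 (α i)) l = (α j).1 := congrArg Prod.fst he
    by_cases hij : i = j
    · subst hij
      have := (G6_clean (hT i)).1 l hl.le
      rw [π.2.1] at this
      exact this he1
    · exact hD i j hij _ (hsee i l hl.le) (Or.inl he1.symm)
  · intro he
    apply (hO i).2 j
    have := hsee i l hl.le
    rwa [show vtx π.1 (π.1 (α i)) l = (π.1 (o, j)).1 from congrArg Prod.fst he] at this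
  · intro he
    have he1 : vtx π.1 (π.1 (α i)) l = (π.1 (α j)).1 := congrArg Prod.fst he
    by_cases hij : i = j
    · subst hij
      have hl0 : l = [] := (G6_clean (hT i)).2 l [] hl.le (Nat.zero_le _) he1
      exact hi' hl0 (congrArg Prod.snd he)
    · exact hD i j hij _ (hsee i l hl.le) (Or.inr ⟨[], Nat.zero_le _, he1.symm⟩)

open Classical in
/-- `h = π (α i)`, root `b_i`.  At the root only the ports `≠ h.2` are read, and they are unchanged (injectivity of
`starPts`).  For `l ≠ []`, `|l| ≤ k`: `vtx π h l ∉ ptsEx π o α (univ.erase i)` except for a fraction `C/n` of the values of `α i`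
(`avg_pi_update`, `card_sees_le`, the set does not depend on `α i`), and `vtx π h l ∉ {a_i, b_i}` if `TreeLike π b_i (k+1)`
(`TreeLike.branch`); `treeLike_mean`. -/
theorem env_kids (D : ℕ) (s : ℝ) {w : ℂ} (hw : 0 < w.im) {ε : ℝ} (hε : 0 < ε) : ∃ C : ℝ, 0 < C ∧
    ∀ (n : ℕ) (ω : Fin n → J),
      (avg fun π : Pairing n D => avg2 π fun o α =>
        if ∃ i, ε < ‖mE s ω w (sw π o α) (π.1 (α i)) - mE s ω w π (π.1 (α i))‖ then 1 else 0) ≤
        C / n := by
  obtain ⟨k, hk⟩ := mT_local (D := D) (s := s) hw hε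
  obtain ⟨C, hC0, hC⟩ := G6_frac_bad D k
  obtain ⟨C', hC'⟩ := treeLike_mean D k
  refine ⟨(D + 1) * |C'| + C + 1, by positivity, fun n ω => ?_⟩
  have h1 : ∀ π : Pairing n D, (avg2 π fun o α =>
      if ∃ i, ε < ‖mE s ω w (sw π o α) (π.1 (α i)) - mE s ω w π (π.1 (α i))‖ then (1 : ℝ) else 0) ≤
      (D + 1) * frac (fun x => ¬ TreeLike π.1 x k) + C / n := by
    intro π
    refine (avg2_le_avg (G := fun o α => if G6_Bad π.1 k o α then 1 else 0) (fun o α hS => ?_)
      fun o α => by split_ifs <;> norm_num).trans ?_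
    · by_cases hB : G6_Bad π.1 k o α
      · rw [if_pos hB]; split_ifs <;> norm_num
      · rw [if_neg hB, if_neg]
        rintro ⟨i, hi⟩
        exact absurd hi (not_lt.2 (hk _ _ fun l hl =>
          congrArg ω (Env_same hS hB i l (hl.trans (Nat.le_succ k)))))
    · refine avg_le_of_le ?_ fun o => hC n π.1 o
      have := frac_nonneg fun x => ¬ TreeLike π.1 x k
      positivity
  refine (avg_mono h1).trans ?_
  rw [avg_add, avg_const_mul]
  have h2 : (avg fun _ : Pairing n D => C / n) ≤ C / n :=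
    avg_le_of_le (by positivity) fun _ => le_rfl
  have h3 : (avg fun π : Pairing n D => frac fun x => ¬ TreeLike π.1 x k) ≤ |C'| / n :=
    (hC' n).trans (by gcongr; exact le_abs_self _)
  have h4 : ((D : ℝ) + 1) * (avg fun π : Pairing n D => frac fun x => ¬ TreeLike π.1 x k) ≤
      (D + 1) * (|C'| / n) := by gcongr
  have h5 : (0 : ℝ) ≤ 1 / n := by positivity
  have e : (((D : ℝ) + 1) * |C'| + C + 1) / n = (D + 1) * (|C'| / n) + C / n + 1 / n := by ring
  rw [e]
  linarith

end Crest.Agent.R166.PA
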