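import Crest.Agent.R166.A.Loc
import Crest.Agent.R166.A.Avg

/-! # Part A: the couplings are small in mean square (Ward)

A sum of `N` terms has square `≤ N ∑ (term)²`; every term is `‖X v p‖` with `p` a port of `X⁻¹` and `v` uniform,
independent of `(X, p)`: `avg_port_sq`, `avg_pi_eval`, `avg_pi_eval₂`, `avg_HE_fst`, `avg_HE_snd`, `sum_avg_nbr`. -/

set_option autoImplicit false
set_option linter.unusedVariables false
set_option linter.unusedSectionVars false

open MeasureTheory ProbabilityTheory Filter Topology Matrix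
open scoped ENNReal BoundedContinuousFunction

namespace Crest.Agent.R166.PA

theorem Key2_add {A : Type} [Fintype A] {f g : A → ℝ} {c : ℝ} (hf : (avg fun a => f a ^ 2) ≤ c)
    (hg : (avg fun a => g a ^ 2) ≤ c) : (avg fun a => (f a + g a) ^ 2) ≤ 4 * c := by
  have h : (avg fun a => (f a + g a) ^ 2) ≤ avg fun a => 2 * f a ^ 2 + 2 * g a ^ 2 :=
    avg_mono fun a => by nlinarith [sq_nonneg (f a - g a)]
  rw [avg_add, avg_const_mul, avg_const_mul] at h
  linarith

theorem Key2_sum {A I : Type} [Fintype A] [Fintype I] (S : Finset I) {f : I → A → ℝ} {c : ℝ}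
    (hc : 0 ≤ c) (hf : ∀ i ∈ S, (avg fun a => f i a ^ 2) ≤ c) :
    (avg fun a => (∑ i ∈ S, f i a) ^ 2) ≤ (Fintype.card I : ℝ) ^ 2 * c := by
  have h : (avg fun a => (∑ i ∈ S, f i a) ^ 2) ≤ avg fun a => S.card * ∑ i ∈ S, f i a ^ 2 :=
    avg_mono fun a => sq_sum_le_card_mul_sum_sq
  rw [avg_const_mul, avg_finset_sum] at h
  have h1 := Finset.sum_le_card_nsmul S _ c hf
  rw [nsmul_eq_mul] at h1
  have h2 : (S.card : ℝ) ≤ Fintype.card I := by exact_mod_cast S.card_le_univ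
  refine h.trans ((mul_le_mul_of_nonneg_left h1 (Nat.cast_nonneg _)).trans ?_)
  rw [← mul_assoc, ← sq]
  gcongr

theorem err1_sq (D : ℕ) {μ : ℝ} (hμ : 0 < μ) : ∃ C : ℝ, 0 < C ∧
    ∀ (n : ℕ) (s : ℝ) (ω : Fin n → J) (z m : ℂ), 0 < z.im → μ ≤ m.im →
      ∀ (π : Pairing n D) (o : Fin n), (avg fun α => err1 s ω z m π o α ^ 2) ≤ C / (n * z.im) := by
  refine ⟨(D + 1) ^ 2 * ((D + 1) ^ 2 * (4 * (1 / μ))), by positivity,
    fun n s ω z m hz hm π o => ?_⟩
  have hB := (Bz_dis s ω π z).sub_sum_Jm (hμ.le.trans hm) Finset.univ (fun _ : Fin (D + 1) => o)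
    fun i => (π.1 (o, i)).1
  have hq : ∀ c, (avg fun x => ‖Gst s ω z m π o x (π.1 (o, c)).1‖ ^ 2) ≤ 1 / (μ * (n * z.im)) :=
    fun c => avg_port_sq hB hz hμ ((Bz_dis s ω π z).port_sum_right hz.le hμ.le hm
      (fun _ : Fin (D + 1) => o) (fun i => (π.1 (o, i)).1) (Finset.mem_univ c))
  refine (Key2_sum (c := (Fintype.card (Fin (D + 1)) : ℝ) ^ 2 * (4 * (1 / (μ * (n * z.im))))) _
    (by positivity) fun i _ => Key2_sum _ (by positivity) fun c _ => Key2_add ?_ ?_).trans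
    (le_of_eq ?_)
  · rw [avg_pi_eval i fun a : HE n D => ‖Gst s ω z m π o a.1 (π.1 (o, c)).1‖ ^ 2,
      avg_HE_fst fun x => ‖Gst s ω z m π o x (π.1 (o, c)).1‖ ^ 2]
    exact hq c
  · rw [avg_pi_eval i fun a : HE n D => ‖Gst s ω z m π o (π.1 a).1 (π.1 (o, c)).1‖ ^ 2,
      avg_HE_snd π.1 fun x => ‖Gst s ω z m π o x (π.1 (o, c)).1‖ ^ 2]
    exact hq c
  · rw [Fintype.card_fin, ← div_div]
    push_cast
    ring

theorem err2_sq (D : ℕ) {μ : ℝ} (hμ : 0 < μ) : ∃ C : ℝ, 0 < C ∧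
    ∀ (n : ℕ) (s : ℝ) (ω : Fin n → J) (z m : ℂ), 0 < z.im → μ ≤ m.im →
      ∀ π : Pairing n D, (avg fun o => avg fun α => err2 s ω z m π o α ^ 2) ≤ C / (n * z.im) := by
  refine ⟨(D + 1) ^ 2 * (4 * ((D + 1) ^ 2 * (4 * ((D + 1) * (1 / μ))))), by positivity,
    fun n s ω z m hz hm π => ?_⟩
  have hq : ∀ h, (avg fun x => ‖Sh s ω z m π h x (π.1 h).1‖ ^ 2) ≤ 1 / (μ * (n * z.im)) :=
    fun h => avg_port_sq (Sh_dis s ω π h (hμ.le.trans hm)) hz hμ (Sh_port_snd s ω π h hz hμ hm)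
  set q := 1 / (μ * (n * z.im)) with hqd
  have hq0 : 0 ≤ q := by positivity
  have hq1 : q ≤ (D + 1) * q := le_mul_of_one_le_left hq0 (by simp)
  rw [← avg_prod fun p : Fin n × (Fin (D + 1) → HE n D) => err2 s ω z m π p.1 p.2 ^ 2]
  refine (Key2_sum (c := 4 * ((Fintype.card (Fin (D + 1)) : ℝ) ^ 2 * (4 * ((D + 1) * q)))) _
    (by positivity) fun c _ => Key2_add
      (Key2_sum _ (by positivity) fun i _ => Key2_add ?_ ?_)
      (Key2_sum _ (by positivity) fun i hi => Key2_add ?_ ?_)).trans (le_of_eq ?_)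
  · rw [avg_prod, avg_comm]
    exact avg_le_of_le (by positivity) fun α => (hq (α c)).trans hq1
  · rw [avg_prod, avg_comm]
    refine avg_le_of_le (by positivity) fun α => ?_
    have h1 := sum_avg_nbr π.1 fun x => ‖Sh s ω z m π (α c) x (π.1 (α c)).1‖ ^ 2
    have h2 := Finset.single_le_sum (f := fun i => avg fun o : Fin n =>
      ‖Sh s ω z m π (α c) (π.1 (o, i)).1 (π.1 (α c)).1‖ ^ 2)
      (fun i _ => avg_nonneg fun o => sq_nonneg _) (Finset.mem_univ i)
    exact h2.trans (h1.le.trans (mul_le_mul_of_nonneg_left (hq (α c)) (by positivity)))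
  · rw [avg_prod]
    refine avg_le_of_le (by positivity) fun o => ?_
    rw [avg_pi_eval₂ (Finset.ne_of_mem_erase hi).symm
      fun a b : HE n D => ‖Sh s ω z m π a b.1 (π.1 a).1‖ ^ 2]
    refine avg_le_of_le (by positivity) fun a => ?_
    rw [avg_HE_fst fun x => ‖Sh s ω z m π a x (π.1 a).1‖ ^ 2]
    exact (hq a).trans hq1
  · rw [avg_prod]
    refine avg_le_of_le (by positivity) fun o => ?_
    rw [avg_pi_eval₂ (Finset.ne_of_mem_erase hi).symm
      fun a b : HE n D => ‖Sh s ω z m π a (π.1 b).1 (π.1 a).1‖ ^ 2]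
    refine avg_le_of_le (by positivity) fun a => ?_
    rw [avg_HE_snd π.1 fun x => ‖Sh s ω z m π a x (π.1 a).1‖ ^ 2]
    exact (hq a).trans hq1
  · rw [Fintype.card_fin, hqd, ← div_div]
    push_cast
    ring

/-- `avg2_swap` moves `err1 (sw π o α)` to `err1 π` -/
theorem errK_sq (D : ℕ) {μ : ℝ} (hμ : 0 < μ) : ∃ C : ℝ, 0 < C ∧
    ∀ (n : ℕ) (s : ℝ) (ω : Fin n → J) (z m : ℂ), 0 < z.im → μ ≤ m.im →
      (avg fun π : Pairing n D => avg2 π fun o α => errK s ω z m π o α ^ 2) ≤ C / (n * z.im) := by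
  obtain ⟨C₁, hC₁, h₁⟩ := err1_sq D hμ
  obtain ⟨C₂, hC₂, h₂⟩ := err2_sq D hμ
  refine ⟨2 * C₁ + 2 * C₂, by positivity, fun n s ω z m hz hm => ?_⟩
  have a1 : (avg fun π : Pairing n D => avg2 π fun o α => err1 s ω z m (sw π o α) o α ^ 2) ≤
      C₁ / (n * z.im) := by
    rw [avg2_swap fun _ π' o α => err1 s ω z m π' o α ^ 2]
    exact avg_le_of_le (by positivity) fun π =>
      (avg2_le_avg (fun _ _ _ => le_rfl) fun _ _ => sq_nonneg _).trans
        (avg_le_of_le (by positivity) fun o => h₁ n s ω z m hz hm π o)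
  have a2 : (avg fun π : Pairing n D => avg2 π fun o α => err2 s ω z m π o α ^ 2) ≤
      C₂ / (n * z.im) :=
    avg_le_of_le (by positivity) fun π =>
      (avg2_le_avg (fun _ _ _ => le_rfl) fun _ _ => sq_nonneg _).trans (h₂ n s ω z m hz hm π)
  have a3 : (avg fun π : Pairing n D => avg2 π fun o α => errK s ω z m π o α ^ 2) ≤
      avg fun π : Pairing n D => 2 * (avg2 π fun o α => err1 s ω z m (sw π o α) o α ^ 2) +
        2 * avg2 π fun o α => err2 s ω z m π o α ^ 2 := by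
    refine avg_mono fun π => ?_
    rw [← avg2_mul_left, ← avg2_mul_left, ← avg2_add]
    refine avg2_mono fun o α _ => ?_
    rw [errK]
    nlinarith [sq_nonneg (err1 s ω z m (sw π o α) o α - err2 s ω z m π o α)]
  rw [avg_add, avg_const_mul, avg_const_mul] at a3
  rw [add_div, mul_div_assoc, mul_div_assoc]
  linarith

end Crest.Agent.R166.PA
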