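import Crest.Agent.R166.A.Key1
import Crest.Agent.R166.A.Key2
import Crest.Agent.R166.T0d

/-! # Part A: the one-step error in mean square -/

set_option autoImplicit false
set_option linter.unusedVariables false
set_option linter.unusedSectionVars false

open MeasureTheory ProbabilityTheory Filter Topology Matrix
open scoped ENNReal BoundedContinuousFunction

namespace Crest.Agent.R166.PA

theorem Err2_pairs {A K : Type} [Fintype A] [Fintype K] [DecidableEq K] (e : A ≃ A) (a : A → ℝ) :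
    (avg fun α : K → A => ∑ i, ∑ i', if i = i' then 0 else a (e (α i)) * a (e (α i'))) ≤
      (Fintype.card K : ℝ) ^ 2 * avg a ^ 2 := by
  rw [avg_finset_sum, sq (Fintype.card K : ℝ), mul_assoc, ← nsmul_eq_mul, ← Finset.card_univ]
  refine Finset.sum_le_card_nsmul _ _ _ fun i _ => ?_
  rw [avg_finset_sum, ← nsmul_eq_mul]
  refine Finset.sum_le_card_nsmul _ _ _ fun i' _ => ?_
  by_cases h : i = i'
  · simp only [h, if_true, avg_zero]
    exact sq_nonneg _
  · simp only [h, if_false]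
    rw [avg_pi_eval₂ h fun x y => a (e x) * a (e y)]
    simp only [avg_const_mul, avg_mul_const, avg_equiv e a]
    exact (sq _).ge

theorem Err2_single {K : Type} [Fintype K] [DecidableEq K] {b : K → ℝ} (hb : ∀ i, 0 ≤ b i) {i i' : K}
    (h : i ≠ i') : b i * b i' ≤ ∑ i, ∑ i', if i = i' then 0 else b i * b i' := by
  have h0 : ∀ i i', 0 ≤ if i = i' then 0 else b i * b i' := fun i i' => by
    split_ifs
    exacts [le_rfl, mul_nonneg (hb i) (hb i')]
  refine le_trans ?_ (Finset.single_le_sum (f := fun i => ∑ i', if i = i' then 0 else b i * b i')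
    (fun i _ => Finset.sum_nonneg fun i' _ => h0 i i') (Finset.mem_univ i))
  refine le_trans ?_ (Finset.single_le_sum (f := fun i' => if i = i' then 0 else b i * b i')
    (fun i' _ => h0 i i') (Finset.mem_univ i'))
  simp only [h, if_false, le_refl]

/-- pointwise on `StarOK`: `eStep² ≤ C errK² + C ∑_{c ≠ c'} ‖Zh (kid c)‖² ‖Zh (kid c')‖²`: if at most one child has
`‖M‖ > 2` use `key_step` (`T = 2`, `A = 2/c₀`); otherwise two children have `‖M - m‖ ≥ 1`, so `1 ≤ C ‖Zh‖` for both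
(`zeta_pointwise`) and `eStep` is bounded.  Average: `errK_sq`; `avg_α ‖Zh (π (α i))‖² ‖Zh (π (α i'))‖² = stB²`
(`avg_pi_eval₂`, `avg_equiv`). -/
theorem err2_bound {D : ℕ} (hD : 2 ≤ D) {c₀ : ℝ} (hc : 0 < c₀) : ∃ C : ℝ, 0 < C ∧
    ∀ (n : ℕ) (s : ℝ) (ω : Fin n → J) (z m : ℂ), |s| ≤ 1 → Ref D c₀ z m → 0 < z.im →
      ∀ ψ : Pairing n D → ℝ, (∀ π, 0 ≤ ψ π ∧ ψ π ≤ 1) →
        (avg fun π => (avg2 π fun o α => avg fun j => eStep s ω z m π o α j ^ 2) * ψ π) ≤
          C / (n * z.im) + C * avg fun π => stB s ω z m π ^ 2 * ψ π := by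
  obtain ⟨C₁, hC₁, H₁⟩ := key_step D hc (2 / c₀) 2
  obtain ⟨C₂, hC₂, H₂⟩ := zeta_pointwise hD hc
  obtain ⟨C₃, hC₃, H₃⟩ := errK_sq D hc
  obtain ⟨K, hK, hK'⟩ : ∃ K : ℝ, 0 < K ∧ K = (2 * (2 / c₀ + 1)) ^ 2 * C₂ ^ 4 :=
    ⟨_, by positivity, rfl⟩
  refine ⟨C₁ ^ 2 * C₃ + K * (D + 1) ^ 2, by positivity, fun n s ω z m hs hR hz ψ hψ => ?_⟩
  have hm1 := ref_norm_le hR hD
  have hm0 : 0 < m.im := hc.trans_le hR.mim
  have hS : ∀ (π : Pairing n D) (α : Fin (D + 1) → HE n D), 0 ≤ ∑ i, ∑ i', if i = i' then 0 else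
      ‖Zh s ω z m π (π.1 (α i))‖ ^ 2 * ‖Zh s ω z m π (π.1 (α i'))‖ ^ 2 := fun π α =>
    Finset.sum_nonneg fun i _ => Finset.sum_nonneg fun i' _ => by
      split_ifs
      exacts [le_rfl, mul_nonneg (sq_nonneg _) (sq_nonneg _)]
  have key : ∀ (π : Pairing n D) (o : Fin n) (α : Fin (D + 1) → HE n D), StarOK π.1 o α → ∀ j,
      eStep s ω z m π o α j ^ 2 ≤ C₁ ^ 2 * errK s ω z m π o α ^ 2 + K * ∑ i, ∑ i',
        if i = i' then 0 else
          ‖Zh s ω z m π (π.1 (α i))‖ ^ 2 * ‖Zh s ω z m π (π.1 (α i'))‖ ^ 2 := by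
    intro π o α hα j
    by_cases hk : ∀ c c', 2 < ‖Mh s ω z m π (kids π α j c)‖ →
        2 < ‖Mh s ω z m π (kids π α j c')‖ → c = c'
    · have h1 := H₁ n s ω z m hs hz (ref_norm_z_le hR hc) hR.mim hm1 π o α hα j hk z
        (-((s * (ω o : ℝ) : ℝ) : ℂ)) (sub_eq_add_neg _ _).symm
      have h2 := pow_le_pow_left₀ (norm_nonneg _) h1 2
      rw [mul_pow] at h2
      exact h2.trans (le_add_of_nonneg_right (mul_nonneg hK.le (hS π α)))
    · push Not at hk
      obtain ⟨c, c', h1, h2, h3⟩ := hk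
      have hb : ∀ h, 2 < ‖Mh s ω z m π h‖ → 1 ≤ C₂ ^ 2 * ‖Zh s ω z m π h‖ ^ 2 := fun h hh => by
        have a1 := ((H₂ z m hR).1 _ (Mh_im_pos s ω π h hz hm0).le).2.2
        have a2 := norm_sub_norm_le (Mh s ω z m π h) m
        rw [min_eq_left (by linarith)] at a1
        rw [← mul_pow]
        exact one_le_pow₀ a1
      have h4 := mul_le_mul (hb _ h1) (hb _ h2) zero_le_one (by positivity)
      have h5 := Err2_single (b := fun i => ‖Zh s ω z m π (π.1 (α i))‖ ^ 2) (fun i => sq_nonneg _)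
        (fun h => h3 (Fin.succAbove_right_injective (p := j) h))
      have h6 : eStep s ω z m π o α j ≤ 2 * (2 / c₀ + 1) := by
        refine (norm_sub_le _ _).trans ?_
        have b1 := norm_Zh_le s ω (sw π o α) (o, j) hz hc hR.mim hm1
        have b2 := norm_zeta_le hc hR.mim hm1 (recF_im_pos (z := z)
          (t := -((s * (ω o : ℝ) : ℝ) : ℂ)) (M := fun c => Mh s ω z m π (kids π α j c))
          (by omega) (by simpa using hz.le) fun c => Mh_im_pos s ω π _ hz hm0).le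
        linarith
      have h7 := pow_le_pow_left₀ (norm_nonneg _) h6 2
      have h8 := mul_le_mul_of_nonneg_left h5 (pow_nonneg hC₂.le 4)
      have h9 := mul_le_mul_of_nonneg_left ((le_of_eq (one_mul 1).symm).trans (h4.trans
        ((le_of_eq (by unfold kids; ring)).trans h8))) (sq_nonneg (2 * (2 / c₀ + 1)))
      refine h7.trans (le_add_of_nonneg_of_le (mul_nonneg (sq_nonneg _) (sq_nonneg _)) ?_)
      rw [hK', mul_assoc]
      linarith
  have key2 : ∀ π : Pairing n D, (avg2 π fun o α => avg fun j => eStep s ω z m π o α j ^ 2) * ψ π ≤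
      C₁ ^ 2 * (avg2 π fun o α => errK s ω z m π o α ^ 2) +
        K * (D + 1) ^ 2 * (stB s ω z m π ^ 2 * ψ π) := by
    intro π
    have h1 := avg2_mono (π := π) fun o α hα => avg_le_of_le (add_nonneg
      (mul_nonneg (sq_nonneg _) (sq_nonneg _)) (mul_nonneg hK.le (hS π α))) (key π o α hα)
    rw [avg2_add, avg2_mul_left, avg2_mul_left] at h1
    have h2 := (avg2_le_avg (π := π) (fun o α _ => le_rfl) fun o α => hS π α).trans
      (avg_le_of_le (mul_nonneg (sq_nonneg _) (sq_nonneg _)) fun o =>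
        Err2_pairs π.1 fun h => ‖Zh s ω z m π h‖ ^ 2)
    rw [Fintype.card_fin, Nat.cast_succ] at h2
    have h3 := mul_le_mul_of_nonneg_right
      (h1.trans (add_le_add le_rfl (mul_le_mul_of_nonneg_left h2 hK.le))) (hψ π).1
    have h4 := mul_le_of_le_one_right (mul_nonneg (sq_nonneg C₁)
      (avg2_nonneg (π := π) fun o α _ => sq_nonneg (errK s ω z m π o α))) (hψ π).2
    unfold stB
    linarith
  refine (avg_mono key2).trans ?_
  rw [avg_add, avg_const_mul, avg_const_mul]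
  have h1 := mul_le_mul_of_nonneg_left (H₃ n s ω z m hz hR.mim) (sq_nonneg C₁)
  have h2 : 0 ≤ avg fun π : Pairing n D => stB s ω z m π ^ 2 * ψ π :=
    avg_nonneg fun π => mul_nonneg (sq_nonneg _) (hψ π).1
  have h3 : 0 ≤ K * (D + 1) ^ 2 / (n * z.im) := by positivity
  have h4 := mul_nonneg (mul_nonneg (sq_nonneg C₁) hC₃.le) h2
  rw [add_div, mul_div_assoc]
  linarith

end Crest.Agent.R166.PA
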