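import Crest.Agent.R166.A.Avg

/-! # Part A: exchangeable pairs -/

set_option autoImplicit false
set_option linter.unusedVariables false
set_option linter.unusedSectionVars false

open MeasureTheory ProbabilityTheory Filter Topology Matrix
open scoped ENNReal BoundedContinuousFunction

namespace Crest.Agent.R166.PA

theorem Exch_const {n D : ℕ} (π : Pairing n D) {c : ℝ} (hc : 0 ≤ c) :
    (avg2 π fun _ _ => c) ≤ c :=
  (avg2_le_avg (G := fun _ _ => c) (fun _ _ _ => le_rfl) fun _ _ => hc).trans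
    (avg_le_of_le hc fun _ => avg_le_of_le hc fun _ => le_rfl)

/-- `avg2_swap`: `E[OK, ⟪f π' o, g π⟫] = E[OK, ⟪f π o, g π'⟫]`; replace `g π'` by `g π` (error `Cf (Δ + τ π + τ π')`, and
`E[OK, τ π'] = E[OK, τ π] ≤ E τ`); drop `OK` with `avg2_compl`. -/
theorem exch (D : ℕ) : ∃ C : ℝ, 0 < C ∧ ∀ (n : ℕ) (V : Type) [NormedAddCommGroup V]
    [InnerProductSpace ℝ V] (f : Pairing n D → Fin n → V) (g : Pairing n D → V) (Cf Cg Δ : ℝ)
    (τ : Pairing n D → ℝ), 0 ≤ Cf → 0 ≤ Cg → 0 ≤ Δ → (∀ π o, ‖f π o‖ ≤ Cf) → (∀ π, ‖g π‖ ≤ Cg) →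
    (∀ π, 0 ≤ τ π) →
    (∀ π o α, StarOK π.1 o α → ‖g (sw π o α) - g π‖ ≤ Δ + τ π + τ (sw π o α)) →
      |(avg fun π => avg2 π fun o α => inner ℝ (f (sw π o α) o) (g π)) -
        avg fun π => avg fun o => inner ℝ (f π o) (g π)| ≤ Cf * (C * Cg / n + Δ + 2 * avg τ) := by
  obtain ⟨C, hC, H⟩ := avg2_compl D
  refine ⟨C, hC, fun n V _ _ f g Cf Cg Δ τ hCf hCg hΔ hf hg hτ hsw => ?_⟩
  have h1 : |(avg fun π => avg2 π fun o α => inner ℝ (f π o) (g (sw π o α))) -
      avg fun π => avg2 π fun o α => inner ℝ (f π o) (g π)| ≤ Cf * (Δ + 2 * avg τ) := by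
    have e : (avg fun π => avg2 π fun o α => τ (sw π o α)) = avg fun π => avg2 π fun _ _ => τ π :=
      avg2_swap fun _ π' _ _ => τ π'
    have h2 : (avg fun π => avg2 π fun _ _ => τ π) ≤ avg τ :=
      avg_mono fun π => Exch_const π (hτ π)
    have h3 : (avg fun π : Pairing n D => avg2 π fun _ _ => Δ) ≤ Δ :=
      avg_le_of_le hΔ fun π => Exch_const π hΔ
    rw [← avg_sub]
    refine (abs_avg_le _).trans ((avg_mono (g := fun π => Cf * ((avg2 π fun _ _ => Δ) +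
      (avg2 π fun _ _ => τ π) + avg2 π fun o α => τ (sw π o α))) fun π => ?_).trans ?_)
    · rw [← avg2_sub, ← avg2_add, ← avg2_add, ← avg2_mul_left]
      refine (abs_avg2_le _ _).trans (avg2_mono fun o α hα => ?_)
      rw [← inner_sub_right]
      exact (abs_real_inner_le_norm _ _).trans
        (mul_le_mul (hf π o) (hsw π o α hα) (norm_nonneg _) hCf)
    · rw [avg_const_mul, avg_add, avg_add, e]
      exact mul_le_mul_of_nonneg_left (by linarith) hCf
  have h2 : |(avg fun π => avg2 π fun o α => inner ℝ (f π o) (g π)) -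
      avg fun π => avg fun o => inner ℝ (f π o) (g π)| ≤ Cf * Cg * C / n := by
    rw [← avg_sub]
    refine abs_avg_le_of_le (by positivity) fun π => ?_
    have e : (avg fun o => inner ℝ (f π o) (g π)) =
        avg fun o => avg fun _ : Fin (D + 1) → HE n D => inner ℝ (f π o) (g π) :=
      avg_congr fun o => by
        have : Nonempty (HE n D) := ⟨(o, 0)⟩
        rw [avg_const]
    rw [e]
    exact H n π _ _ fun o _ => (abs_real_inner_le_norm _ _).trans
      (mul_le_mul (hf π o) (hg π) (norm_nonneg _) hCf)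
  rw [avg2_swap fun π π' o _ => inner ℝ (f π' o) (g π)]
  refine (abs_sub_le _ _ _).trans ((add_le_add h1 h2).trans_eq ?_)
  ring

theorem exch_real (D : ℕ) : ∃ C : ℝ, 0 < C ∧ ∀ (n : ℕ) (f : Pairing n D → Fin n → ℝ)
    (g : Pairing n D → ℝ) (Cf Cg Δ : ℝ) (τ : Pairing n D → ℝ), 0 ≤ Cf → 0 ≤ Cg → 0 ≤ Δ →
    (∀ π o, |f π o| ≤ Cf) → (∀ π, |g π| ≤ Cg) → (∀ π, 0 ≤ τ π) →
    (∀ π o α, StarOK π.1 o α → |g (sw π o α) - g π| ≤ Δ + τ π + τ (sw π o α)) →
      |(avg fun π => (avg2 π fun o α => f (sw π o α) o) * g π) -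
        avg fun π => avg (f π) * g π| ≤ Cf * (C * Cg / n + Δ + 2 * avg τ) := by
  obtain ⟨C, hC, H⟩ := exch D
  refine ⟨C, hC, fun n f g Cf Cg Δ τ hCf hCg hΔ hf hg hτ hsw => ?_⟩
  have h := H n ℝ f g Cf Cg Δ τ hCf hCg hΔ hf hg hτ hsw
  simp only [Real.inner_apply, avg2_mul_right, avg_mul_const] at h
  exact h

end Crest.Agent.R166.PA
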