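import Crest.Agent.R166.A.Lip

/-! # Part A: after the switch the cut star sees independent ports

`c_i = (π (o,i)).1`, `a_i = (α i).1`, `b_i = (π (α i)).1`, `π' = sw π o α` joins `o - b_i` and `a_i - c_i`. -/

set_option autoImplicit false
set_option linter.unusedVariables false
set_option linter.unusedSectionVars false

open MeasureTheory ProbabilityTheory Filter Topology Matrix
open scoped ENNReal BoundedContinuousFunction

namespace Crest.Agent.R166.PA

private theorem Key1_cx_sum {n : ℕ} {I : Type} (S : Finset I) (f : I → Matrix (Fin n) (Fin n) ℝ) :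
    cx (∑ i ∈ S, f i) = ∑ i ∈ S, cx (f i) := by
  ext a b
  simp [Matrix.sum_apply]

/-- the all-cut matrix is the same from both sides (`StarOK.adj_eq`, `StarOK.spec`; the loads are the same sum
of `single`s in another order) -/
theorem ball_eq {n D : ℕ} (s : ℝ) (ω : Fin n → J) (z m : ℂ) {π : Pairing n D} {o : Fin n}
    {α : Fin (D + 1) → HE n D} (h : StarOK π.1 o α) :
    Bz s ω z π - ∑ i, Jh m π (o, i) - ∑ i, Jh m π (α i) =
      Bz s ω z (sw π o α) - ∑ i, Jh m (sw π o α) (o, i) - ∑ i, Jh m (sw π o α) (α i) := by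
  obtain ⟨-, -, -, hs, -⟩ := h.spec
  have e1 : ∀ i, (sw π o α).1 (o, i) = π.1 (α i) := fun i => (hs i).1
  have e2 : ∀ i, (sw π o α).1 (α i) = π.1 (o, i) := fun i => (hs i).2.1
  have hadj : adj (sw π o α).1 = adj π.1 + ∑ i, (edgeM o (π.1 (α i)).1 +
      edgeM (α i).1 (π.1 (o, i)).1 - edgeM o (π.1 (o, i)).1 - edgeM (α i).1 (π.1 (α i)).1) :=
    h.adj_eq
  simp only [Bz, Jh, Jm, ham, hadj, e1, e2, cx_add, cx_sub, Key1_cx_sum, smul_add,
    Finset.sum_add_distrib, Finset.sum_sub_distrib]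
  abel

/-- `Gall` = inverse of the all-cut matrix; `b_c` is a port of it.  `cut_le` from the base `Bz π' - star`
(error `err1 π'`, note `b_c' = (π' (o,c')).1`); `cut_le` from the base `Bz π - Jh π (α c')` with the family
star `+` `α i, i ≠ c'` (index it by `Fin (D+1) ⊕ Fin (D+1)` or `Bool × _`; error `err2 π`); finally
`Sh π (α c') b_c b_c'` is `Nh π (π (α c))` for `c = c'` (`Nh_pi`) and a term of `err2` otherwise. -/
theorem key_block {n D : ℕ} {μ : ℝ} (hμ : 0 < μ) (s : ℝ) (ω : Fin n → J) {z m : ℂ} (hz : 0 < z.im)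
    (hm : μ ≤ m.im) (hm1 : ‖m‖ ≤ 1) {π : Pairing n D} {o : Fin n} {α : Fin (D + 1) → HE n D}
    (h : StarOK π.1 o α) (c c' : Fin (D + 1)) :
    ‖Gst s ω z m (sw π o α) o (π.1 (α c)).1 (π.1 (α c')).1 -
      if c = c' then Nh s ω z m π (π.1 (α c)) else 0‖ ≤ (2 / μ + 1) * errK s ω z m π o α := by
  have hm0 : 0 ≤ m.im := hμ.le.trans hm
  obtain ⟨-, -, -, hs, -⟩ := h.spec
  have e1 : ∀ i, (sw π o α).1 (o, i) = π.1 (α i) := fun i => (hs i).1
  have hB1 : Dis z.im (Bz s ω z (sw π o α) - ∑ i, Jh m (sw π o α) (o, i)) :=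
    (Bz_dis s ω (sw π o α) z).sub_sum_Jm hm0 Finset.univ (fun _ => o)
      fun i => ((sw π o α).1 (o, i)).1
  have hp1 : Port μ (Bz s ω z (sw π o α) - ∑ i, Jh m (sw π o α) (o, i)) (π.1 (α c)).1 := by
    have := (Bz_dis s ω (sw π o α) z).port_sum_right hz.le hμ.le hm (fun _ => o)
      (fun i => ((sw π o α).1 (o, i)).1) (Finset.mem_univ c)
    rw [← e1]
    exact this
  have hp2 := hp1.sub_sum_Jm hm0 Finset.univ (fun i => (α i).1) fun i => ((sw π o α).1 (α i)).1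
  have h1 := hB1.cut_le hz hμ hm hm1 Finset.univ (fun i => (α i).1)
    (fun i => ((sw π o α).1 (α i)).1) hp2 (π.1 (α c')).1
  have hball := ball_eq s ω z m h
  have hall : Bz s ω z (sw π o α) - ∑ i, Jh m (sw π o α) (o, i) -
      ∑ i, Jm m (α i).1 ((sw π o α).1 (α i)).1 =
      (Bz s ω z π - Jh m π (α c')) - ∑ i ∈ Finset.univ.disjSum (Finset.univ.erase c'),
        Jm m (Sum.elim (fun _ => o) (fun i => (α i).1) i)
          (Sum.elim (fun i => (π.1 (o, i)).1) (fun i => (π.1 (α i)).1) i) := by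
    refine hball.symm.trans ?_
    rw [Finset.sum_disjSum, ← Finset.add_sum_erase _ (fun i => Jh m π (α i)) (Finset.mem_univ c')]
    simp only [Sum.elim_inl, Sum.elim_inr, Jh]
    abel
  rw [hall] at h1 hp2
  have h2 := (Sh_dis s ω (z := z) π (α c') hm0).cut_le hz hμ hm hm1 _ _ _ hp2 (π.1 (α c')).1
  have k1 : ∑ i, (‖Gst s ω z m (sw π o α) o (α i).1 (π.1 (α c')).1‖ +
      ‖Gst s ω z m (sw π o α) o ((sw π o α).1 (α i)).1 (π.1 (α c')).1‖) ≤
      err1 s ω z m (sw π o α) o α := by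
    refine Finset.sum_le_sum fun i _ => ?_
    rw [← e1 c']
    exact Finset.single_le_sum (f := fun c => ‖Gst s ω z m (sw π o α) o (α i).1
      ((sw π o α).1 (o, c)).1‖ + ‖Gst s ω z m (sw π o α) o ((sw π o α).1 (α i)).1
        ((sw π o α).1 (o, c)).1‖) (fun _ _ => by positivity) (Finset.mem_univ c')
  have k2 : ∑ i, (‖Sh s ω z m π (α c') o (π.1 (α c')).1‖ +
      ‖Sh s ω z m π (α c') (π.1 (o, i)).1 (π.1 (α c')).1‖) +
      ∑ i ∈ Finset.univ.erase c', (‖Sh s ω z m π (α c') (α i).1 (π.1 (α c')).1‖ +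
        ‖Sh s ω z m π (α c') (π.1 (α i)).1 (π.1 (α c')).1‖) ≤ err2 s ω z m π o α :=
    Finset.single_le_sum (f := fun c => ∑ i, (‖Sh s ω z m π (α c) o (π.1 (α c)).1‖ +
      ‖Sh s ω z m π (α c) (π.1 (o, i)).1 (π.1 (α c)).1‖) +
      ∑ i ∈ Finset.univ.erase c, (‖Sh s ω z m π (α c) (α i).1 (π.1 (α c)).1‖ +
        ‖Sh s ω z m π (α c) (π.1 (α i)).1 (π.1 (α c)).1‖)) (fun _ _ => by positivity)
      (Finset.mem_univ c')
  have k3 : ‖Sh s ω z m π (α c') (π.1 (α c)).1 (π.1 (α c')).1 -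
      if c = c' then Nh s ω z m π (π.1 (α c)) else 0‖ ≤ err2 s ω z m π o α := by
    refine le_trans ?_ k2
    split_ifs with hc
    · subst hc
      rw [Nh_pi, sub_self, norm_zero]
      positivity
    · rw [sub_zero]
      have k4 := Finset.single_le_sum (f := fun i => ‖Sh s ω z m π (α c') (α i).1 (π.1 (α c')).1‖ +
        ‖Sh s ω z m π (α c') (π.1 (α i)).1 (π.1 (α c')).1‖) (s := Finset.univ.erase c')
        (fun _ _ => by positivity) (Finset.mem_erase.2 ⟨hc, Finset.mem_univ c⟩)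
      have k5 : 0 ≤ ∑ i, (‖Sh s ω z m π (α c') o (π.1 (α c')).1‖ +
        ‖Sh s ω z m π (α c') (π.1 (o, i)).1 (π.1 (α c')).1‖) := by positivity
      have k6 := norm_nonneg (Sh s ω z m π (α c') (α c).1 (π.1 (α c')).1)
      linarith
  have hμ2 : 0 ≤ 2 / μ := by positivity
  have h1' := h1.trans (mul_le_mul_of_nonneg_left k1 hμ2)
  have h2' := h2.trans (mul_le_mul_of_nonneg_left ((Finset.sum_disjSum _ _ _).trans_le k2) hμ2)
  have k0 : 0 ≤ err1 s ω z m (sw π o α) o α := le_trans (by positivity) k1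
  change ‖_ - Gst s ω z m (sw π o α) o _ _‖ ≤ _ at h1'
  change ‖_ - Sh s ω z m π (α c') _ _‖ ≤ _ at h2'
  rw [norm_sub_rev] at h1'
  have t1 := norm_sub_le_norm_sub_add_norm_sub
    (Gst s ω z m (sw π o α) o (π.1 (α c)).1 (π.1 (α c')).1)
    (Sh s ω z m π (α c') (π.1 (α c)).1 (π.1 (α c')).1)
    (if c = c' then Nh s ω z m π (π.1 (α c)) else 0)
  have t2 := (norm_sub_le_norm_sub_add_norm_sub _ _ _).trans (add_le_add h1' h2')
  rw [errK]
  nlinarith

theorem errK_nonneg {n D : ℕ} (s : ℝ) (ω : Fin n → J) (z m : ℂ) (π : Pairing n D) (o : Fin n)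
    (α : Fin (D + 1) → HE n D) : 0 ≤ errK s ω z m π o α := by
  unfold errK err1 err2
  positivity

/-- `lip_star` for `π'` with `key_block` (`π' (o,i) = π (α i)`, `nOf_Mh`) -/
theorem key_step (D : ℕ) {μ : ℝ} (hμ : 0 < μ) (A T : ℝ) : ∃ C : ℝ, 0 < C ∧
    ∀ (n : ℕ) (s : ℝ) (ω : Fin n → J) (z m : ℂ), |s| ≤ 1 → 0 < z.im → ‖z‖ ≤ A → μ ≤ m.im → ‖m‖ ≤ 1 →
      ∀ (π : Pairing n D) (o : Fin n) (α : Fin (D + 1) → HE n D), StarOK π.1 o α → ∀ j,
      (∀ c c', T < ‖Mh s ω z m π (kids π α j c)‖ → T < ‖Mh s ω z m π (kids π α j c')‖ → c = c') →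
      ∀ z₀ t : ℂ, z₀ + t = z - ((s * (ω o : ℝ) : ℝ) : ℂ) →
        ‖Zh s ω z m (sw π o α) (o, j) - zeta m (recF z₀ t fun c => Mh s ω z m π (kids π α j c))‖ ≤
          C * errK s ω z m π o α := by
  obtain ⟨C, hC, H⟩ := lip_star D hμ A T
  refine ⟨C * (2 / μ + 1), by positivity, ?_⟩
  intro n s ω z m hs hz hzA hm hm1 π o α h j hT z₀ t hzt
  have hm0 : 0 < m.im := hμ.trans_le hm
  obtain ⟨-, -, -, hsp, -⟩ := h.spec
  have e1 : ∀ i, (sw π o α).1 (o, i) = π.1 (α i) := fun i => (hsp i).1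
  rw [mul_assoc]
  refine H n s ω z m hs hz hzA hm hm1 (sw π o α) o j _ (fun c => Mh_im_pos s ω π _ hz hm0) hT _
    (mul_nonneg (by positivity) (errK_nonneg s ω z m π o α)) (fun c c' => ?_) z₀ t hzt
  have := key_block hμ s ω hz hm hm1 h (j.succAbove c) (j.succAbove c')
  rw [e1, e1, nOf_Mh s ω π _ hz hm0]
  simpa only [Fin.succAbove_right_inj, kids] using this

end Crest.Agent.R166.PA
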