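import Crest.Agent.R166.A.Loc

/-! # Part A: reconnecting a vertex to its children -/

set_option autoImplicit false
set_option linter.unusedVariables false
set_option linter.unusedSectionVars false

open MeasureTheory ProbabilityTheory Filter Topology Matrix
open scoped ENNReal BoundedContinuousFunction

namespace Crest.Agent.R166.PA

/-- (LIP)  `g_c = f₀ + m f_c`, `e = (N - diag) g`.  `1 + m nOf m M = 1/(1 - mM)` gives
`f_c = -M_c f₀ - (1 - mM_c) e_c`, hence `f₀ - N₀ = N₀ ∑ (1 - mM_c) e_c` with `N₀ = 1/(τ - m - ∑M)`,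
`‖N₀‖ ≤ 1/μ`.  If `c₀` is the large child, `N₀ M_{c₀} = -1 + (τ - m - ∑_{c ≠ c₀} M_c) N₀` is bounded, and `f_{c₀}` is
bounded through the last equation; so `max ‖g‖ ≤ C + Cε max ‖g‖`.  For `ε ≥ 1/(2C)` use `‖f₀ - N₀‖ ≤ 2/μ`. -/
theorem lip_alg (D : ℕ) {μ : ℝ} (hμ : 0 < μ) (A T : ℝ) : ∃ C : ℝ, 0 < C ∧
    ∀ m τ : ℂ, μ ≤ m.im → ‖m‖ ≤ 1 → τ.im ≤ 0 → ‖τ‖ ≤ A → ∀ M : Fin D → ℂ, (∀ c, 0 < (M c).im) →
      (∀ c c', T < ‖M c‖ → T < ‖M c'‖ → c = c') → ∀ (N : Fin D → Fin D → ℂ) (ε : ℝ), 0 ≤ ε →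
      (∀ c c', ‖N c c' - if c = c' then nOf m (M c) else 0‖ ≤ ε) →
      ∀ (f₀ : ℂ) (f : Fin D → ℂ), ‖f₀‖ ≤ 1 / μ → (∀ c, f c = -∑ c', N c c' * (f₀ + m * f c')) →
        (τ - m) * f₀ + ∑ c, f c = 1 → ‖f₀ - 1 / (τ - m - ∑ c, M c)‖ ≤ C * ε := by
  obtain ⟨T', hT0, hT⟩ : ∃ T' : ℝ, 0 ≤ T' ∧ T ≤ T' := ⟨max T 0, le_max_right _ _, le_max_left _ _⟩
  obtain ⟨A', hA0, hA⟩ : ∃ A' : ℝ, 0 ≤ A' ∧ A ≤ A' := ⟨max A 0, le_max_right _ _, le_max_left _ _⟩
  obtain ⟨ν, hν⟩ : ∃ ν : ℝ, ν = 1 / μ := ⟨_, rfl⟩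
  have hν0 : 0 < ν := by rw [hν]; positivity
  obtain ⟨K, hK⟩ : ∃ K : ℝ, K = ν + (1 + (A' + 1 + (D + 1) * T') * ν) := ⟨_, rfl⟩
  obtain ⟨C₁, hC₁⟩ : ∃ C : ℝ, C = D * (ν + (1 + (A' + 1) * ν + (D + 1) * (T' * ν))) := ⟨_, rfl⟩
  obtain ⟨C₂, hC₂⟩ : ∃ C : ℝ, C = D * (D + 1) * (1 + T') + 1 := ⟨_, rfl⟩
  have hK0 : 0 ≤ K := by rw [hK]; positivity
  have hC₁0 : 0 ≤ C₁ := by rw [hC₁]; positivity
  have hC₂0 : 0 < C₂ := by rw [hC₂]; positivity
  refine ⟨D * K * (2 * C₁) + 4 * ν * C₂, by positivity,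
    fun m τ hm hm1 hτ hτA M hM hMT N ε hε hN f₀ f hf₀ hf hsum => ?_⟩
  rw [← hν] at hf₀
  set W := τ - m - ∑ c, M c with hW
  have hWim : W.im ≤ -μ := by
    have : 0 ≤ ∑ c, (M c).im := Finset.sum_nonneg fun c _ => (hM c).le
    rw [hW, Complex.sub_im, Complex.sub_im, Complex.im_sum]
    linarith
  have hWn : μ ≤ ‖W‖ := by
    have := Complex.abs_im_le_norm W
    have := neg_abs_le W.im
    linarith
  have hW0 : W ≠ 0 := norm_pos_iff.1 (hμ.trans_le hWn)
  have hWi : ‖1 / W‖ ≤ ν := by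
    rw [norm_div, norm_one, hν]
    exact one_div_le_one_div_of_le hμ hWn
  have hτm : ‖τ - m‖ ≤ A' + 1 := (norm_sub_le _ _).trans (by linarith)
  rcases le_or_gt 1 (2 * C₂ * ε) with hbig | hsmall
  · have h1 := (norm_sub_le f₀ (1 / W)).trans (add_le_add hf₀ hWi)
    have h2 : 0 ≤ D * K * (2 * C₁) * ε := by positivity
    nlinarith [mul_le_mul_of_nonneg_left hbig hν0.le]
  have hne : ∀ c, 1 - m * M c ≠ 0 := fun c h => by
    have h1 : m * M c = 1 := by linear_combination -h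
    have h2 := congrArg Complex.im h1
    have h3 := congrArg Complex.re h1
    simp only [Complex.mul_im, Complex.mul_re, Complex.one_im, Complex.one_re] at h2 h3
    have h4 : (M c).im + m.im * ((M c).re ^ 2 + (M c).im ^ 2) = 0 := by
      linear_combination (M c).re * h2 - (M c).im * h3
    have := hM c
    have : 0 ≤ m.im * ((M c).re ^ 2 + (M c).im ^ 2) :=
      mul_nonneg (hμ.le.trans hm) (by positivity)
    linarith
  set g : Fin D → ℂ := fun c => f₀ + m * f c with hg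
  set e : Fin D → ℂ := fun c => ∑ c', (N c c' - if c = c' then nOf m (M c) else 0) * g c' with he
  set G : ℝ := ∑ c, ‖g c‖ with hG
  have hG0 : 0 ≤ G := by positivity
  have hen : ∀ c, ‖e c‖ ≤ ε * G := fun c => by
    rw [hG, Finset.mul_sum]
    refine norm_sum_le_of_le _ fun c' _ => ?_
    rw [norm_mul]
    exact mul_le_mul_of_nonneg_right (hN c c') (norm_nonneg _)
  have hfe : ∀ c, f c = -(M c * f₀) - (1 - m * M c) * e c := fun c => by
    have h1 : e c = -f c - nOf m (M c) * g c := by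
      rw [hf c, neg_neg, he]
      simp [sub_mul, Finset.sum_sub_distrib, hg]
    have h2 : (1 - m * M c) * nOf m (M c) = M c := mul_div_cancel₀ _ (hne c)
    rw [h1, hg]
    linear_combination (-(f₀ + m * f c)) * h2
  have hother : ∀ c, T' < ‖M c‖ → ∀ c' ∈ Finset.univ.erase c, ‖M c'‖ ≤ T' := fun c hc c' hc' => by
    by_contra h
    exact Finset.ne_of_mem_erase hc' (hMT _ _ (hT.trans_lt (not_le.1 h)) (hT.trans_lt hc))
  have hcard : ∀ (c : Fin D) (u : Fin D → ℂ) (b : ℝ), 0 ≤ b →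
      (∀ c' ∈ Finset.univ.erase c, ‖u c'‖ ≤ b) → ‖∑ c' ∈ Finset.univ.erase c, u c'‖ ≤ D * b := by
    intro c u b hb h
    refine (norm_sum_le _ _).trans ((Finset.sum_le_card_nsmul _ _ b h).trans ?_)
    rw [nsmul_eq_mul]
    gcongr
    exact_mod_cast (Finset.card_le_univ _).trans (Fintype.card_fin D).le
  have hMW : ∀ c, ‖(1 - m * M c) * (1 / W)‖ ≤ K := fun c => by
    have h1 : ‖M c * (1 / W)‖ ≤ 1 + (A' + 1 + (D + 1) * T') * ν := by
      rcases le_or_gt ‖M c‖ T' with h | h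
      · rw [norm_mul]
        have : ‖M c‖ * ‖1 / W‖ ≤ T' * ν := by gcongr
        have : 0 ≤ (A' + 1 + D * T') * ν := by positivity
        nlinarith
      · have h2 : M c * (1 / W) =
            (τ - m - ∑ c' ∈ Finset.univ.erase c, M c') * (1 / W) - 1 := by
          have h3 : M c = (τ - m - ∑ c' ∈ Finset.univ.erase c, M c') - W := by
            rw [hW, ← Finset.add_sum_erase _ _ (Finset.mem_univ c)]
            ring
          rw [h3]
          field_simp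
        have h4 : ‖τ - m - ∑ c' ∈ Finset.univ.erase c, M c'‖ ≤ A' + 1 + D * T' :=
          (norm_sub_le _ _).trans (add_le_add hτm (hcard c M T' hT0 (hother c h)))
        rw [h2]
        refine (norm_sub_le _ _).trans ?_
        rw [norm_mul, norm_one]
        have : ‖τ - m - ∑ c' ∈ Finset.univ.erase c, M c'‖ * ‖1 / W‖ ≤ (A' + 1 + D * T') * ν := by
          gcongr
        have : 0 ≤ T' * ν := by positivity
        nlinarith
    rw [sub_mul, one_mul, mul_assoc, hK]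
    refine (norm_sub_le _ _).trans (add_le_add hWi ?_)
    rw [norm_mul]
    exact (mul_le_of_le_one_left (norm_nonneg _) hm1).trans h1
  have hfs : ∀ c, ‖M c‖ ≤ T' → ‖f c‖ ≤ T' * ν + (1 + T') * (ε * G) := fun c h => by
    rw [hfe c]
    refine (norm_sub_le _ _).trans (add_le_add ?_ ?_)
    · rw [norm_neg, norm_mul]
      gcongr
    · rw [norm_mul]
      refine mul_le_mul ((norm_sub_le _ _).trans ?_) (hen c) (norm_nonneg _) (by positivity)
      rw [norm_one, norm_mul]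
      have := mul_le_of_le_one_left (norm_nonneg (M c)) hm1
      linarith
  have hfa : ∀ c, ‖f c‖ ≤ 1 + (A' + 1) * ν + (D + 1) * (T' * ν + (1 + T') * (ε * G)) := fun c => by
    have h0 : 0 ≤ T' * ν + (1 + T') * (ε * G) := by positivity
    have h0' : 0 ≤ (A' + 1) * ν := by positivity
    rcases le_or_gt ‖M c‖ T' with h | h
    · have := hfs c h
      have : 0 ≤ D * (T' * ν + (1 + T') * (ε * G)) := by positivity
      linarith
    · have h2 : f c = 1 - (τ - m) * f₀ - ∑ c' ∈ Finset.univ.erase c, f c' := by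
        rw [← hsum, ← Finset.add_sum_erase _ _ (Finset.mem_univ c)]
        ring
      have h3 := hcard c f _ h0 fun c' hc' => hfs c' (hother c h c' hc')
      have h4 : ‖(τ - m) * f₀‖ ≤ (A' + 1) * ν := by
        rw [norm_mul]
        gcongr
      rw [h2]
      refine (norm_sub_le _ _).trans ((add_le_add (norm_sub_le _ _) h3).trans ?_)
      rw [norm_one]
      linarith
  have hGle : G ≤ D * (ν + (1 + (A' + 1) * ν + (D + 1) * (T' * ν + (1 + T') * (ε * G)))) := by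
    refine (Finset.sum_le_card_nsmul _ _
      (ν + (1 + (A' + 1) * ν + (D + 1) * (T' * ν + (1 + T') * (ε * G)))) fun c _ => ?_).trans
        (by rw [Finset.card_univ, Fintype.card_fin, nsmul_eq_mul])
    refine (norm_add_le _ _).trans (add_le_add hf₀ ?_)
    rw [norm_mul]
    exact (mul_le_of_le_one_left (norm_nonneg _) hm1).trans (hfa c)
  have hG2 : G ≤ 2 * C₁ := by
    have h1 : G ≤ C₁ + (C₂ - 1) * ε * G := by
      rw [hC₁, hC₂]
      linarith
    have h2 : 2 * C₂ * ε * G ≤ 1 * G := by gcongr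
    have h3 : 0 ≤ ε * G := by positivity
    linarith
  have key : f₀ - 1 / W = ∑ c, (1 - m * M c) * (1 / W) * e c := by
    have h1 : ∑ c, f c = -((∑ c, M c) * f₀) - ∑ c, (1 - m * M c) * e c := by
      rw [Finset.sum_mul, ← Finset.sum_neg_distrib, ← Finset.sum_sub_distrib]
      exact Finset.sum_congr rfl fun c _ => hfe c
    have h2 : ∑ c, (1 - m * M c) * e c = W * f₀ - 1 := by
      rw [hW]
      linear_combination h1 - hsum
    have h3 : ∑ c, (1 - m * M c) * (1 / W) * e c = (∑ c, (1 - m * M c) * e c) * (1 / W) := by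
      rw [Finset.sum_mul]
      exact Finset.sum_congr rfl fun c _ => by ring
    rw [h3, h2]
    field_simp
  rw [key]
  refine (norm_sum_le _ _).trans ((Finset.sum_le_card_nsmul _ _ (K * (ε * (2 * C₁)))
    fun c _ => ?_).trans ?_)
  · rw [norm_mul]
    exact mul_le_mul (hMW c) ((hen c).trans (by gcongr)) (norm_nonneg _) hK0
  · have : 0 ≤ 4 * ν * C₂ * ε := by positivity
    simp only [Finset.card_univ, Fintype.card_fin, nsmul_eq_mul]
    linarith

private theorem lip_row {n D : ℕ} (s : ℝ) (ω : Fin n → J) (z m : ℂ) (π : Pairing n D)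
    (o x : Fin n) : (Bz s ω z π - ∑ i, Jh m π (o, i)) o x =
      if o = x then ((s * (ω o : ℝ) : ℝ) : ℂ) - z - (D + 1) * m else 0 := by
  have h1 := adj_sub_star π o x
  have h2 : ∀ i, (π.1 (o, i)).1 ≠ o := fun i => π.2.2.1 (o, i)
  rw [Matrix.sub_apply, Matrix.sum_apply, sub_eq_zero] at h1
  simp only [Bz, Jh, Jm, cx, ham, Matrix.sub_apply, Matrix.sum_apply, Matrix.add_apply,
    Matrix.map_apply, Matrix.smul_apply, Matrix.one_apply, Matrix.diagonal_apply, h1,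
    Matrix.single_apply, h2, false_and, if_false, true_and, Finset.sum_add_distrib]
  split_ifs <;> simp
  ring

/-- the equations of `lip_alg` on a graph.  `Bst = Bz - ∑ Jh (o,i)` has row `o` zero off the diagonal
(`adj_sub_star`, neighbours `≠ o`) and `Bst o o = sω_o - z - (D+1) m`, so `Gst y o = 0` for `y ≠ o`;
`Bz - Jh (o,j) = Bst + ∑_c Jh (o, j.succAbove c)` (`Fin.sum_univ_succAbove`).  First family: `inv_sub_inv'`,
`mul_Jm_mul`.  Last equation: entry `(o,o)` of `(Bz - Jh (o,j)) * Sh = 1`, `Jm_mulVec`. -/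
theorem star_eqs {n D : ℕ} (s : ℝ) (ω : Fin n → J) {z m : ℂ} (hz : 0 < z.im) (hm : 0 ≤ m.im)
    (π : Pairing n D) (o : Fin n) (j : Fin (D + 1)) :
    (∀ c, Sh s ω z m π (o, j) (π.1 (o, j.succAbove c)).1 o =
      -∑ c', Gst s ω z m π o (π.1 (o, j.succAbove c)).1 (π.1 (o, j.succAbove c')).1 *
        (Nh s ω z m π (o, j) + m * Sh s ω z m π (o, j) (π.1 (o, j.succAbove c')).1 o)) ∧
    (((s * (ω o : ℝ) : ℝ) : ℂ) - z - m) * Nh s ω z m π (o, j) +
      ∑ c, Sh s ω z m π (o, j) (π.1 (o, j.succAbove c)).1 o = 1 := by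
  have h2 : ∀ i, (π.1 (o, i)).1 ≠ o := fun i => π.2.2.1 (o, i)
  have hst : Dis z.im (Bz s ω z π - ∑ i, Jh m π (o, i)) :=
    (Bz_dis s ω π z).sub_sum_Jm hm Finset.univ (fun _ => o) fun i => (π.1 (o, i)).1
  have hh := Sh_dis s ω π (o, j) (z := z) hm
  have hrow : ∀ (Y : Matrix (Fin n) (Fin n) ℂ) (y : Fin n),
      ((Bz s ω z π - ∑ i, Jh m π (o, i)) * Y) o y =
        (((s * (ω o : ℝ) : ℝ) : ℂ) - z - (D + 1) * m) * Y o y := fun Y y => by
    simp only [Matrix.mul_apply, lip_row, ite_mul, zero_mul, Finset.sum_ite_eq, Finset.mem_univ,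
      if_true]
  have hG : ∀ y, y ≠ o → Gst s ω z m π o y o = 0 := fun y hy => by
    have h3 := congrFun (congrFun (hst.mul_inv hz) o) y
    rw [hrow, Matrix.one_apply_ne hy.symm, mul_eq_zero] at h3
    rw [Gst, hst.inv_symm]
    refine h3.resolve_left fun h4 => ?_
    have h5 := hst.diag o
    rw [lip_row, if_pos rfl, h4, Complex.zero_im] at h5
    linarith
  have hsplit : Bz s ω z π - Jh m π (o, j) =
      (Bz s ω z π - ∑ i, Jh m π (o, i)) + ∑ c, Jh m π (o, j.succAbove c) := by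
    rw [Fin.sum_univ_succAbove _ j]
    abel
  refine ⟨fun c => ?_, ?_⟩
  · have h3 := congrFun (congrFun (hst.inv_sub_inv' hz hh hz) (π.1 (o, j.succAbove c)).1) o
    have h4 : (Bz s ω z π - ∑ i, Jh m π (o, i)) - (Bz s ω z π - Jh m π (o, j)) =
        -∑ c, Jh m π (o, j.succAbove c) := by
      rw [hsplit]
      abel
    rw [h4, Matrix.mul_neg, Matrix.neg_mul, Finset.mul_sum, Finset.sum_mul, Matrix.sub_apply,
      Matrix.neg_apply, Matrix.sum_apply] at h3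
    change Sh s ω z m π (o, j) _ _ - Gst s ω z m π o _ _ =
      -∑ c', (Gst s ω z m π o * Jm m o (π.1 (o, j.succAbove c')).1 * Sh s ω z m π (o, j)) _ _ at h3
    simp only [mul_Jm_mul, hG _ (h2 _), zero_mul, zero_add, sub_zero] at h3
    exact h3
  · have h3 := congrFun (congrFun (hh.mul_inv hz) o) o
    change ((Bz s ω z π - Jh m π (o, j)) * Sh s ω z m π (o, j)) o o = _ at h3
    rw [hsplit, Matrix.add_mul, Matrix.add_apply, hrow, Finset.sum_mul, Matrix.sum_apply,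
      Matrix.one_apply_eq] at h3
    have h4 : ∀ c, (Jh m π (o, j.succAbove c) * Sh s ω z m π (o, j)) o o =
        Sh s ω z m π (o, j) (π.1 (o, j.succAbove c)).1 o + m * Sh s ω z m π (o, j) o o := fun c => by
      have h5 := Jm_mulVec m o (π.1 (o, j.succAbove c)).1 (fun x => Sh s ω z m π (o, j) x o) o
      rw [if_pos rfl, if_neg (h2 _).symm, add_zero] at h5
      exact h5
    simp only [h4, Finset.sum_add_distrib, Finset.sum_const, Finset.card_univ, Fintype.card_fin,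
      nsmul_eq_mul] at h3
    rw [Nh]
    linear_combination h3

/-- `lip_alg` + `star_eqs`; `nOf m (recF z₀ t M) = 1/(τ - m - ∑M)`, `τ = sω_o - z`; `norm_zeta_sub_le`, `nOf_Mh` -/
theorem lip_star (D : ℕ) {μ : ℝ} (hμ : 0 < μ) (A T : ℝ) : ∃ C : ℝ, 0 < C ∧
    ∀ (n : ℕ) (s : ℝ) (ω : Fin n → J) (z m : ℂ), |s| ≤ 1 → 0 < z.im → ‖z‖ ≤ A → μ ≤ m.im → ‖m‖ ≤ 1 →
      ∀ (π : Pairing n D) (o : Fin n) (j : Fin (D + 1)) (M : Fin D → ℂ), (∀ c, 0 < (M c).im) →
      (∀ c c', T < ‖M c‖ → T < ‖M c'‖ → c = c') → ∀ ε : ℝ, 0 ≤ ε →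
      (∀ c c', ‖Gst s ω z m π o (π.1 (o, j.succAbove c)).1 (π.1 (o, j.succAbove c')).1 -
        if c = c' then nOf m (M c) else 0‖ ≤ ε) →
      ∀ z₀ t : ℂ, z₀ + t = z - ((s * (ω o : ℝ) : ℝ) : ℂ) →
        ‖Zh s ω z m π (o, j) - zeta m (recF z₀ t M)‖ ≤ C * ε := by
  obtain ⟨C, hC, h⟩ := lip_alg D hμ (1 + A) T
  refine ⟨2 * C, by positivity,
    fun n s ω z m hs hz hzA hm hm1 π o j M hM hMT ε hε hN z₀ t hzt => ?_⟩
  have hm0 : 0 < m.im := hμ.trans_le hm
  obtain ⟨e1, e2⟩ := star_eqs s ω hz hm0.le π o j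
  have h1 := h m (((s * (ω o : ℝ) : ℝ) : ℂ) - z) hm hm1 (by simpa using hz.le) (by
    refine (norm_sub_le _ _).trans (add_le_add ?_ hzA)
    rw [Complex.norm_real, Real.norm_eq_abs, abs_mul]
    exact mul_le_one₀ hs (abs_nonneg _) (abs_le.2 (ω o).2)) M hM hMT _ ε hε hN _ _
    (norm_Nh_le s ω π (o, j) hz hμ hm) e1 e2
  have hM0 : ∀ c, 0 ≤ (M c).im := fun c => (hM c).le
  have hS : 0 ≤ ∑ c, (M c).im := Finset.sum_nonneg fun c _ => hM0 c
  have e3 : recF z₀ t M = 1 / (((s * (ω o : ℝ) : ℝ) : ℂ) - z - ∑ c, M c) := by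
    rw [recF, hzt, ← neg_div_neg_eq]
    congr 1 <;> ring
  obtain ⟨d1, d2, -⟩ := T0a_den hz (s * (ω o : ℝ)) hM0
  have d3 : ((s * (ω o : ℝ) : ℝ) : ℂ) - z - ∑ c, M c - m ≠ 0 := fun h0 => by
    have := congrArg Complex.im h0
    rw [Complex.sub_im, d1, Complex.zero_im] at this
    linarith
  have e4 : nOf m (recF z₀ t M) = 1 / (((s * (ω o : ℝ) : ℝ) : ℂ) - z - m - ∑ c, M c) := by
    rw [e3, nOf, sub_right_comm _ m]
    generalize ((s * (ω o : ℝ) : ℝ) : ℂ) - z - ∑ c, M c = w at d2 d3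
    field_simp
  refine (norm_zeta_sub_le hm0 hm1 (Mh_im_pos s ω π (o, j) hz hm0).le ?_).trans ?_
  · rw [e3, T0a_im hz _ hM0]
    positivity
  · rw [nOf_Mh s ω π (o, j) hz hm0, e4]
    linarith

end Crest.Agent.R166.PA
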