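import Crest.Agent.R166.A.Dis2

/-! # Part A: elementary facts on the local quantities -/

set_option autoImplicit false
set_option linter.unusedVariables false
set_option linter.unusedSectionVars false

open MeasureTheory ProbabilityTheory Filter Topology Matrix
open scoped ENNReal BoundedContinuousFunction

namespace Crest.Agent.R166.PA

theorem Loc_den {m M : ℂ} (hM : 0 ≤ M.im) : m.im * ‖M‖ ^ 2 ≤ ‖1 - m * M‖ * ‖M‖ := by
  have h1 : ‖1 - m * M‖ * ‖M‖ = ‖(1 - m * M) * (starRingEnd ℂ) M‖ := by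
    rw [norm_mul, Complex.norm_conj]
  have h2 := (neg_le_abs _).trans (Complex.abs_im_le_norm ((1 - m * M) * (starRingEnd ℂ) M))
  rw [h1, Complex.sq_norm, Complex.normSq_apply]
  refine le_trans ?_ h2
  simp only [Complex.mul_im, Complex.sub_re, Complex.sub_im, Complex.mul_re, Complex.one_re,
    Complex.one_im, Complex.conj_re, Complex.conj_im]
  nlinarith

theorem Loc_den_ne {m M : ℂ} (hm : 0 < m.im) (hM : 0 ≤ M.im) : 1 - m * M ≠ 0 := by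
  intro h
  have h1 := Loc_den (m := m) hM
  rw [h, norm_zero, zero_mul] at h1
  have h2 : ‖M‖ ^ 2 ≤ 0 := by nlinarith [sq_nonneg ‖M‖]
  have h3 : M = 0 := by simpa using h2
  simp [h3] at h

theorem Loc_inv_im {w : ℂ} (h : 0 < w.im) : 0 < (-1 / w).im := by
  have hw : w ≠ 0 := fun e => by simp [e] at h
  rw [neg_div, one_div, Complex.neg_im, Complex.inv_im, neg_div, neg_neg]
  exact div_pos h (Complex.normSq_pos.2 hw)

theorem ref_norm_le {D : ℕ} {c₀ : ℝ} {z m : ℂ} (h : Ref D c₀ z m) (hD : 2 ≤ D) : ‖m‖ ≤ 1 := by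
  have hD' : (2 : ℝ) ≤ D := by exact_mod_cast hD
  have := h.nsq
  nlinarith [norm_nonneg m]

theorem ref_norm_sq_le {D : ℕ} {c₀ : ℝ} {z m : ℂ} (h : Ref D c₀ z m) (hD : 2 ≤ D) :
    ‖m‖ ^ 2 ≤ 1 / 2 := by
  have hD' : (2 : ℝ) ≤ D := by exact_mod_cast hD
  have := h.nsq
  nlinarith [sq_nonneg ‖m‖]

theorem ref_norm_z_le {D : ℕ} {c₀ : ℝ} {z m : ℂ} (h : Ref D c₀ z m) (hc : 0 < c₀) : ‖z‖ ≤ 2 / c₀ := by
  have h1 : c₀ ≤ ‖m‖ := h.mim.trans ((le_abs_self _).trans (Complex.abs_im_le_norm m))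
  have h2 : z * m = -(D * m ^ 2 + 1) := by linear_combination h.eqn
  have h3 : ‖z‖ * ‖m‖ ≤ 2 := by
    rw [← norm_mul, h2, norm_neg]
    refine (norm_add_le _ _).trans ?_
    rw [norm_mul, norm_pow, norm_one, Complex.norm_natCast]
    linarith [h.nsq]
  rw [le_div_iff₀ hc]
  exact (mul_le_mul_of_nonneg_left h1 (norm_nonneg _)).trans h3

theorem zeta_self (m : ℂ) : zeta m m = 0 := by
  simp [zeta]

theorem zeta_eq_nOf {m M : ℂ} (hm : 0 < m.im) (hM : 0 ≤ M.im) :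
    zeta m M = -m * ((1 - m ^ 2) * nOf m M - m) := by
  have h0 : m ≠ 0 := fun e => by simp [e] at hm
  have h1 := Loc_den_ne hm hM
  have h2 : M - 1 / m = -(1 - m * M) / m := by field_simp; ring
  have h3 : 1 - M * m ≠ 0 := by rwa [mul_comm]
  rw [zeta, nOf, h2]
  field_simp
  ring

theorem norm_nOf_le {μ : ℝ} {m M : ℂ} (hμ : 0 < μ) (hm : μ ≤ m.im) (hM : 0 ≤ M.im) :
    ‖nOf m M‖ ≤ 1 / μ := by
  have h1 := norm_pos_iff.2 (Loc_den_ne (hμ.trans_le hm) hM)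
  have h2 := Loc_den (m := m) hM
  rw [nOf, norm_div, div_le_div_iff₀ h1 hμ]
  rcases (norm_nonneg M).eq_or_lt with h | h
  · rw [← h]; linarith
  · refine le_of_mul_le_mul_right ?_ h
    nlinarith [mul_le_mul_of_nonneg_right hm (sq_nonneg ‖M‖)]

theorem norm_zeta_le {μ : ℝ} {m M : ℂ} (hμ : 0 < μ) (hm : μ ≤ m.im) (hm1 : ‖m‖ ≤ 1) (hM : 0 ≤ M.im) :
    ‖zeta m M‖ ≤ 2 / μ + 1 := by
  have h1 := norm_nOf_le hμ hm hM
  have h2 : ‖1 - m ^ 2‖ ≤ 2 := (norm_sub_le _ _).trans (by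
    rw [norm_one, norm_pow]
    linarith [pow_le_one₀ (n := 2) (norm_nonneg m) hm1])
  rw [zeta_eq_nOf (hμ.trans_le hm) hM, norm_mul, norm_neg]
  refine (mul_le_of_le_one_left (norm_nonneg _) hm1).trans ((norm_sub_le _ _).trans
    (add_le_add ?_ hm1))
  rw [norm_mul, div_eq_mul_one_div]
  exact mul_le_mul h2 h1 (norm_nonneg _) zero_le_two

theorem norm_zeta_sub_le {m M M' : ℂ} (hm : 0 < m.im) (hm1 : ‖m‖ ≤ 1) (hM : 0 ≤ M.im)
    (hM' : 0 ≤ M'.im) : ‖zeta m M - zeta m M'‖ ≤ 2 * ‖nOf m M - nOf m M'‖ := by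
  have h2 : ‖1 - m ^ 2‖ ≤ 2 := (norm_sub_le _ _).trans (by
    rw [norm_one, norm_pow]
    linarith [pow_le_one₀ (n := 2) (norm_nonneg m) hm1])
  have e : zeta m M - zeta m M' = -m * ((1 - m ^ 2) * (nOf m M - nOf m M')) := by
    rw [zeta_eq_nOf hm hM, zeta_eq_nOf hm hM']
    ring
  rw [e, norm_mul, norm_neg, norm_mul]
  exact (mul_le_of_le_one_left (by positivity) hm1).trans
    (mul_le_mul_of_nonneg_right h2 (norm_nonneg _))

theorem norm_nOf_sub_le {μ : ℝ} {m M M' : ℂ} (hμ : 0 < μ) (hm : μ ≤ m.im) (hm2 : ‖m‖ ^ 2 ≤ 1 / 2)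
    (hM : 0 ≤ M.im) (hM' : 0 ≤ M'.im) :
    ‖nOf m M - nOf m M'‖ ≤ 2 / μ * ‖zeta m M - zeta m M'‖ := by
  have h1 : μ ≤ ‖m‖ := hm.trans ((le_abs_self _).trans (Complex.abs_im_le_norm m))
  have h2 : 1 / 2 ≤ ‖1 - m ^ 2‖ := by
    have := norm_sub_norm_le 1 (m ^ 2)
    rw [norm_one, norm_pow] at this
    linarith
  have e : zeta m M - zeta m M' = -m * ((1 - m ^ 2) * (nOf m M - nOf m M')) := by
    rw [zeta_eq_nOf (hμ.trans_le hm) hM, zeta_eq_nOf (hμ.trans_le hm) hM']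
    ring
  rw [e, norm_mul, norm_neg, norm_mul, div_mul_eq_mul_div, le_div_iff₀ hμ]
  have h3 := mul_le_mul_of_nonneg_right (mul_le_mul h1 h2 (by norm_num) (norm_nonneg _))
    (norm_nonneg (nOf m M - nOf m M'))
  nlinarith

theorem recF_im_pos {D : ℕ} {z t : ℂ} {M : Fin D → ℂ} (hD : 1 ≤ D) (h : 0 ≤ (z + t).im)
    (hM : ∀ c, 0 < (M c).im) : 0 < (recF z t M).im := by
  refine Loc_inv_im ?_
  rw [Complex.add_im, Complex.im_sum]
  exact add_pos_of_nonneg_of_pos h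
    (Finset.sum_pos (fun c _ => hM c) ⟨⟨0, hD⟩, Finset.mem_univ _⟩)

section
variable {n D : ℕ} (s : ℝ) (ω : Fin n → J) {z m : ℂ} (π : Pairing n D) (h : HE n D)

theorem Bz_dis (z : ℂ) : Dis z.im (Bz s ω z π) := by
  exact dis_cx (ham_isSymm π.2.1 s ω) z

theorem res_eq_Bz (z : ℂ) : res (ham s π.1 ω) z = (Bz s ω z π)⁻¹ := rfl

theorem ends_eq_two : ends π.1 h = two h.1 (π.1 h).1 := rfl

theorem Jh_pi (m : ℂ) : Jh m π (π.1 h) = Jh m π h := by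
  rw [Jh, Jh, π.2.1, Jm_comm]

theorem Sh_pi (z m : ℂ) : Sh s ω z m π (π.1 h) = Sh s ω z m π h := by
  rw [Sh, Sh, Jh_pi]

theorem Nh_pi (z m : ℂ) : Nh s ω z m π (π.1 h) = Sh s ω z m π h (π.1 h).1 (π.1 h).1 := by
  rw [Nh, Sh_pi]

theorem Sh_dis (hm : 0 ≤ m.im) : Dis z.im (Bz s ω z π - Jh m π h) := by
  exact (Bz_dis s ω π z).sub_Jm hm _ _

theorem Sh_port_fst {μ : ℝ} (hz : 0 < z.im) (hμ : 0 < μ) (hm : μ ≤ m.im) :
    Port μ (Bz s ω z π - Jh m π h) h.1 := by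
  exact (Bz_dis s ω π z).port_left hz.le hμ.le hm _ _

theorem Sh_port_snd {μ : ℝ} (hz : 0 < z.im) (hμ : 0 < μ) (hm : μ ≤ m.im) :
    Port μ (Bz s ω z π - Jh m π h) (π.1 h).1 := by
  exact (Bz_dis s ω π z).port_right hz.le hμ.le hm _ _

theorem norm_Nh_le {μ : ℝ} (hz : 0 < z.im) (hμ : 0 < μ) (hm : μ ≤ m.im) :
    ‖Nh s ω z m π h‖ ≤ 1 / μ := by
  exact (Sh_dis s ω π h (hμ.le.trans hm)).port_norm hz hμ (Sh_port_fst s ω π h hz hμ hm)
    (Sh_port_fst s ω π h hz hμ hm)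

theorem norm_Th_le {μ : ℝ} (hz : 0 < z.im) (hμ : 0 < μ) (hm : μ ≤ m.im) :
    ‖Th s ω z m π h‖ ≤ 1 / μ := by
  exact (Sh_dis s ω π h (hμ.le.trans hm)).port_norm hz hμ (Sh_port_snd s ω π h hz hμ hm)
    (Sh_port_fst s ω π h hz hμ hm)

/-- Ward at the port `h.1`: `Im N ≥ (η + Im m) ‖N‖²` and `N ≠ 0`, so `Im (-1/N - m) > 0` -/
theorem Nh_passive (hz : 0 < z.im) (hm : 0 < m.im) :
    Nh s ω z m π h ≠ 0 ∧ 0 < (-1 / Nh s ω z m π h - m).im := by
  have hB := Sh_dis s ω (z := z) π h hm.le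
  have h1 : 0 < (Nh s ω z m π h).im := hB.im_pos hz h.1
  have h0 : Nh s ω z m π h ≠ 0 := fun e => by simp [e] at h1
  have h2 : Port m.im (0 - Jh m π h) h.1 :=
    Dis.port_left (η := 0) ⟨fun _ _ => rfl, fun _ _ _ => rfl, fun _ => by simp⟩ le_rfl hm.le le_rfl _ _
  have h3 := (Bz_dis s ω π z).diag h.1
  have h4 : -((Bz s ω z π - Jh m π h) h.1 h.1).im * ‖Nh s ω z m π h‖ ^ 2 ≤ (Nh s ω z m π h).im := by
    refine le_trans ?_ (hB.ward hz h.1).ge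
    exact Finset.single_le_sum (f := fun x => -((Bz s ω z π - Jh m π h) x x).im *
      ‖(Bz s ω z π - Jh m π h)⁻¹ x h.1‖ ^ 2) (fun x _ => mul_nonneg
        (by linarith [hB.diag x]) (sq_nonneg _)) (Finset.mem_univ h.1)
  simp only [Port, Matrix.sub_apply, Matrix.zero_apply, Complex.sub_im, Complex.zero_im] at h2 h4
  have h5 : 0 < ‖Nh s ω z m π h‖ ^ 2 := by positivity
  refine ⟨h0, ?_⟩
  rw [Complex.sub_im, neg_div, one_div, Complex.neg_im, Complex.inv_im, neg_div, neg_neg, sub_pos,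
    Complex.normSq_eq_norm_sq, lt_div_iff₀ h5]
  nlinarith

theorem one_div_Mh (hz : 0 < z.im) (hm : 0 < m.im) :
    1 / Mh s ω z m π h = 1 / Nh s ω z m π h + m := by
  have h0 := (Nh_passive s ω π h hz hm).1
  rw [Mh, mOf, one_div_div]
  field_simp

theorem Mh_im_pos (hz : 0 < z.im) (hm : 0 < m.im) : 0 < (Mh s ω z m π h).im := by
  have h1 := Loc_inv_im (Nh_passive s ω π h hz hm).2
  have h2 : -1 / Nh s ω z m π h - m = -(1 / Mh s ω z m π h) := by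
    rw [one_div_Mh s ω π h hz hm]
    ring
  rwa [h2, neg_div_neg_eq, one_div_one_div] at h1

theorem nOf_Mh (hz : 0 < z.im) (hm : 0 < m.im) : nOf m (Mh s ω z m π h) = Nh s ω z m π h := by
  obtain ⟨h0, h1⟩ := Nh_passive s ω π h hz hm
  have h2 : 1 + m * Nh s ω z m π h ≠ 0 := fun e => by
    have h3 : -1 / Nh s ω z m π h - m = 0 := by
      field_simp
      linear_combination -e
    simp [h3] at h1
  have h4 : 1 - m * (Nh s ω z m π h / (1 + m * Nh s ω z m π h)) =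
      1 / (1 + m * Nh s ω z m π h) := by
    rw [eq_div_iff h2, sub_mul, mul_assoc, div_mul_cancel₀ _ h2]
    ring
  rw [Mh, mOf, nOf, h4, div_div_div_cancel_right₀ h2, div_one]

theorem Zh_eq (hz : 0 < z.im) (hm : 0 < m.im) :
    Zh s ω z m π h = -m * ((1 - m ^ 2) * Nh s ω z m π h - m) := by
  rw [Zh, zeta_eq_nOf hm (Mh_im_pos s ω π h hz hm).le, nOf_Mh s ω π h hz hm]

theorem norm_Zh_le {μ : ℝ} (hz : 0 < z.im) (hμ : 0 < μ) (hm : μ ≤ m.im) (hm1 : ‖m‖ ≤ 1) :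
    ‖Zh s ω z m π h‖ ≤ 2 / μ + 1 := by
  exact norm_zeta_le hμ hm hm1 (Mh_im_pos s ω π h hz (hμ.trans_le hm)).le

theorem stB_nonneg (z m : ℂ) : 0 ≤ stB s ω z m π := by
  exact div_nonneg (Finset.sum_nonneg fun _ _ => sq_nonneg _) (Nat.cast_nonneg _)

theorem stT_nonneg (z m : ℂ) : 0 ≤ stT s ω z m π := by
  exact div_nonneg (Finset.sum_nonneg fun _ _ => sq_nonneg _) (Nat.cast_nonneg _)

theorem mE_im_pos (hz : 0 < z.im) : 0 < (mE s ω z π h).im := by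
  exact mT_im_pos hz _

/-- the tree values obey the recursion exactly (`mT_rec`; `(envH π ω h).sub c` is `rfl`) -/
theorem mE_rec (hz : 0 < z.im) (E : ℝ) (o : Fin n) (j : Fin (D + 1)) :
    mE s ω z π (o, j) = recF E (z - E - ((s * (ω o : ℝ) : ℝ) : ℂ))
      fun c => mE s ω z π (π.1 (o, j.succAbove c)) := by
  rw [mE, mT_rec hz, recF, neg_div, ← div_neg]
  congr 1
  change ((s * (ω o : ℝ) : ℝ) : ℂ) - z - ∑ c, mE s ω z π (π.1 (o, j.succAbove c)) = _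
  ring

/-- with the zero potential the coupling constant is irrelevant -/
theorem ham_J0 (π : Equiv.Perm (HE n D)) : ham s π (fun _ => J0) = ham 0 π fun _ => J0 := by
  simp [ham, J0]

end

end Crest.Agent.R166.PA
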