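import Crest.Agent.R166.A.Loc
import Crest.Agent.R166.A.Avg
import Crest.Agent.R166.PartG

/-! # Part A: continuity in the potential, measurability, Markov on `POm` -/

set_option autoImplicit false
set_option linter.unusedVariables false
set_option linter.unusedSectionVars false

open MeasureTheory ProbabilityTheory Filter Topology Matrix
open scoped ENNReal BoundedContinuousFunction

namespace Crest.Agent.R166.PA

theorem Meas_Bz {n D : ℕ} (s : ℝ) (z : ℂ) (π : Pairing n D) :
    Continuous fun ω : Fin n → J => Bz s ω z π := by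
  refine Continuous.sub (continuous_matrix fun x y => ?_) continuous_const
  simp only [cx_apply, ham, Matrix.add_apply, Matrix.diagonal_apply]
  split_ifs <;> fun_prop

theorem Meas_avg {X A : Type} [TopologicalSpace X] [Fintype A] {f : X → A → ℝ}
    (hf : ∀ a, Continuous fun x => f x a) : Continuous fun x => avg (f x) :=
  (continuous_finsetSum _ fun a _ => hf a).div_const _

theorem Meas_zeta {X : Type} [TopologicalSpace X] {f : X → ℂ} {m : ℂ} (hf : Continuous f)
    (hm : 0 < m.im) (h : ∀ x, 0 ≤ (f x).im) : Continuous fun x => zeta m (f x) := by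
  refine (hf.sub continuous_const).div (hf.sub continuous_const) fun x e => Loc_den_ne hm (h x) ?_
  have h0 : m ≠ 0 := fun e => by simp [e] at hm
  rw [sub_eq_zero.1 e, mul_one_div_cancel h0, sub_self]

theorem Meas_zeta_recF {X : Type} [TopologicalSpace X] {D : ℕ} {t : X → ℂ} {M : X → Fin D → ℂ}
    {z m : ℂ} (ht : Continuous t) (hM : ∀ c, Continuous fun x => M x c) (hm : 0 < m.im)
    (h1 : ∀ x, 0 < (z + t x).im) (h2 : ∀ x c, 0 ≤ (M x c).im) :
    Continuous fun x => zeta m (recF z (t x) (M x)) := by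
  have k : ∀ x, 0 < (z + t x + ∑ c, M x c).im := fun x => by
    rw [Complex.add_im, Complex.im_sum]
    exact add_pos_of_pos_of_nonneg (h1 x) (Finset.sum_nonneg fun c _ => h2 x c)
  refine Meas_zeta (continuous_const.div ((continuous_const.add ht).add
    (continuous_finsetSum _ fun c _ => hM c)) fun x e => ?_) hm fun x => (Loc_inv_im (k x)).le
  have := k x
  rw [e] at this
  simp at this

theorem Meas_lint {n D : ℕ} (β : Measure J) [IsProbabilityMeasure β] {u : Om n D → ℝ}
    (hu : Measurable u) (h0 : ∀ o, 0 ≤ u o) : ∫⁻ o, ENNReal.ofReal (u o) ∂(POm n D β)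
      = ∫⁻ ω, ENNReal.ofReal (avg fun π => u (π, ω)) ∂(Measure.pi fun _ => β) := by
  unfold POm
  rw [lintegral_prod_symm _ hu.ennreal_ofReal.aemeasurable]
  refine lintegral_congr fun ω => ?_
  rw [← ofReal_integral_eq_lintegral_ofReal Integrable.of_finite
    (Eventually.of_forall fun π => h0 _), integral_uniformOn_univ]

section
variable {n D : ℕ} (s : ℝ) {z m : ℂ} (π : Pairing n D)

theorem continuous_Sh (hz : 0 < z.im) (hm : 0 ≤ m.im) (h : HE n D) (x y : Fin n) :
    Continuous fun ω : Fin n → J => Sh s ω z m π h x y := by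
  exact Dis.continuous_inv ((Meas_Bz s z π).sub continuous_const)
    (fun ω => Sh_dis s ω π h hm) hz x y

theorem continuous_Mh (hz : 0 < z.im) (hm : 0 < m.im) (h : HE n D) :
    Continuous fun ω : Fin n → J => Mh s ω z m π h := by
  have h1 : Continuous fun ω : Fin n → J => Nh s ω z m π h := continuous_Sh s π hz hm.le h _ _
  refine h1.div (continuous_const.add (continuous_const.mul h1)) fun ω e => ?_
  have := Mh_im_pos s ω π h hz hm
  rw [Mh, mOf, e] at this
  simp at this

theorem continuous_Zh (hz : 0 < z.im) (hm : 0 < m.im) (h : HE n D) :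
    Continuous fun ω : Fin n → J => Zh s ω z m π h := by
  exact Meas_zeta (continuous_Mh s π hz hm h) hm fun ω => (Mh_im_pos s ω π h hz hm).le

theorem continuous_mE (hz : 0 < z.im) (h : HE n D) :
    Continuous fun ω : Fin n → J => mE s ω z π h := by
  exact (continuous_mT hz).comp (continuous_pi fun l => continuous_apply _)

theorem continuous_zeta_mE (hz : 0 < z.im) (hm : 0 < m.im) (h : HE n D) :
    Continuous fun ω : Fin n → J => zeta m (mE s ω z π h) := by
  exact Meas_zeta (continuous_mE s π hz h) hm fun ω => (mE_im_pos s ω π h hz).le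

theorem continuous_stB (hz : 0 < z.im) (hm : 0 < m.im) :
    Continuous fun ω : Fin n → J => stB s ω z m π := by
  exact Meas_avg fun h => (continuous_Zh s π hz hm h).norm.pow 2

theorem continuous_stT (hz : 0 < z.im) (hm : 0 < m.im) :
    Continuous fun ω : Fin n → J => stT s ω z m π := by
  exact Meas_avg fun h => (continuous_Sh s π hz hm.le h _ _).norm.pow 2

theorem continuous_stF (E : ℝ) {η : ℝ} (hη : 0 < η) {w : ℂ} (hw : 0 < w.im) (hm : 0 < m.im)
    {φ : ℂ × ℂ → ℝ} (hφ : Continuous φ) : Continuous fun ω : Fin n → J => stF s ω E η w m φ π := by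
  exact Meas_avg fun h => hφ.comp ((continuous_Zh s π (by simpa using hη) hm h).prodMk
    (continuous_zeta_mE s π hw hm h))

/-- `recF_im_pos`-type facts: the denominators have positive imaginary part -/
theorem continuous_stP (E : ℝ) {η : ℝ} (hη : 0 < η) {w : ℂ} (hw : 0 < w.im) (hm : 0 < m.im)
    {φ : ℂ × ℂ → ℝ} (hφ : Continuous φ) : Continuous fun ω : Fin n → J => stP s ω E η w m φ π := by
  have hz : 0 < ((E : ℂ) + η * Complex.I).im := by simpa using hη
  refine Meas_avg fun o => Meas_avg fun a => hφ.comp (Continuous.prodMk ?_ ?_)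
  · exact Meas_zeta_recF (by fun_prop) (fun c => continuous_Mh s π hz hm _) hm
      (fun ω => by simpa using hη) fun ω c => (Mh_im_pos s ω π _ hz hm).le
  · exact Meas_zeta_recF (by fun_prop) (fun c => continuous_mE s π hw _) hm
      (fun ω => by simpa using hw) fun ω c => (mE_im_pos s ω π _ hw).le

end

theorem measurable_Om {n D : ℕ} {X : Type} [MeasurableSpace X] {F : Pairing n D → (Fin n → J) → X}
    (h : ∀ π, Measurable (F π)) : Measurable fun o : Om n D => F o.1 o.2 := by
  exact measurable_from_prod_countable_right h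

theorem measurable_tailM {n D : ℕ} (s : ℝ) {z m : ℂ} (hz : 0 < z.im) (hm : 0 < m.im) (T : ℝ) :
    Measurable fun o : Om n D => tailM s o.2 z m T o.1 := by
  exact measurable_Om (F := fun π ω => tailM s ω z m T π) fun π => measurable_frac fun h =>
    measurableSet_lt measurable_const (continuous_Mh s π hz hm h).norm.measurable

theorem measurable_topY {n D : ℕ} (s : ℝ) {z : ℂ} (hz : 0 < z.im) (L : ℝ) :
    Measurable fun o : Om n D => topY s o.2 z L o.1 := by
  refine measurable_Om (F := fun π ω => topY s ω z L π) fun π => measurable_avg fun x => ?_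
  have h1 : Measurable fun ω : Fin n → J => (res (ham s π.1 ω) z x x).im :=
    (Complex.continuous_im.comp (Dis.continuous_inv (Meas_Bz s z π) (fun ω => Bz_dis s ω π z)
      hz x x)).measurable
  exact Measurable.ite (measurableSet_lt measurable_const h1) h1 measurable_const

section
variable {n D : ℕ} (β : Measure J) [IsProbabilityMeasure β]

theorem POm_univ_le : POm n D β Set.univ ≤ 1 := by
  simpa using POm_le_of_frac β (Set.univ : Set (Om n D)) MeasurableSet.univ
    fun ω => frac_le_one _

theorem POm_lintegral_le {F : Om n D → ℝ≥0∞} (hF : Measurable F) {a : ℝ≥0∞}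
    (h : ∀ π, ∫⁻ ω, F (π, ω) ∂(Measure.pi fun _ => β) ≤ a) : ∫⁻ o, F o ∂(POm n D β) ≤ a := by
  unfold POm
  rw [lintegral_prod _ hF.aemeasurable]
  refine (lintegral_mono h).trans ?_
  rw [lintegral_const]
  exact mul_le_of_le_one_right' prob_le_one

theorem POm_markov_lintegral {u : Om n D → ℝ} (hu : Measurable u) {a x : ℝ} (hx : 0 < x)
    (h : ∫⁻ o, ENNReal.ofReal (u o) ∂(POm n D β) ≤ ENNReal.ofReal a) :
    POm n D β {o | x < u o} ≤ ENNReal.ofReal (a / x) := by
  rw [ENNReal.ofReal_div_of_pos hx]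
  refine le_trans (measure_mono fun o ho => ENNReal.ofReal_le_ofReal (le_of_lt ho))
    ((meas_ge_le_lintegral_div hu.ennreal_ofReal.aemeasurable (ENNReal.ofReal_pos.2 hx).ne'
      ENNReal.ofReal_ne_top).trans (ENNReal.div_le_div_right h _))

theorem POm_markov {u : Om n D → ℝ} (hu : Measurable u) (h0 : ∀ o, 0 ≤ u o) {a x : ℝ} (hx : 0 < x)
    (h : ∀ ω, (avg fun π => u (π, ω)) ≤ a) : POm n D β {o | x < u o} ≤ ENNReal.ofReal (a / x) := by
  refine POm_markov_lintegral β hu hx ?_
  rw [Meas_lint β hu h0]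
  refine (lintegral_mono fun ω => ENNReal.ofReal_le_ofReal (h ω)).trans ?_
  simp

theorem lintegral_le_of_small {v : Om n D → ℝ} (hv : Measurable v) (h1 : ∀ o, v o ≤ 1) {ε : ℝ}
    (hε : 0 ≤ ε) (h : POm n D β {o | ε < v o} ≤ ENNReal.ofReal ε) :
    ∫⁻ o, ENNReal.ofReal (v o) ∂(POm n D β) ≤ ENNReal.ofReal (2 * ε) := by
  have hS : MeasurableSet {o | ε < v o} := measurableSet_lt measurable_const hv
  calc ∫⁻ o, ENNReal.ofReal (v o) ∂(POm n D β)
      ≤ ∫⁻ o, (ENNReal.ofReal ε + {o | ε < v o}.indicator 1 o) ∂(POm n D β) := by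
        refine lintegral_mono fun o => ?_
        by_cases ho : ε < v o
        · rw [Set.indicator_of_mem (show o ∈ {o | ε < v o} from ho)]
          exact le_add_left (ENNReal.ofReal_le_one.2 (h1 o))
        · exact le_add_right (ENNReal.ofReal_le_ofReal (not_lt.1 ho))
    _ ≤ ENNReal.ofReal ε + ENNReal.ofReal ε := by
        rw [lintegral_add_left measurable_const, lintegral_indicator_one hS, lintegral_const]
        exact add_le_add (mul_le_of_le_one_right' (POm_univ_le β)) h
    _ = _ := by rw [← ENNReal.ofReal_add hε hε, two_mul]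

/-- integrate the quenched inequality in `ω`, then `lintegral_le_of_small` and Markov -/
theorem POm_markov₂ {u v : Om n D → ℝ} (hu : Measurable u) (hv : Measurable v) (h0 : ∀ o, 0 ≤ u o)
    (hv0 : ∀ o, 0 ≤ v o) (hv1 : ∀ o, v o ≤ 1) {a C ε x : ℝ} (ha : 0 ≤ a) (hC : 0 ≤ C) (hε : 0 ≤ ε)
    (hx : 0 < x) (h : ∀ ω, (avg fun π => u (π, ω)) ≤ a + C * avg fun π => v (π, ω))
    (hs : POm n D β {o | ε < v o} ≤ ENNReal.ofReal ε) :
    POm n D β {o | x < u o} ≤ ENNReal.ofReal ((a + C * (2 * ε)) / x) := by
  refine POm_markov_lintegral β hu hx ?_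
  have k := lintegral_le_of_small β hv hv1 hε hs
  rw [Meas_lint β hv hv0] at k
  rw [Meas_lint β hu h0]
  refine (lintegral_mono fun ω => ENNReal.ofReal_le_ofReal (h ω)).trans ?_
  have e : ∀ ω, ENNReal.ofReal (a + C * avg fun π => v (π, ω))
      = ENNReal.ofReal a + ENNReal.ofReal C * ENNReal.ofReal (avg fun π => v (π, ω)) := fun ω => by
    rw [ENNReal.ofReal_add ha (mul_nonneg hC (avg_nonneg fun π => hv0 _)), ENNReal.ofReal_mul hC]
  simp only [e]
  rw [lintegral_add_left measurable_const, lintegral_const_mul' _ _ ENNReal.ofReal_ne_top,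
    lintegral_const, measure_univ, mul_one, ENNReal.ofReal_add ha (by positivity),
    ENNReal.ofReal_mul hC]
  gcongr

end

/-- no measurability needed for the point mass: `S ⊆ {(π, ω) | (π, J0) ∈ S} ∪ {ω ≠ J0}` -/
theorem POm_dirac {n D : ℕ} (S : Set (Om n D)) :
    POm n D (Measure.dirac J0) S ≤ ENNReal.ofReal (frac fun π => (π, fun _ => J0) ∈ S) := by
  have h1 : POm n D (Measure.dirac J0) {o | (o.1, fun _ => J0) ∈ S}
      ≤ ENNReal.ofReal (frac fun π => (π, fun _ => J0) ∈ S) :=
    POm_le_of_frac _ _ (measurable_fst (MeasurableSet.of_discrete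
      (s := {π : Pairing n D | (π, fun _ => J0) ∈ S}))) fun ω => le_rfl
  have h2 : ∀ᵐ ω ∂(Measure.pi fun _ : Fin n => Measure.dirac J0), ∀ i, ω i = J0 :=
    ae_all_iff.2 fun i => (Measure.tendsto_eval_ae_ae (i := i)).eventually
      (p := fun t => t = J0) (by simp)
  have h3 : ∀ᵐ o ∂(POm n D (Measure.dirac J0)), ∀ i, o.2 i = J0 :=
    Measure.quasiMeasurePreserving_snd.ae h2
  refine le_trans (measure_mono_ae ?_) h1
  filter_upwards [h3] with o ho hS
  have : o.2 = fun _ => J0 := funext ho
  change (o.1, fun _ => J0) ∈ S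
  rw [← this]
  exact hS

end Crest.Agent.R166.PA
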