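import Crest.Agent.R166.A.Loc
import Crest.Agent.R166.A.Avg
import Crest.Agent.R166.G4

/-! # Part A: the transmission through a cut edge is small -/

set_option autoImplicit false
set_option linter.unusedVariables false
set_option linter.unusedSectionVars false

open MeasureTheory ProbabilityTheory Filter Topology Matrix
open scoped ENNReal BoundedContinuousFunction

namespace Crest.Agent.R166.PA

section
variable {n D : ℕ} (s : ℝ) (ω : Fin n → J) (z m : ℂ)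

private noncomputable def trE (π : Pairing n D) (h₁ h₂ : HE n D) (p : Fin n) : ℝ :=
  ‖Sh s ω z m π h₁ h₂.1 p‖ + ‖Sh s ω z m π h₁ (π.1 h₂).1 p‖

private theorem trE_nonneg (π : Pairing n D) (h₁ h₂ : HE n D) (p : Fin n) :
    0 ≤ trE s ω z m π h₁ h₂ p := add_nonneg (norm_nonneg _) (norm_nonneg _)

variable {z m} {μ : ℝ}

private theorem trE_avg (hz : 0 < z.im) (hμ : 0 < μ) (hm : μ ≤ m.im) (π : Pairing n D) (h₁ : HE n D)
    {p : Fin n} (hp : Port μ (Bz s ω z π - Jh m π h₁) p) :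
    (avg fun h₂ => trE s ω z m π h₁ h₂ p ^ 2) ≤ 4 * (1 / (μ * (n * z.im))) := by
  have h := avg_port_sq (Sh_dis s ω π h₁ (hμ.le.trans hm)) hz hμ hp
  calc (avg fun h₂ => trE s ω z m π h₁ h₂ p ^ 2)
      ≤ avg fun h₂ : HE n D => 2 * ‖Sh s ω z m π h₁ h₂.1 p‖ ^ 2 +
          2 * ‖Sh s ω z m π h₁ (π.1 h₂).1 p‖ ^ 2 := by
        refine avg_mono fun h₂ => ?_
        unfold trE
        nlinarith [sq_nonneg (‖Sh s ω z m π h₁ h₂.1 p‖ - ‖Sh s ω z m π h₁ (π.1 h₂).1 p‖)]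
    _ ≤ _ := by
        rw [avg_add, avg_const_mul, avg_const_mul,
          avg_HE_fst (fun x => ‖Sh s ω z m π h₁ x p‖ ^ 2),
          avg_HE_snd π.1 (fun x => ‖Sh s ω z m π h₁ x p‖ ^ 2)]
        unfold Sh
        linarith

private theorem tr_pt (hz : 0 < z.im) (hμ : 0 < μ) (hm : μ ≤ m.im) (hm1 : ‖m‖ ≤ 1) (π : Pairing n D)
    {h₁ h₂ : HE n D} (hok : EdgeOK π.1 h₁ h₂) :
    ‖Th s ω z m (switchP (Equiv.swap h₁ h₂) π) h₁‖ ^ 2 ≤
      2 * (2 / μ) ^ 2 * trE s ω z m (switchP (Equiv.swap h₁ h₂) π) h₁ h₂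
        ((switchP (Equiv.swap h₁ h₂) π).1 h₁).1 ^ 2 +
      2 * (2 / μ + 1) ^ 2 * trE s ω z m π h₁ h₂ h₁.1 ^ 2 := by
  obtain ⟨-, -, e1, e2, -, -, -, e3⟩ := hok.spec
  set π' := switchP (Equiv.swap h₁ h₂) π with hπ'
  have hm0 : 0 ≤ m.im := hμ.le.trans hm
  have hB := Sh_dis s ω (z := z) π h₁ hm0
  have hB' := Sh_dis s ω (z := z) π' h₁ hm0
  have heq : Bz s ω z π' - Jh m π' h₁ - Jm m h₂.1 (π'.1 h₂).1 =
      Bz s ω z π - Jh m π h₁ - Jm m h₂.1 (π.1 h₂).1 := by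
    ext x y
    simp only [Bz, Jh, Jm, ham, e1, e2, e3, cx, Matrix.add_apply, Matrix.sub_apply,
      Matrix.smul_apply, Matrix.map_apply, smul_eq_mul]
    push_cast
    ring
  have c1 := hB.cut_le₁ hz hμ hm hm1 h₂.1 (π.1 h₂).1 (hB.port_right hz.le hμ.le hm _ _) h₁.1
  have c2 := hB'.cut_le₁ hz hμ hm hm1 h₂.1 (π'.1 h₂).1
    ((Sh_port_fst s ω π' h₁ hz hμ hm).sub_Jm hm0 _ _) (π'.1 h₁).1
  rw [heq] at c2
  have c3 := (hB.sub_Jm hm0 h₂.1 (π.1 h₂).1).inv_symm h₁.1 (π.1 h₂).1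
  have c4 : (π'.1 h₁).1 = (π.1 h₂).1 := by rw [e1]
  change ‖_ - Th s ω z m π' h₁‖ ≤ 2 / μ * trE s ω z m π' h₁ h₂ (π'.1 h₁).1 at c2
  change ‖_ - Sh s ω z m π h₁ (π.1 h₂).1 h₁.1‖ ≤ 2 / μ * trE s ω z m π h₁ h₂ h₁.1 at c1
  have c5 : ‖Sh s ω z m π h₁ (π.1 h₂).1 h₁.1‖ ≤ trE s ω z m π h₁ h₂ h₁.1 :=
    le_add_of_nonneg_left (norm_nonneg _)
  rw [← c3, ← c4] at c1
  rw [← c4] at c5
  rw [← c4] at c2
  generalize trE s ω z m π' h₁ h₂ (π'.1 h₁).1 = a at c2 ⊢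
  generalize trE s ω z m π h₁ h₂ h₁.1 = b at c1 c5 ⊢
  generalize Th s ω z m π' h₁ = T at c2 ⊢
  generalize Sh s ω z m π h₁ (π'.1 h₁).1 h₁.1 = S at c1 c5
  generalize (Bz s ω z π - Jh m π h₁ - Jm m h₂.1 (π'.1 h₁).1)⁻¹ h₁.1 (π'.1 h₁).1 = G at c1 c2
  have c6 : ‖T‖ ≤ 2 / μ * a + (2 / μ + 1) * b := by
    have e : T = S + (G - S) - (G - T) := by ring
    have := norm_sub_le (S + (G - S)) (G - T)
    have := norm_add_le S (G - S)
    rw [← e] at *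
    linarith
  have c7 := pow_le_pow_left₀ (norm_nonneg T) c6 2
  nlinarith [sq_nonneg (2 / μ * a - (2 / μ + 1) * b)]

end

/-- Edge switch `π' = switchP (swap h₁ h₂) π` on `EdgeOK`: `a_i = h_i.1`, `b_i = (π h_i).1`, `π' h₁ = π h₂`.
`avg_π avg_{h₁} ‖Th π h₁‖² ≤ (1/μ²) C/n + avg 1_OK ‖Th π h₁‖²`, and by `avg_edge` the last term is
`avg 1_OK ‖Th π' h₁‖²`.  `Bz π - Jh π h₁ - Jh π h₂ = Bz π' - Jh π' h₁ - Jh π' h₂` (`EdgeOK.spec`), call `G₂` its inverse.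
`cut_le₁`: `‖G₂ a₁ b₂ - Th π' h₁‖ ≤ (2/μ) e(π')`, `e(π) = ∑_{v ∈ ends π h₂} ‖Sh π h₁ v (π h₁).1‖`, and
`‖G₂ b₂ a₁ - Sh π h₁ b₂ a₁‖ ≤ (2/μ) e'(π)`, `e'(π) = ∑_{v ∈ ends π h₂} ‖Sh π h₁ v h₁.1‖ ≥ ‖Sh π h₁ b₂ a₁‖`; `G₂` is symmetric.
`avg_{h₂} e², avg_{h₂} e'² ≤ C/K` by `avg_port_sq`; `avg_edge` again for `e(π')`. -/
theorem trans_bound (D : ℕ) {μ : ℝ} (hμ : 0 < μ) : ∃ C : ℝ, 0 < C ∧
    ∀ (n : ℕ) (s : ℝ) (ω : Fin n → J) (z m : ℂ), 0 < z.im → z.im ≤ 1 → μ ≤ m.im → ‖m‖ ≤ 1 →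
      (avg fun π : Pairing n D => stT s ω z m π) ≤ C / (n * z.im) := by
  classical
  obtain ⟨C₀, hC₀⟩ := frac_not_edgeOK D
  refine ⟨(1 / μ) ^ 2 * |C₀| + (2 * (2 / μ) ^ 2 + 2 * (2 / μ + 1) ^ 2) * (4 / μ), by positivity, ?_⟩
  intro n s ω z m hz hz1 hm hm1
  set c1 : ℝ := 2 * (2 / μ) ^ 2 with hc1
  set c2 : ℝ := 2 * (2 / μ + 1) ^ 2 with hc2
  have hc1' : 0 ≤ c1 := by positivity
  have hc2' : 0 ≤ c2 := by positivity
  have hC : C₀ / n ≤ |C₀| / (n * z.im) := by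
    rcases Nat.eq_zero_or_pos n with h | h
    · simp [h]
    · have hn : (0 : ℝ) < n := by exact_mod_cast h
      calc C₀ / n ≤ |C₀| / n := by gcongr; exact le_abs_self _
        _ ≤ |C₀| / (n * z.im) := by
          gcongr
          nlinarith
  have s1 : ∀ (π : Pairing n D) (h₁ : HE n D), ‖Th s ω z m π h₁‖ ^ 2 ≤
      (avg fun h₂ => if EdgeOK π.1 h₁ h₂ then ‖Th s ω z m π h₁‖ ^ 2 else 0) +
        (1 / μ) ^ 2 * (|C₀| / (n * z.im)) := by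
    intro π h₁
    haveI : Nonempty (HE n D) := ⟨h₁⟩
    have hT := pow_le_pow_left₀ (norm_nonneg _) (norm_Th_le s ω π h₁ hz hμ hm) 2
    calc ‖Th s ω z m π h₁‖ ^ 2 = avg fun _ : HE n D => ‖Th s ω z m π h₁‖ ^ 2 := (avg_const _).symm
      _ ≤ avg fun h₂ : HE n D => (if EdgeOK π.1 h₁ h₂ then ‖Th s ω z m π h₁‖ ^ 2 else 0) +
          (1 / μ) ^ 2 * (if ¬ EdgeOK π.1 h₁ h₂ then 1 else 0) := by
        refine avg_mono fun h₂ => ?_
        by_cases h : EdgeOK π.1 h₁ h₂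
        · simp [h]
        · simpa [h] using hT
      _ ≤ _ := by
        rw [avg_add, avg_const_mul]
        gcongr
        refine le_trans (le_of_eq ?_) ((hC₀ n π h₁).trans hC)
        unfold frac
        exact avg_congr fun h₂ => by congr
  have s2 : ∀ h₁ h₂ : HE n D,
      (avg fun π : Pairing n D => if EdgeOK π.1 h₁ h₂ then ‖Th s ω z m π h₁‖ ^ 2 else 0) ≤
      avg fun π : Pairing n D => c1 * trE s ω z m π h₁ h₂ (π.1 h₁).1 ^ 2 +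
        c2 * trE s ω z m π h₁ h₂ h₁.1 ^ 2 := by
    intro h₁ h₂
    have a1 := avg_edge h₁ h₂ (fun π _ => ‖Th s ω z m π h₁‖ ^ 2)
    have a2 := avg_edge h₁ h₂ (fun π _ => c1 * trE s ω z m π h₁ h₂ (π.1 h₁).1 ^ 2)
    have a3 : (avg fun π : Pairing n D => if EdgeOK π.1 h₁ h₂ then
        c1 * trE s ω z m π h₁ h₂ (π.1 h₁).1 ^ 2 else 0) ≤
        avg fun π : Pairing n D => c1 * trE s ω z m π h₁ h₂ (π.1 h₁).1 ^ 2 := by
      refine avg_mono fun π => ?_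
      split_ifs
      · exact le_rfl
      · positivity
    rw [avg_add]
    refine a1.le.trans (le_trans ?_ (add_le_add (a2.ge.trans a3) le_rfl))
    rw [← avg_add]
    refine avg_mono fun π => ?_
    split_ifs with h
    · exact tr_pt s ω hz hμ hm hm1 π h
    · positivity
  have s3 : ∀ (π : Pairing n D) (h₁ : HE n D),
      (avg fun h₂ : HE n D => c1 * trE s ω z m π h₁ h₂ (π.1 h₁).1 ^ 2 +
        c2 * trE s ω z m π h₁ h₂ h₁.1 ^ 2) ≤ (c1 + c2) * (4 * (1 / (μ * (n * z.im)))) := by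
    intro π h₁
    rw [avg_add, avg_const_mul, avg_const_mul, add_mul]
    exact add_le_add
      (mul_le_mul_of_nonneg_left (trE_avg s ω hz hμ hm π h₁ (Sh_port_snd s ω π h₁ hz hμ hm)) hc1')
      (mul_le_mul_of_nonneg_left (trE_avg s ω hz hμ hm π h₁ (Sh_port_fst s ω π h₁ hz hμ hm)) hc2')
  have s4 : (avg fun π : Pairing n D => avg fun h₁ : HE n D => avg fun h₂ : HE n D =>
      if EdgeOK π.1 h₁ h₂ then ‖Th s ω z m π h₁‖ ^ 2 else 0) ≤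
      (c1 + c2) * (4 * (1 / (μ * (n * z.im)))) := by
    rw [avg_comm]
    refine avg_le_of_le (by positivity) fun h₁ => ?_
    rw [avg_comm]
    refine (avg_mono fun h₂ => s2 h₁ h₂).trans ?_
    rw [avg_comm]
    exact avg_le_of_le (by positivity) fun π => s3 π h₁
  have s5 : (avg fun π : Pairing n D => stT s ω z m π) ≤
      avg fun π : Pairing n D => (avg fun h₁ : HE n D => avg fun h₂ : HE n D =>
        if EdgeOK π.1 h₁ h₂ then ‖Th s ω z m π h₁‖ ^ 2 else 0) +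
        (1 / μ) ^ 2 * (|C₀| / (n * z.im)) := by
    refine avg_mono fun π => (avg_mono fun h₁ => s1 π h₁).trans ?_
    rw [avg_add]
    gcongr
    exact avg_le_of_le (by positivity) fun _ => le_rfl
  refine s5.trans ?_
  rw [avg_add]
  refine (add_le_add s4 (avg_le_of_le (by positivity) fun _ => le_rfl)).trans (le_of_eq ?_)
  have := hμ.ne'
  rw [add_div, ← div_div, mul_div_assoc, mul_div_assoc]
  ring

end Crest.Agent.R166.PA
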