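import Crest.Agent.R166.A.Edge
import Crest.Agent.R166.A.Trans
import Crest.Agent.R166.A.Meas

/-! # Part A: the local law -/

set_option autoImplicit false
set_option linter.unusedVariables false
set_option linter.unusedSectionVars false

open MeasureTheory ProbabilityTheory Filter Topology Matrix
open scoped ENNReal BoundedContinuousFunction

namespace Crest.Agent.R166.PA

/-- `T, j₀` from `TreeTight (ε/4)`; `edge_fwd` gives `C, ε₀`; pick `ε₁`.  For `h` with `InK T` at `h` and `π h`,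
`‖Zh - ζ(mE)‖ ≤ ε₁` at `h` and `π h` and `‖Th‖ ≤ ε₁`: `norm_nOf_sub_le`, `nOf_Mh`, `Nh_pi`, `edge_fwd` with
`B = Bz`.  Fractions by Markov from `ZClose` and from `{x < stT}` (`trans_bound`, `POm_markov`). -/
theorem loclaw_of {D : ℕ} (hD : 2 ≤ D) {c₀ s E : ℝ} (hc : 0 < c₀) (hR : Ref D c₀ E (mc D E))
    (β : Measure J) [IsProbabilityMeasure β] (hZ : ZClose D s β E) (hT : TreeTight D s β E) :
    LocLaw D s β E := by
  intro ε hε
  obtain ⟨T, j₀, hT1, hT⟩ := hT (ε / 4) (by positivity)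
  obtain ⟨C, ε₀, hC, hε₀, hE⟩ := edge_fwd hc hT1
  obtain ⟨CT, hCT, hTr⟩ := trans_bound D hc
  obtain ⟨e, he⟩ : ∃ e, e = min ε₀ (ε / C) := ⟨_, rfl⟩
  have e0 : 0 < e := he ▸ lt_min hε₀ (by positivity)
  have e1 : e ≤ ε₀ := he ▸ min_le_left _ _
  have e2 : C * e ≤ ε := by
    have : e ≤ ε / C := he ▸ min_le_right _ _
    rwa [le_div_iff₀' hC] at this
  obtain ⟨a, ha⟩ : ∃ a, a = min e (e * c₀ / 2) := ⟨_, rfl⟩
  have a0 : 0 < a := ha ▸ lt_min e0 (by positivity)
  have a1 : a ≤ e := ha ▸ min_le_left _ _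
  have a2 : 2 / c₀ * a ≤ e := by
    have : a ≤ e * c₀ / 2 := ha ▸ min_le_right _ _
    rw [div_mul_eq_mul_div, div_le_iff₀ hc]
    linarith
  obtain ⟨x, hx⟩ : ∃ x, x = min (a ^ 2 * (ε / 4)) (ε / 4) := ⟨_, rfl⟩
  have x0 : 0 < x := hx ▸ lt_min (by positivity) (by positivity)
  have x1 : x / a ^ 2 ≤ ε / 4 := by
    have : x ≤ a ^ 2 * (ε / 4) := hx ▸ min_le_left _ _
    rwa [div_le_iff₀' (by positivity)]
  have x2 : x ≤ ε / 4 := hx ▸ min_le_right _ _
  obtain ⟨K₀, j₁, hZ⟩ := hZ x x0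
  refine ⟨max K₀ (CT / (x * (ε / 4))), max j₀ j₁, fun K hK hK0 j hj => ?_⟩
  filter_upwards [hT j (le_of_max_le_left hj), hZ K (le_of_max_le_left hK) hK0 j (le_of_max_le_right hj),
    eventually_gt_atTop 0, (tendsto_natCast_atTop_atTop (R := ℝ)).eventually_ge_atTop K]
    with n h1 h2 hn hKn
  have hn' : (0 : ℝ) < n := by exact_mod_cast hn
  obtain ⟨z, hz⟩ : ∃ z : ℂ, z = E + (K / n : ℝ) * Complex.I := ⟨_, rfl⟩
  rw [← hz] at h2 ⊢
  have ez : z.im = K / n := by rw [hz]; simp [-Complex.ofReal_div]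
  have hz0 : 0 < z.im := by rw [ez]; positivity
  have hz1 : z.im ≤ 1 := by rw [ez, div_le_one hn']; exact hKn
  have hm := hR.mim
  have hm0 : 0 < (mc D E).im := hc.trans_le hm
  have hm1 := ref_norm_le hR hD
  have hm2 := ref_norm_sq_le hR hD
  have hw : 0 < (zj E j).im := by simp [zj, -Complex.ofReal_pow, -Complex.ofReal_inv]
  have h3 : POm n D β {o | x < stT s o.2 z (mc D E) o.1} ≤ ENNReal.ofReal (ε / 4) := by
    refine (POm_markov β (u := fun o => stT s o.2 z (mc D E) o.1)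
      (measurable_Om (F := fun π ω => stT s ω z (mc D E) π)
        fun π => (continuous_stT s π hz0 hm0).measurable)
      (fun o => stT_nonneg _ _ _ _ _) x0 fun ω => hTr n s ω z _ hz0 hz1 hm hm1).trans
      (ENNReal.ofReal_le_ofReal ?_)
    have : CT / (x * (ε / 4)) ≤ K := le_of_max_le_right hK
    rw [ez, mul_div_cancel₀ _ hn'.ne', div_div, div_le_iff₀ (by positivity)]
    rw [div_le_iff₀ (by positivity)] at this
    linarith
  refine le_trans (measure_mono (t := ({o : Om n D | ε / 4 < frac fun h : HE n D =>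
      ¬ (InK T (mE s o.2 (zj E j) o.1 h) ∧ InK T (mE s o.2 (zj E j) o.1 (o.1.1 h)))} ∪
      {o | x < avg fun h : HE n D => ‖Zh s o.2 z (mc D E) o.1 h -
        zeta (mc D E) (mE s o.2 (zj E j) o.1 h)‖ ^ 2}) ∪ {o | x < stT s o.2 z (mc D E) o.1}) ?_) ?_
  · rintro ⟨π, ω⟩ ho
    by_contra hcon
    simp only [Set.mem_union, Set.mem_ofPred_eq, not_or, not_lt] at hcon ho
    obtain ⟨⟨b1, b2⟩, b3⟩ := hcon
    obtain ⟨u, hu⟩ : ∃ u : HE n D → ℝ, u = fun h => ‖Zh s ω z (mc D E) π h -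
      zeta (mc D E) (mE s ω (zj E j) π h)‖ ^ 2 := ⟨_, rfl⟩
    rw [← hu] at b2
    have u0 : ∀ h, 0 ≤ u h := fun h => by rw [hu]; positivity
    have c2 : (frac fun h => a ^ 2 < u h) ≤ ε / 4 :=
      (frac_markov (by positivity) u0).trans (le_trans (by gcongr) x1)
    have c2' : (frac fun h => a ^ 2 < u (π.1 h)) ≤ ε / 4 :=
      (frac_equiv π.1 fun h => a ^ 2 < u h).trans_le c2
    have c3 : (frac fun h => a ^ 2 < ‖Th s ω z (mc D E) π h‖ ^ 2) ≤ ε / 4 :=
      (frac_markov (by positivity) fun h => by positivity).trans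
        (le_trans (div_le_div_of_nonneg_right b3 (by positivity)) x1)
    have hN : ∀ h, u h ≤ a ^ 2 →
        ‖Nh s ω z (mc D E) π h - nOf (mc D E) (mE s ω (zj E j) π h)‖ ≤ e := by
      intro h hh
      rw [← nOf_Mh s ω π h hz0 hm0]
      refine (norm_nOf_sub_le hc hm hm2 (Mh_im_pos s ω π h hz0 hm0).le
        (mE_im_pos s ω π h hw).le).trans (le_trans ?_ a2)
      rw [hu] at hh
      have := le_of_sq_le_sq hh a0.le
      gcongr
      exact this
    refine absurd ho (not_lt.2 (le_trans (frac_mono (Q := fun h =>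
      (¬ (InK T (mE s ω (zj E j) π h) ∧ InK T (mE s ω (zj E j) π (π.1 h))) ∨ a ^ 2 < u h) ∨
        (a ^ 2 < u (π.1 h) ∨ a ^ 2 < ‖Th s ω z (mc D E) π h‖ ^ 2)) ?_) ?_))
    · rintro h ⟨b, c, hbc⟩
      by_contra hno
      simp only [not_or, not_not, not_lt] at hno
      obtain ⟨⟨⟨k1, k2⟩, k3⟩, k4, k5⟩ := hno
      have n2 := hN _ k4
      rw [Nh_pi] at n2
      have := hE n z.im (Bz s ω z π) (Bz_dis s ω π z) hz0 _ hm hm1 h.1 (π.1 h).1 _ _ k1 k2 e e1
        (hN _ k3) n2 ((le_of_sq_le_sq k5 a0.le).trans a1) b c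
      rw [res_eq_Bz, ends_eq_two] at hbc
      exact absurd hbc (not_lt.2 (this.trans e2))
    · refine (frac_or_le _ _).trans ((add_le_add (frac_or_le _ _) (frac_or_le _ _)).trans ?_)
      linarith
  · refine (measure_union_le _ _).trans ((add_le_add ((measure_union_le _ _).trans
      (add_le_add h1 (h2.trans (ENNReal.ofReal_le_ofReal x2)))) h3).trans ?_)
    rw [← ENNReal.ofReal_add (by positivity) (by positivity),
      ← ENNReal.ofReal_add (by positivity) (by positivity)]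
    exact ENNReal.ofReal_le_ofReal (by linarith)

end Crest.Agent.R166.PA
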