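import Crest.Agent.R166.A.Err2
import Crest.Agent.R166.A.Exch
import Crest.Agent.R166.A.Emp
import Crest.Agent.R166.A.Stab

/-! # Part A: the second-moment equation -/

set_option autoImplicit false
set_option linter.unusedVariables false
set_option linter.unusedSectionVars false

open MeasureTheory ProbabilityTheory Filter Topology Matrix
open scoped ENNReal BoundedContinuousFunction

namespace Crest.Agent.R166.PA

theorem MomB_sq (a b : ℂ) : ‖a‖ ^ 2 ≤ 7 / 6 * ‖b‖ ^ 2 + 7 * ‖a - b‖ ^ 2 := by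
  have h1 : ‖a‖ ≤ ‖b‖ + ‖a - b‖ := norm_le_insert' a b
  have h2 := pow_le_pow_left₀ (norm_nonneg _) h1 2
  nlinarith [sq_nonneg (‖b‖ - 6 * ‖a - b‖)]

theorem MomB_point {D : ℕ} (hD : 2 ≤ D) {c₀ : ℝ} (hc : 0 < c₀) : ∃ C : ℝ, 0 < C ∧
    ∀ n : ℕ, 0 < n → ∀ (s : ℝ) (ω : Fin n → J) (z m : ℂ), Ref D c₀ z m → 0 < z.im →
      ∀ π : Pairing n D,
        (avg2 π fun o α => avg fun j => ‖Zh s ω z m (sw π o α) (o, j)‖ ^ 2) ≤
          7 / 8 * stB s ω z m π + C * (‖stA s ω z m π‖ ^ 2 + stB s ω z m π ^ 2 + s ^ 2) +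
            7 * avg2 π fun o α => avg fun j => eStep s ω z m π o α j ^ 2 := by
  obtain ⟨C, hC, h⟩ := ab_emp hD hc
  refine ⟨7 / 6 * C, by positivity, fun n hn s ω z m hR hz π => ?_⟩
  have : Nonempty (Fin n) := ⟨⟨0, hn⟩⟩
  have hm : 0 < m.im := hc.trans_le hR.mim
  have hB := stB_nonneg s ω π z m
  have h1 : (avg2 π fun o α => avg fun j => ‖zeta m (recF z (-((s * (ω o : ℝ) : ℝ) : ℂ))
      fun c => Mh s ω z m π (kids π α j c))‖ ^ 2) ≤
      3 / 4 * stB s ω z m π + C * (‖stA s ω z m π‖ ^ 2 + stB s ω z m π ^ 2 + s ^ 2) := by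
    refine (avg2_le_avg (fun o α _ => le_rfl)
      fun o α => avg_nonneg fun j => sq_nonneg _).trans ?_
    refine avg_le_of_le (by positivity) fun o => ?_
    rw [avg_comm]
    refine avg_le_of_le (by positivity) fun j => ?_
    have e := avg_reindex (A := HE n D) (Fin.succAbove_right_injective (p := j)) π.1
      fun a => ‖zeta m (recF z (-((s * (ω o : ℝ) : ℝ) : ℂ)) fun c => Mh s ω z m π (a c))‖ ^ 2
    refine (le_of_eq e).trans ((h z m hR (HE n D) (Mh s ω z m π)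
      (fun a => Mh_im_pos s ω π a hz hm) _ (by simp)).2.trans ?_)
    have h2 : ‖-((s * (ω o : ℝ) : ℝ) : ℂ)‖ ^ 2 ≤ s ^ 2 := by
      rw [norm_neg, Complex.norm_real, Real.norm_eq_abs, sq_abs, mul_pow]
      exact mul_le_of_le_one_right (sq_nonneg _)
        ((sq_le_one_iff_abs_le_one _).2 (abs_le.2 (ω o).2))
    exact add_le_add le_rfl (mul_le_mul_of_nonneg_left (add_le_add le_rfl h2) hC.le)
  have h2 : (avg2 π fun o α => avg fun j => ‖Zh s ω z m (sw π o α) (o, j)‖ ^ 2) ≤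
      avg2 π fun o α => 7 / 6 * (avg fun j => ‖zeta m (recF z (-((s * (ω o : ℝ) : ℝ) : ℂ))
        fun c => Mh s ω z m π (kids π α j c))‖ ^ 2) +
        7 * avg fun j => eStep s ω z m π o α j ^ 2 := by
    refine avg2_mono fun o α _ => ?_
    rw [← avg_const_mul, ← avg_const_mul, ← avg_add]
    exact avg_mono fun j => MomB_sq _ _
  rw [avg2_add, avg2_mul_left, avg2_mul_left] at h2
  linarith

/-- `exch_real` with `f π o = avg_j ‖Zh π (o,j)‖²` (`avg (f π) = stB`, `avg_prod`), `g = ψ(stB)`, `τ = 0`, `Δ = ΛC/K`.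
On `OK`: `‖Zh π' (o,j)‖² ≤ (7/6) ‖ζ(recF ..kids j)‖² + 7 eStep²`; `avg2_le_avg`, `avg_reindex`, `ab_emp` give
`(7/8) B + C(‖A‖² + B² + s²)`; `err2_bound`.  Move `(7/8) E[Bψ]` to the left. -/
theorem momB {D : ℕ} (hD : 2 ≤ D) {c₀ : ℝ} (hc : 0 < c₀) : ∃ C : ℝ, 0 < C ∧
    ∀ n : ℕ, 0 < n → ∀ (s : ℝ) (ω : Fin n → J) (z m : ℂ), |s| ≤ 1 → Ref D c₀ z m → 0 < z.im → z.im ≤ 1 →
      ∀ (ψ : ℝ → ℝ) (Λ : ℝ), 0 ≤ Λ → (∀ x, 0 ≤ ψ x ∧ ψ x ≤ 1) → (∀ x y, |ψ x - ψ y| ≤ Λ * |x - y|) →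
        (avg fun π : Pairing n D => stB s ω z m π * ψ (stB s ω z m π)) ≤
          C * (avg fun π : Pairing n D =>
            (‖stA s ω z m π‖ ^ 2 + stB s ω z m π ^ 2 + s ^ 2) * ψ (stB s ω z m π)) +
            C * (1 + Λ) / (n * z.im) := by
  obtain ⟨Ca, hCa, ha⟩ := MomB_point hD hc
  obtain ⟨Cb, hCb, hb⟩ := err2_bound hD hc
  obtain ⟨Ce, hCe, he⟩ := exch_real D
  obtain ⟨Cs, hCs, hs⟩ := stab_stats D hc
  obtain ⟨Cf, hCf⟩ : ∃ Cf : ℝ, Cf = (2 / c₀ + 1) ^ 2 := ⟨_, rfl⟩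
  have hCf0 : 0 ≤ Cf := hCf ▸ sq_nonneg _
  refine ⟨8 * (Ca + 7 * Cb + Cf * Ce + Cf * Cs), by positivity,
    fun n hn s ω z m hs1 hR hz hz1 ψ Λ hΛ hψ hL => ?_⟩
  have hm1 := ref_norm_le hR hD
  have hn0 : (0 : ℝ) < n := by exact_mod_cast hn
  have hK : 0 < n * z.im := by positivity
  have hf : ∀ (π : Pairing n D) (o : Fin n),
      |avg fun j => ‖Zh s ω z m π (o, j)‖ ^ 2| ≤ Cf := fun π o => by
    refine abs_avg_le_of_le hCf0 fun j => ?_
    rw [abs_of_nonneg (sq_nonneg _), hCf]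
    exact pow_le_pow_left₀ (norm_nonneg _) (norm_Zh_le s ω π (o, j) hz hc hR.mim hm1) 2
  have h1 := he n (fun π o => avg fun j => ‖Zh s ω z m π (o, j)‖ ^ 2)
    (fun π => ψ (stB s ω z m π)) Cf 1 (Λ * (Cs / (n * z.im))) (fun _ => 0) hCf0 zero_le_one
    (by positivity) hf (fun π => abs_le.2 ⟨by linarith [(hψ (stB s ω z m π)).1], (hψ _).2⟩)
    (fun _ => le_rfl) fun π o α hO => by
      rw [add_zero, add_zero]
      exact (hL _ _).trans (mul_le_mul_of_nonneg_left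
        (hs n s ω z m hz hz1 hR.mim hm1 π o α hO).2.1 hΛ)
  have e1 : ∀ π : Pairing n D, (avg fun o => avg fun j => ‖Zh s ω z m π (o, j)‖ ^ 2)
      = stB s ω z m π := fun π => (avg_prod fun h : HE n D => ‖Zh s ω z m π h‖ ^ 2).symm
  simp only [e1, avg_zero, mul_zero, add_zero, mul_one] at h1
  have h2 := hb n s ω z m hs1 hR hz (fun π => ψ (stB s ω z m π)) fun π => hψ _
  have h3 : (avg fun π : Pairing n D => (avg2 π fun o α => avg fun j =>
      ‖Zh s ω z m (sw π o α) (o, j)‖ ^ 2) * ψ (stB s ω z m π)) ≤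
      7 / 8 * (avg fun π : Pairing n D => stB s ω z m π * ψ (stB s ω z m π)) +
        Ca * (avg fun π : Pairing n D =>
          (‖stA s ω z m π‖ ^ 2 + stB s ω z m π ^ 2 + s ^ 2) * ψ (stB s ω z m π)) +
        7 * avg fun π : Pairing n D =>
          (avg2 π fun o α => avg fun j => eStep s ω z m π o α j ^ 2) * ψ (stB s ω z m π) := by
    rw [← avg_const_mul, ← avg_const_mul, ← avg_const_mul, ← avg_add, ← avg_add]
    refine avg_mono fun π => ?_
    refine (mul_le_mul_of_nonneg_right (ha n hn s ω z m hR hz π) (hψ _).1).trans (le_of_eq ?_)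
    ring
  have h4 : (avg fun π : Pairing n D => stB s ω z m π ^ 2 * ψ (stB s ω z m π)) ≤
      avg fun π : Pairing n D =>
        (‖stA s ω z m π‖ ^ 2 + stB s ω z m π ^ 2 + s ^ 2) * ψ (stB s ω z m π) :=
    avg_mono fun π => mul_le_mul_of_nonneg_right
      (by linarith [sq_nonneg ‖stA s ω z m π‖, sq_nonneg s]) (hψ _).1
  have h5 : 0 ≤ avg fun π : Pairing n D =>
      (‖stA s ω z m π‖ ^ 2 + stB s ω z m π ^ 2 + s ^ 2) * ψ (stB s ω z m π) :=
    avg_nonneg fun π => mul_nonneg (by positivity) (hψ _).1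
  have h6 : Ce / n ≤ Ce / (n * z.im) :=
    div_le_div_of_nonneg_left hCe.le hK (mul_le_of_le_one_right hn0.le hz1)
  have h7 := (abs_le.1 h1).1
  have h8 := mul_le_mul_of_nonneg_left h4 hCb.le
  have h9 := mul_le_mul_of_nonneg_left h6 hCf0
  generalize (avg fun π : Pairing n D =>
    (‖stA s ω z m π‖ ^ 2 + stB s ω z m π ^ 2 + s ^ 2) * ψ (stB s ω z m π)) = X at *
  have hk : 0 < (n * z.im)⁻¹ := inv_pos.2 hK
  simp only [div_eq_mul_inv _ ((n : ℝ) * z.im)] at *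
  generalize (n * z.im)⁻¹ = k at *
  have p1 : 0 ≤ Cf * Ce * X := by positivity
  have p2 : 0 ≤ Cf * Cs * X := by positivity
  have p3 : 0 ≤ Ca * k := by positivity
  have p4 : 0 ≤ Cf * Cs * k := by positivity
  have p5 : 0 ≤ Ca * Λ * k := by positivity
  have p6 : 0 ≤ Cb * Λ * k := by positivity
  have p7 : 0 ≤ Cf * Ce * Λ * k := by positivity
  linarith

end Crest.Agent.R166.PA
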