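import Crest.Agent.R166.A.MomA
import Crest.Agent.R166.A.MomB

/-! # Part A: the closed moment inequality and its two uses -/

set_option autoImplicit false
set_option linter.unusedVariables false
set_option linter.unusedSectionVars false

open MeasureTheory ProbabilityTheory Filter Topology Matrix
open scoped ENNReal BoundedContinuousFunction

namespace Crest.Agent.R166.PA

theorem Mom_trap (a b : ℝ) {Λ : ℝ} (hΛ : 0 < Λ) : ∃ ψ : ℝ → ℝ, (∀ x, 0 ≤ ψ x ∧ ψ x ≤ 1) ∧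
    (∀ x y, |ψ x - ψ y| ≤ Λ * |x - y|) ∧ (∀ x, x ≤ a ∨ b ≤ x → ψ x = 0) ∧
    ∀ x, 1 ≤ Λ * (x - a) → 1 ≤ Λ * (b - x) → ψ x = 1 := by
  refine ⟨fun x => max 0 (min 1 (min (Λ * (x - a)) (Λ * (b - x)))),
    fun x => ⟨le_max_left _ _, max_le zero_le_one (min_le_left _ _)⟩, fun x y => ?_,
    fun x hx => max_eq_left ((min_le_right _ _).trans ?_), fun x h1 h2 => ?_⟩
  · have e1 : |Λ * (x - a) - Λ * (y - a)| = Λ * |x - y| := by
      rw [← mul_sub, abs_mul, abs_of_pos hΛ, sub_sub_sub_cancel_right]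
    have e2 : |Λ * (b - x) - Λ * (b - y)| = Λ * |x - y| := by
      rw [← mul_sub, abs_mul, abs_of_pos hΛ, sub_sub_sub_cancel_left, abs_sub_comm]
    have h0 : 0 ≤ Λ * |x - y| := by positivity
    refine (abs_max_sub_max_le_max _ _ _ _).trans (max_le (by simpa using h0) ?_)
    refine (abs_min_sub_min_le_max _ _ _ _).trans (max_le (by simpa using h0) ?_)
    exact (abs_min_sub_min_le_max _ _ _ _).trans (max_le e1.le e2.le)
  · rcases hx with h | h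
    · exact (min_le_left _ _).trans (mul_nonpos_of_nonneg_of_nonpos hΛ.le (by linarith))
    · exact (min_le_right _ _).trans (mul_nonpos_of_nonneg_of_nonpos hΛ.le (by linarith))
  · beta_reduce
    rw [min_eq_left (le_min h1 h2), max_eq_right zero_le_one]

/-- `momA` into `momB`; on the support of `ψ`, `C B² ≤ C δ₁ B ≤ B/2` -/
theorem mom {D : ℕ} (hD : 2 ≤ D) {c₀ : ℝ} (hc : 0 < c₀) : ∃ δ₁ C : ℝ, 0 < δ₁ ∧ 0 < C ∧
    ∀ n : ℕ, 0 < n → ∀ (s : ℝ) (ω : Fin n → J) (z m : ℂ), |s| ≤ 1 → Ref D c₀ z m → 0 < z.im → z.im ≤ 1 →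
      ∀ (ψ : ℝ → ℝ) (Λ : ℝ), 0 ≤ Λ → (∀ x, 0 ≤ ψ x ∧ ψ x ≤ 1) → (∀ x y, |ψ x - ψ y| ≤ Λ * |x - y|) →
        (∀ x, δ₁ < x → ψ x = 0) →
        (avg fun π : Pairing n D => (stB s ω z m π - C * s ^ 2) * ψ (stB s ω z m π)) ≤
          C * (1 + Λ) / (n * z.im) := by
  obtain ⟨a, ha, hA⟩ := momA hD hc
  obtain ⟨b, hb, hB⟩ := momB hD hc
  have hc0 : 0 < b * (a + 1) := by positivity
  refine ⟨1 / (2 * (b * (a + 1))), 2 * (b * (a + 1)), by positivity, by positivity,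
    fun n hn s ω z m hs hR hz hz1 ψ Λ hΛ h1 h2 h3 => ?_⟩
  have kA := hA n hn s ω z m hs hR hz hz1 ψ Λ hΛ h1 h2
  have kB := hB n hn s ω z m hs hR hz hz1 ψ Λ hΛ h1 h2
  have e1 : (avg fun π : Pairing n D =>
      (‖stA s ω z m π‖ ^ 2 + stB s ω z m π ^ 2 + s ^ 2) * ψ (stB s ω z m π))
      = (avg fun π : Pairing n D => ‖stA s ω z m π‖ ^ 2 * ψ (stB s ω z m π))
        + avg fun π : Pairing n D => (stB s ω z m π ^ 2 + s ^ 2) * ψ (stB s ω z m π) := by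
    rw [← avg_add]
    exact avg_congr fun π => by ring
  have e2 : (avg fun π : Pairing n D =>
      (stB s ω z m π - 2 * (b * (a + 1)) * s ^ 2) * ψ (stB s ω z m π))
      ≤ 2 * (avg fun π : Pairing n D => stB s ω z m π * ψ (stB s ω z m π)) - 2 * (b * (a + 1)) *
        avg fun π : Pairing n D => (stB s ω z m π ^ 2 + s ^ 2) * ψ (stB s ω z m π) := by
    rw [← avg_const_mul, ← avg_const_mul, ← avg_sub]
    refine avg_mono fun π => ?_
    have b0 := stB_nonneg (s := s) (ω := ω) (π := π) z m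
    generalize stB s ω z m π = B at b0 ⊢
    rcases le_or_gt B (1 / (2 * (b * (a + 1)))) with h | h
    · rw [le_div_iff₀ (by positivity)] at h
      have := mul_le_mul_of_nonneg_left h (mul_nonneg b0 (h1 B).1)
      linarith
    · rw [h3 B h]; simp
  rw [e1] at kB
  rw [mul_div_assoc] at kA kB ⊢
  have := mul_le_mul_of_nonneg_left kA hb.le
  linarith

/-- trapezoid `ψ`: `0` off `[δ₀/4, 2δ₀]`, `1` on `[δ₀/2, δ₀]`, `Λ = 4/δ₀`; `(B - C s²) ψ ≥ (δ₀/8) ψ` -/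
theorem mom_window {D : ℕ} (hD : 2 ≤ D) {c₀ : ℝ} (hc : 0 < c₀) : ∃ δ₁ C₁ : ℝ, 0 < δ₁ ∧ 0 < C₁ ∧
    ∀ δ₀ : ℝ, 0 < δ₀ → δ₀ ≤ δ₁ → ∃ C₂ : ℝ, 0 < C₂ ∧
      ∀ n : ℕ, 0 < n → ∀ (s : ℝ) (ω : Fin n → J) (z m : ℂ), |s| ≤ 1 → Ref D c₀ z m → 0 < z.im →
        z.im ≤ 1 → C₁ * s ^ 2 ≤ δ₀ →
        (frac fun π : Pairing n D => δ₀ / 2 < stB s ω z m π ∧ stB s ω z m π ≤ δ₀) ≤
          C₂ / (n * z.im) := by
  obtain ⟨δ₁, C, hδ₁, hC, h⟩ := mom hD hc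
  refine ⟨δ₁ / 2, 8 * C, by positivity, by positivity, fun δ₀ h0 h1 =>
    ⟨8 / δ₀ * (C * (1 + 4 / δ₀)), by positivity, fun n hn s ω z m hs hR hz hz1 hs' => ?_⟩⟩
  obtain ⟨ψ, p1, p2, p3, p4⟩ := Mom_trap (δ₀ / 4) (5 * δ₀ / 4) (Λ := 4 / δ₀) (by positivity)
  have k := h n hn s ω z m hs hR hz hz1 ψ _ (by positivity) p1 p2
    fun x hx => p3 x (Or.inr (by linarith))
  rw [mul_div_assoc]
  refine le_trans ?_ (mul_le_mul_of_nonneg_left k (by positivity))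
  rw [← avg_const_mul]
  refine frac_le_avg (fun π => mul_nonneg (by positivity) ?_) fun π hπ => ?_
  · rcases le_or_gt (stB s ω z m π) (δ₀ / 4) with q | q
    · rw [p3 _ (Or.inl q), mul_zero]
    · exact mul_nonneg (by linarith) (p1 _).1
  · rw [p4 _ (by rw [div_mul_eq_mul_div, le_div_iff₀ h0]; linarith [hπ.1])
      (by rw [div_mul_eq_mul_div, le_div_iff₀ h0]; linarith [hπ.2]), mul_one,
      div_mul_eq_mul_div, le_div_iff₀ h0]
    linarith [hπ.1]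

/-- no disorder: `ψ = 1` on `[0, δ₁/2]`, Markov -/
theorem mom_fine {D : ℕ} (hD : 2 ≤ D) {c₀ : ℝ} (hc : 0 < c₀) : ∃ δ₂ C : ℝ, 0 < δ₂ ∧ 0 < C ∧
    ∀ n : ℕ, 0 < n → ∀ (ω : Fin n → J) (z m : ℂ), Ref D c₀ z m → 0 < z.im → z.im ≤ 1 →
      ∀ b : ℝ, 0 < b →
        (frac fun π : Pairing n D => b < stB 0 ω z m π ∧ stB 0 ω z m π ≤ δ₂) ≤ C / (n * z.im * b) := by
  obtain ⟨δ₁, C, hδ₁, hC, h⟩ := mom hD hc
  refine ⟨δ₁ / 2, C * (1 + 2 / δ₁), by positivity, by positivity,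
    fun n hn ω z m hR hz hz1 b hb => ?_⟩
  obtain ⟨ψ, p1, p2, p3, p4⟩ := Mom_trap (-δ₁) δ₁ (Λ := 2 / δ₁) (by positivity)
  have k := h n hn 0 ω z m (by simp) hR hz hz1 ψ _ (by positivity) p1 p2
    fun x hx => p3 x (Or.inr hx.le)
  rw [← div_div]
  refine le_trans ?_ (div_le_div_of_nonneg_right k hb.le)
  rw [← avg_div_const]
  refine frac_le_avg (fun π => div_nonneg (mul_nonneg ?_ (p1 _).1) hb.le) fun π hπ => ?_
  · simpa using stB_nonneg (s := 0) (ω := ω) (π := π) z m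
  · rw [p4 _ (by rw [div_mul_eq_mul_div, le_div_iff₀ hδ₁]; linarith [hπ.1])
      (by rw [div_mul_eq_mul_div, le_div_iff₀ hδ₁]; linarith [hπ.2]), mul_one, le_div_iff₀ hb]
    linarith [hπ.1]

end Crest.Agent.R166.PA
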