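import Crest.Agent.R166.A.Err2
import Crest.Agent.R166.A.Exch
import Crest.Agent.R166.A.Emp
import Crest.Agent.R166.A.Stab

/-! # Part A: the mean equation -/

set_option autoImplicit false
set_option linter.unusedVariables false
set_option linter.unusedSectionVars false

open MeasureTheory ProbabilityTheory Filter Topology Matrix
open scoped ENNReal BoundedContinuousFunction

namespace Crest.Agent.R166.PA

theorem MomA_step {D : ℕ} (hD : 2 ≤ D) {c₀ : ℝ} (hc : 0 < c₀) : ∃ C : ℝ, 0 < C ∧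
    ∀ n : ℕ, 0 < n → ∀ (s : ℝ) (ω : Fin n → J) (z m : ℂ), Ref D c₀ z m → 0 < z.im →
      ∀ (π : Pairing n D) (g : ℂ),
        (avg2 π fun o α => inner ℝ (cavg fun j => Zh s ω z m (sw π o α) (o, j)) g) -
          inner ℝ (D * m ^ 2 * stA s ω z m π) g ≤
        ((avg2 π fun o α => avg fun j => eStep s ω z m π o α j) + C / n +
          C * (stB s ω z m π + |s|)) * ‖g‖ := by
  obtain ⟨Cc, hCc, Hc⟩ := avg2_compl D
  obtain ⟨Ca, hCa, Ha⟩ := ab_emp hD hc
  have hZ : 0 < 2 / c₀ + 1 := by positivity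
  refine ⟨(2 / c₀ + 1) * Cc + Ca, by positivity, fun n hn s ω z m href hz π g => ?_⟩
  have : Nonempty (Fin n) := ⟨⟨0, hn⟩⟩
  have hn' : (0 : ℝ) < n := by exact_mod_cast hn
  have hm : 0 < m.im := hc.trans_le href.mim
  have hm1 := ref_norm_le href hD
  have hM := fun h => Mh_im_pos s ω π h hz hm
  set t : Fin n → ℂ := fun o => -((s * (ω o : ℝ) : ℝ) : ℂ) with ht
  have ht0 : ∀ o, (t o).im = 0 := fun o => by simp [ht]
  have ht1 : ∀ o, ‖t o‖ ≤ |s| := fun o => by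
    rw [ht]
    simp only [norm_neg, Complex.norm_real, Real.norm_eq_abs, abs_mul]
    exact mul_le_of_le_one_right (abs_nonneg _) (abs_le.2 (ω o).2)
  set ζ : Fin n → (Fin D → HE n D) → ℂ := fun o a => zeta m (recF z (t o) fun c => Mh s ω z m π (a c))
    with hζ
  have hζb : ∀ o a, ‖ζ o a‖ ≤ 2 / c₀ + 1 := fun o a =>
    norm_zeta_le hc href.mim hm1 (recF_im_pos (by omega) (by simp [ht0, hz.le]) fun c => hM _).le
  set r : Fin n → (Fin (D + 1) → HE n D) → ℂ := fun o α => cavg fun j => ζ o (kids π α j) with hr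
  have h1 : (avg2 π fun o α => inner ℝ (cavg fun j => Zh s ω z m (sw π o α) (o, j)) g) -
      (avg2 π fun o α => inner ℝ (r o α) g) ≤
      (avg2 π fun o α => avg fun j => eStep s ω z m π o α j) * ‖g‖ := by
    rw [← avg2_sub, ← avg2_mul_right]
    refine avg2_mono fun o α _ => ?_
    rw [← inner_sub_left, hr, ← cavg_sub]
    refine (real_inner_le_norm _ _).trans ?_
    gcongr
    exact norm_cavg_le _
  have h2 := Hc n π (fun o α => inner ℝ (r o α) g) ((2 / c₀ + 1) * ‖g‖) fun o α => by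
    refine (abs_real_inner_le_norm _ _).trans ?_
    gcongr
    exact (norm_cavg_le _).trans (avg_le_of_le hZ.le fun j => hζb _ _)
  have h3 : ∀ o, (avg fun α => inner ℝ (r o α) g) = inner ℝ (cavg (ζ o)) g := by
    intro o
    simp only [hr, inner_cavg]
    rw [avg_comm]
    refine (avg_congr fun j => ?_).trans (avg_const _)
    exact avg_reindex Fin.succAbove_right_injective π.1 fun a => inner ℝ (ζ o a) g
  have h4 : (avg fun o => avg fun α => inner ℝ (r o α) g) - inner ℝ (D * m ^ 2 * stA s ω z m π) g ≤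
      Ca * (stB s ω z m π + |s|) * ‖g‖ := by
    have hB := stB_nonneg s ω π z m
    rw [← avg_const (A := Fin n) (inner ℝ (D * m ^ 2 * stA s ω z m π) g), ← avg_sub]
    refine avg_le_of_le (by positivity) fun o => ?_
    rw [h3, ← inner_sub_left]
    refine (real_inner_le_norm _ _).trans ?_
    gcongr
    refine (Ha z m href _ (Mh s ω z m π) hM (t o) (ht0 o).ge).1.trans ?_
    have := ht1 o
    change Ca * (stB s ω z m π + ‖t o‖) ≤ _
    gcongr
  have h5 := (abs_le.1 h2).2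
  have hB := stB_nonneg s ω π z m
  have h6 : 0 ≤ Ca / n * ‖g‖ := by positivity
  have h7 : 0 ≤ (2 / c₀ + 1) * Cc * (stB s ω z m π + |s|) * ‖g‖ := by positivity
  have e : (((2 / c₀ + 1) * Cc + Ca) / n + ((2 / c₀ + 1) * Cc + Ca) * (stB s ω z m π + |s|)) * ‖g‖ =
      (2 / c₀ + 1) * ‖g‖ * Cc / n + Ca / n * ‖g‖ + (2 / c₀ + 1) * Cc * (stB s ω z m π + |s|) * ‖g‖ +
        Ca * (stB s ω z m π + |s|) * ‖g‖ := by ring
  rw [add_assoc, add_mul, e]
  linarith

/-- `exch` in `V = ℂ` with `f π o = cavg_j Zh π (o,j)`, `g π = ψ(B) • Y`, `Y = (1 - D m²) stA` (`τ = 0`,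
`Δ = C (1+Λ)/K` by `stab_stats`).  `avg_o ⟪f π o, g⟫ = ⟪stA, g⟫` (`cavg_prod`, `inner_cavg`).  On `OK`,
`‖f π' o - cavg_j ζ(recF ..kids j)‖ ≤ avg_j eStep`; dropping `OK` costs `C/n` (`avg2_compl`); by `avg_reindex` and `ab_emp`
(`t = -sω_o`) `avg_α ⟪ζ(recF ..), g⟫ = ⟪D m² stA, g⟫ ± C (B + |s|) ‖g‖`.  So
`E ‖Y‖² ψ ≤ C(1+Λ)/K + E R ‖Y‖ ψ`, `R = C (B + |s|) + avg2 avg_j eStep + C/n`; `R‖Y‖ ≤ (R² + ‖Y‖²)/2`, Jensen
(`avg2_sq_le`, `avg_sq_le`), `err2_bound`, and `c₀ ‖stA‖ ≤ ‖Y‖` (`Ref.gap`). -/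
theorem momA {D : ℕ} (hD : 2 ≤ D) {c₀ : ℝ} (hc : 0 < c₀) : ∃ C : ℝ, 0 < C ∧
    ∀ n : ℕ, 0 < n → ∀ (s : ℝ) (ω : Fin n → J) (z m : ℂ), |s| ≤ 1 → Ref D c₀ z m → 0 < z.im → z.im ≤ 1 →
      ∀ (ψ : ℝ → ℝ) (Λ : ℝ), 0 ≤ Λ → (∀ x, 0 ≤ ψ x ∧ ψ x ≤ 1) → (∀ x y, |ψ x - ψ y| ≤ Λ * |x - y|) →
        (avg fun π : Pairing n D => ‖stA s ω z m π‖ ^ 2 * ψ (stB s ω z m π)) ≤
          C * (avg fun π : Pairing n D => (stB s ω z m π ^ 2 + s ^ 2) * ψ (stB s ω z m π)) +
            C * (1 + Λ) / (n * z.im) := by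
  obtain ⟨Ce, hCe, He⟩ := exch D
  obtain ⟨Cs, hCs, Hs⟩ := stab_stats D hc
  obtain ⟨C2, hC2, H2⟩ := err2_bound hD hc
  obtain ⟨C1, hC1, H1⟩ := MomA_step hD hc
  set Z := 2 / c₀ + 1 with hZdef
  have hZ : 0 < Z := by positivity
  set C3 := 2 * (Z * (2 * Z * Ce + 2 * Z * Cs + 2 * Cs)) + 3 * C2 + 6 * C1 ^ 2 with hC3
  have hC3' : 0 < C3 := by positivity
  refine ⟨C3 / c₀ ^ 2, by positivity, fun n hn s ω z m hs href hz hz1 ψ Λ hΛ hψ hψL => ?_⟩
  have : Nonempty (Fin n) := ⟨⟨0, hn⟩⟩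
  have hn' : (1 : ℝ) ≤ n := by exact_mod_cast hn
  have hm1 := ref_norm_le href hD
  set K := n * z.im with hK
  have hK0 : 0 < K := by positivity
  have hKn : 1 / (n : ℝ) ≤ 1 / K := by
    apply one_div_le_one_div_of_le hK0
    rw [hK]; nlinarith
  set κ : ℂ := 1 - D * m ^ 2 with hκ
  have hκ2 : ‖κ‖ ≤ 2 := by
    refine (norm_sub_le _ _).trans ?_
    rw [norm_one, norm_mul, norm_pow, Complex.norm_natCast]
    linarith [href.nsq]
  set A : Pairing n D → ℂ := stA s ω z m with hA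
  set B : Pairing n D → ℝ := stB s ω z m with hB
  have hZh : ∀ (π : Pairing n D) h, ‖Zh s ω z m π h‖ ≤ Z := fun π h => norm_Zh_le s ω π h hz hc href.mim hm1
  have hAb : ∀ π, ‖A π‖ ≤ Z := fun π => (norm_cavg_le _).trans (avg_le_of_le hZ.le (hZh π))
  have hY : ∀ π, ‖κ * A π‖ ≤ 2 * Z := fun π => by
    rw [norm_mul]; gcongr; exact hAb π
  set g : Pairing n D → ℂ := fun π => ψ (B π) • (κ * A π) with hg
  have hgn : ∀ π, ‖g π‖ = ψ (B π) * ‖κ * A π‖ := fun π => by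
    rw [hg]; simp only [norm_smul, Real.norm_eq_abs, abs_of_nonneg (hψ _).1]
  have hex := He n ℂ (fun π o => cavg fun j => Zh s ω z m π (o, j)) g Z (2 * Z)
    ((Λ * (Cs / K)) * (2 * Z) + 2 * (Cs / K)) (fun _ => 0) hZ.le (by positivity) (by positivity)
    (fun π o => (norm_cavg_le _).trans (avg_le_of_le hZ.le fun j => hZh π _))
    (fun π => by
      rw [hgn]
      exact (mul_le_of_le_one_left (norm_nonneg _) (hψ _).2).trans (hY π))
    (fun _ => le_rfl) (fun π o α hok => by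
      obtain ⟨-, b1, b2, -⟩ := Hs n s ω z m hz hz1 href.mim hm1 π o α hok
      have e : g (sw π o α) - g π = (ψ (B (sw π o α)) - ψ (B π)) • (κ * A (sw π o α)) +
          ψ (B π) • (κ * (A (sw π o α) - A π)) := by
        rw [hg]; simp only [mul_sub, sub_smul, smul_sub]; abel
      rw [e, add_zero, add_zero]
      refine (norm_add_le _ _).trans (add_le_add ?_ ?_)
      · rw [norm_smul, Real.norm_eq_abs]
        have := (hψL _ _).trans (mul_le_mul_of_nonneg_left b1 hΛ)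
        gcongr
        exact hY _
      · rw [norm_smul, Real.norm_eq_abs, abs_of_nonneg (hψ _).1, norm_mul]
        refine (mul_le_of_le_one_left (by positivity) (hψ _).2).trans ?_
        gcongr)
  have e1 : ∀ π : Pairing n D, (avg fun o => inner ℝ (cavg fun j => Zh s ω z m π (o, j)) (g π)) =
      inner ℝ (A π) (g π) := fun π => by
    rw [← inner_cavg, hA, stA, cavg_prod]
  simp only [e1, avg_zero, mul_zero, add_zero] at hex
  set ex := Z * (Ce * (2 * Z) / n + (Λ * (Cs / K) * (2 * Z) + 2 * (Cs / K))) with hexdef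
  have hexb : ex ≤ Z * (2 * Z * Ce + 2 * Z * Cs + 2 * Cs) * ((1 + Λ) / K) := by
    have a1 : Ce * (2 * Z) / n ≤ 2 * Z * Ce * ((1 + Λ) / K) := by
      calc Ce * (2 * Z) / n = 2 * Z * Ce * (1 / n) := by ring
        _ ≤ 2 * Z * Ce * (1 / K) := by gcongr
        _ ≤ _ := by gcongr; linarith
    have a2 : Λ * (Cs / K) * (2 * Z) ≤ 2 * Z * Cs * ((1 + Λ) / K) := by
      calc Λ * (Cs / K) * (2 * Z) = 2 * Z * Cs * (Λ / K) := by ring
        _ ≤ _ := by gcongr; linarith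
    have a3 : 2 * (Cs / K) ≤ 2 * Cs * ((1 + Λ) / K) := by
      calc 2 * (Cs / K) = 2 * Cs * (1 / K) := by ring
        _ ≤ _ := by gcongr; linarith
    rw [hexdef, mul_assoc Z]
    gcongr
    linarith
  set E2 : Pairing n D → ℝ := fun π => avg2 π fun o α => avg fun j => eStep s ω z m π o α j ^ 2 with hE2
  have key : ∀ π, ‖κ * A π‖ ^ 2 * ψ (B π) ≤
      2 * (inner ℝ (A π) (g π) -
        avg2 π fun o α => inner ℝ (cavg fun j => Zh s ω z m (sw π o α) (o, j)) (g π)) +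
      (3 * (E2 π * ψ (B π)) + 3 * C1 ^ 2 * (1 / K) + 6 * C1 ^ 2 * ((B π ^ 2 + s ^ 2) * ψ (B π))) := by
    intro π
    have h1 := H1 n hn s ω z m href hz π (g π)
    have h2 : inner ℝ (A π) (g π) - inner ℝ (D * m ^ 2 * A π) (g π) = ψ (B π) * ‖κ * A π‖ ^ 2 := by
      rw [← inner_sub_left, show A π - D * m ^ 2 * A π = κ * A π by rw [hκ]; ring, hg]
      simp only [real_inner_smul_right, real_inner_self_eq_norm_sq]
    set e := avg2 π fun o α => avg fun j => eStep s ω z m π o α j with he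
    have h3 : e ^ 2 ≤ E2 π := (avg2_sq_le _ _).trans (avg2_mono fun o α _ => avg_sq_le _)
    have h4 : (C1 / n) ^ 2 ≤ C1 ^ 2 * (1 / K) := by
      calc (C1 / n) ^ 2 = C1 ^ 2 * (1 / n) * (1 / n) := by ring
        _ ≤ C1 ^ 2 * (1 / K) * 1 := by
            gcongr
            rw [div_le_one (by linarith)]; exact hn'
        _ = _ := mul_one _
    have h5 : (C1 * (B π + |s|)) ^ 2 ≤ 2 * C1 ^ 2 * (B π ^ 2 + s ^ 2) := by
      rw [mul_pow, ← sq_abs s]
      nlinarith [sq_nonneg (B π - |s|), sq_nonneg C1]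
    set R := e + C1 / n + C1 * (B π + |s|) with hR
    have h6 : R ^ 2 ≤ 3 * E2 π + 3 * C1 ^ 2 * (1 / K) + 6 * C1 ^ 2 * (B π ^ 2 + s ^ 2) := by
      have : R ^ 2 ≤ 3 * (e ^ 2 + (C1 / n) ^ 2 + (C1 * (B π + |s|)) ^ 2) := by
        rw [hR]
        nlinarith [sq_nonneg (e - C1 / n), sq_nonneg (e - C1 * (B π + |s|)),
          sq_nonneg (C1 / n - C1 * (B π + |s|))]
      linarith
    rw [hgn] at h1
    obtain ⟨p0, p1⟩ := hψ (B π)
    have h7 : 2 * (R * (ψ (B π) * ‖κ * A π‖)) ≤ ψ (B π) * R ^ 2 + ψ (B π) * ‖κ * A π‖ ^ 2 := by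
      nlinarith [mul_nonneg p0 (sq_nonneg (R - ‖κ * A π‖))]
    have h8 := mul_le_mul_of_nonneg_left h6 p0
    have h9 : ψ (B π) * (3 * C1 ^ 2 * (1 / K)) ≤ 3 * C1 ^ 2 * (1 / K) :=
      mul_le_of_le_one_left (by positivity) p1
    nlinarith
  have hE := H2 n s ω z m hs href hz (fun π => ψ (B π)) fun π => hψ _
  set X := avg fun π => (B π ^ 2 + s ^ 2) * ψ (B π) with hX
  have hX0 : 0 ≤ X := avg_nonneg fun π => mul_nonneg (by positivity) (hψ _).1
  have hBX : (avg fun π => B π ^ 2 * ψ (B π)) ≤ X :=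
    avg_mono fun π => mul_le_mul_of_nonneg_right (by nlinarith [sq_nonneg s]) (hψ _).1
  have hsum := avg_mono key
  rw [avg_add, avg_add, avg_add, avg_const_mul, avg_const_mul, avg_const_mul, avg_const_mul, avg_sub]
    at hsum
  have hc1 : (avg fun _ : Pairing n D => 1 / K) ≤ 1 / K := avg_le_of_le (by positivity) fun _ => le_rfl
  have hlow : c₀ ^ 2 * (avg fun π => ‖A π‖ ^ 2 * ψ (B π)) ≤ avg fun π => ‖κ * A π‖ ^ 2 * ψ (B π) := by
    rw [← avg_const_mul]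
    refine avg_mono fun π => ?_
    rw [← mul_assoc, norm_mul, mul_pow]
    have := href.gap
    have := (hψ (B π)).1
    gcongr
  have hKΛ : 1 / K ≤ (1 + Λ) / K := by gcongr; linarith
  have hK1 : 0 < 1 / K := by positivity
  have hfin : c₀ ^ 2 * (avg fun π => ‖A π‖ ^ 2 * ψ (B π)) ≤ C3 * X + C3 * ((1 + Λ) / K) := by
    have a1 := (abs_le.1 hex).1
    have a2 : C2 / K ≤ C2 * ((1 + Λ) / K) := by
      calc C2 / K = C2 * (1 / K) := by ring
        _ ≤ _ := by gcongr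
    have a3 : C1 ^ 2 * (avg fun _ : Pairing n D => 1 / K) ≤ C1 ^ 2 * ((1 + Λ) / K) := by
      gcongr; exact hc1.trans hKΛ
    have a4 := mul_le_mul_of_nonneg_left hBX hC2.le
    have a5 : 0 ≤ Z * (2 * Z * Ce + 2 * Z * Cs + 2 * Cs) * X := by positivity
    have a6 : 0 ≤ C1 ^ 2 * ((1 + Λ) / K) := by positivity
    rw [hC3]
    change (avg fun π => E2 π * ψ (B π)) ≤ _ at hE
    nlinarith
  calc _ = (c₀ ^ 2 * avg fun π => ‖A π‖ ^ 2 * ψ (B π)) / c₀ ^ 2 := by field_simp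
    _ ≤ (C3 * X + C3 * ((1 + Λ) / K)) / c₀ ^ 2 := by gcongr
    _ = _ := by ring

end Crest.Agent.R166.PA
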