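import Crest.Agent.R166.A.Loc
import Crest.Agent.R166.A.Avg
import Crest.Agent.R166.T0d

/-! # Part A: moduli of continuity -/

set_option autoImplicit false
set_option linter.unusedVariables false
set_option linter.unusedSectionVars false

open MeasureTheory ProbabilityTheory Filter Topology Matrix
open scoped ENNReal BoundedContinuousFunction

namespace Crest.Agent.R166.PA

theorem phi_mod (φ : C(ℂ × ℂ, ℝ)) (R : ℝ) : ∃ Cφ : ℝ, 0 < Cφ ∧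
    (∀ p q : ℂ, ‖p‖ ≤ R → ‖q‖ ≤ R → |φ (p, q)| ≤ Cφ) ∧ ∀ ε : ℝ, 0 < ε → ∃ δ : ℝ, 0 < δ ∧
      ∀ p q p' q' : ℂ, ‖p‖ ≤ R → ‖q‖ ≤ R → ‖p'‖ ≤ R → ‖q'‖ ≤ R → ‖p - p'‖ ≤ δ → ‖q - q'‖ ≤ δ →
        |φ (p, q) - φ (p', q')| ≤ ε := by
  set S : Set (ℂ × ℂ) := Metric.closedBall 0 R ×ˢ Metric.closedBall 0 R with hS
  have hK : IsCompact S := (isCompact_closedBall _ _).prod (isCompact_closedBall _ _)
  have hmem : ∀ p q : ℂ, ‖p‖ ≤ R → ‖q‖ ≤ R → (p, q) ∈ S := fun p q hp hq =>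
    ⟨mem_closedBall_zero_iff.2 hp, mem_closedBall_zero_iff.2 hq⟩
  obtain ⟨B, hB⟩ := hK.exists_bound_of_continuousOn φ.continuous.continuousOn
  refine ⟨|B| + 1, by positivity, fun p q hp hq => ?_, fun ε hε => ?_⟩
  · have := hB _ (hmem p q hp hq)
    rw [Real.norm_eq_abs] at this
    linarith [le_abs_self B]
  · obtain ⟨δ, hδ, h⟩ := Metric.uniformContinuousOn_iff_le.1
      (hK.uniformContinuousOn_of_continuous φ.continuous.continuousOn) ε hε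
    refine ⟨δ, hδ, fun p q p' q' h1 h2 h3 h4 h5 h6 => ?_⟩
    have := h _ (hmem p q h1 h2) _ (hmem p' q' h3 h4) (by
      rw [Prod.dist_eq, dist_eq_norm, dist_eq_norm]; exact max_le h5 h6)
    rwa [Real.dist_eq] at this

/-- third item of `zeta_pointwise` with `U = t + ∑ M`, then the second item -/
theorem rec_lip {D : ℕ} (hD : 2 ≤ D) {c₀ : ℝ} (hc : 0 < c₀) : ∃ C : ℝ, 0 < C ∧
    ∀ z m : ℂ, Ref D c₀ z m → ∀ t : ℂ, 0 ≤ t.im → ∀ M M' : Fin D → ℂ, (∀ c, 0 < (M c).im) →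
      (∀ c, 0 < (M' c).im) →
        ‖zeta m (recF z t M) - zeta m (recF z t M')‖ ≤ C * ∑ c, ‖M c - M' c‖ ∧
        ∀ T : ℝ, (∀ c, ‖M c‖ ≤ T) → (∀ c, ‖M' c‖ ≤ T) →
          ‖zeta m (recF z t M) - zeta m (recF z t M')‖ ≤
            C * (1 + T) ^ 2 * ∑ c, ‖zeta m (M c) - zeta m (M' c)‖ := by
  obtain ⟨C, hC, h⟩ := zeta_pointwise hD hc
  refine ⟨C * (C + 1), by positivity, fun z m hR t ht M M' hM hM' => ?_⟩
  obtain ⟨-, h2, h3, -⟩ := h z m hR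
  have hpos : ∀ M : Fin D → ℂ, (∀ c, 0 < (M c).im) → 0 < (t + ∑ c, M c).im := fun M hM => by
    rw [Complex.add_im, Complex.im_sum]
    have : 0 < ∑ c, (M c).im :=
      Finset.sum_pos (fun c _ => hM c) ⟨⟨0, by omega⟩, Finset.mem_univ _⟩
    linarith
  have hz : ∀ U : ℂ, 0 < U.im → 0 < (z + U).im := fun U hU => by
    rw [Complex.add_im]; linarith [hR.zim]
  have key : ‖zeta m (recF z t M) - zeta m (recF z t M')‖ ≤ C * ∑ c, ‖M c - M' c‖ := by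
    have := h3 _ _ (hz _ (hpos M hM)) (hz _ (hpos M' hM')) (hpos M hM).le (hpos M' hM').le
    unfold recF
    rw [add_assoc, add_assoc]
    refine this.trans ?_
    gcongr
    rw [add_sub_add_left_eq_sub, ← Finset.sum_sub_distrib]
    exact norm_sum_le _ _
  have hs : 0 ≤ ∑ c, ‖M c - M' c‖ := Finset.sum_nonneg fun _ _ => norm_nonneg _
  refine ⟨key.trans (by nlinarith [mul_nonneg hC.le (mul_nonneg hC.le hs)]), fun T hT hT' => ?_⟩
  refine key.trans ?_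
  have hT0 : 0 ≤ T := (norm_nonneg _).trans (hT ⟨0, by omega⟩)
  have : ∑ c, ‖M c - M' c‖ ≤ (C + 1) * (1 + T) ^ 2 * ∑ c, ‖zeta m (M c) - zeta m (M' c)‖ := by
    rw [Finset.mul_sum]
    refine Finset.sum_le_sum fun c _ => ((h2 _ _ (hM c).le (hM' c).le).2).trans ?_
    have e : (1 + ‖M c‖) * (1 + ‖M' c‖) ≤ (1 + T) ^ 2 := by
      rw [sq]; gcongr
      · exact hT c
      · exact hT' c
    calc _ ≤ (C + 1) * ‖zeta m (M c) - zeta m (M' c)‖ * (1 + T) ^ 2 := by gcongr; linarith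
      _ = _ := by ring
  calc _ ≤ C * ((C + 1) * (1 + T) ^ 2 * ∑ c, ‖zeta m (M c) - zeta m (M' c)‖) := by gcongr
    _ = _ := by ring

theorem zeta_lip {D : ℕ} (hD : 2 ≤ D) {c₀ : ℝ} (hc : 0 < c₀) : ∃ C : ℝ, 0 < C ∧
    ∀ z m : ℂ, Ref D c₀ z m → ∀ M M' : ℂ, 0 ≤ M.im → 0 ≤ M'.im →
      ‖zeta m M - zeta m M'‖ ≤ C * ‖M - M'‖ := by
  obtain ⟨C, hC, h⟩ := zeta_pointwise hD hc
  refine ⟨C, hC, fun z m hR M M' hM hM' => le_trans ?_ ((h z m hR).2.1 M M' hM hM').1⟩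
  refine le_mul_of_one_le_right (norm_nonneg _) ?_
  nlinarith [norm_nonneg M, norm_nonneg M', mul_nonneg (norm_nonneg M) (norm_nonneg M')]

/-- small `ζ` means close to `m` (first item of `zeta_pointwise`), in counting form -/
theorem frac_far_le {D : ℕ} (hD : 2 ≤ D) {c₀ δ : ℝ} (hc : 0 < c₀) (hδ : 0 < δ) : ∃ C : ℝ, 0 < C ∧
    ∀ z m : ℂ, Ref D c₀ z m → ∀ (A : Type) [Fintype A] (M : A → ℂ), (∀ a, 0 ≤ (M a).im) →
      (frac fun a => δ < ‖M a - m‖) ≤ C * avg fun a => ‖zeta m (M a)‖ ^ 2 := by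
  obtain ⟨C, hC, h⟩ := zeta_pointwise hD hc
  have hm : 0 < min 1 δ := lt_min one_pos hδ
  refine ⟨(C / min 1 δ) ^ 2, by positivity, fun z m hR A _ M hM => ?_⟩
  rw [← avg_const_mul]
  refine frac_le_avg (fun a => by positivity) fun a ha => ?_
  have h1 := ((h z m hR).1 (M a) (hM a)).2.2
  have h2 : min 1 δ ≤ C * ‖zeta m (M a)‖ := (min_le_min_left _ ha.le).trans h1
  rw [← mul_pow]
  refine one_le_pow₀ ?_
  rw [div_mul_eq_mul_div, le_div_iff₀ hm, one_mul]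
  exact h2

end Crest.Agent.R166.PA
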