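import Crest.Agent.R166.A.Q0
import Crest.Agent.R166.A.Env

/-! # Part A: stability of the bivariate statistics

All arguments of `φ` lie in the ball of radius `R = 2/c₀ + 1` (`norm_zeta_le`).  Eventually `0 < K/n ≤ 1` and `n (K/n) = K`. -/

set_option autoImplicit false
set_option linter.unusedVariables false
set_option linter.unusedSectionVars false

open MeasureTheory ProbabilityTheory Filter Topology Matrix
open scoped ENNReal BoundedContinuousFunction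

namespace Crest.Agent.R166.PA

theorem Q1_im (E η : ℝ) : ((E : ℂ) + η * Complex.I).im = η := by simp

theorem Q1_avg {A : Type} [Fintype A] {f g : A → ℝ} {P : A → Prop} {x C : ℝ} (hx : 0 ≤ x)
    (hC : 0 ≤ C) (hf : ∀ a, |f a| ≤ C) (hg : ∀ a, |g a| ≤ C) (h : ∀ a, ¬ P a → |f a - g a| ≤ x) :
    |avg f - avg g| ≤ x + 2 * C * frac P := by
  rw [← avg_sub]
  refine (abs_avg_le _).trans (avg_le_add_frac hx (by positivity) h fun a => ?_)
  linarith [abs_sub (f a) (g a), hf a, hg a]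

theorem Q1_core {D : ℕ} (hD : 2 ≤ D) {c₀ : ℝ} (hc : 0 < c₀) {E : ℝ} {m : ℂ} (hR : Ref D c₀ E m)
    {δ δ' τ : ℝ} (hδ : 0 < δ) (hδ' : 0 < δ') (hτ : 0 < τ) :
    ∃ K₀ : ℝ, ∀ K : ℝ, K₀ ≤ K → 0 < K → ∀ (s : ℝ) (w : ℂ), 0 < w.im →
      ∀ᶠ n : ℕ in atTop, 0 < K / n ∧
        ∀ (ω : Fin n → J) (π : Pairing n D) (o : Fin n) (α : Fin (D + 1) → HE n D),
        StarOK π.1 o α → (frac fun h =>
          δ < ‖Zh s ω (E + (K / n : ℝ) * Complex.I) m (sw π o α) h -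
            Zh s ω (E + (K / n : ℝ) * Complex.I) m π h‖ ∨
          δ' < ‖mE s ω w (sw π o α) h - mE s ω w π h‖) ≤ τ := by
  obtain ⟨C, hC, H⟩ := stab_stats D hc
  refine ⟨C / δ / (τ / 2), fun K hK hK0 s w hw => ?_⟩
  obtain ⟨C', hC', H'⟩ := env_stab D s hw hδ'
  filter_upwards [tendsto_natCast_atTop_atTop.eventually_ge_atTop K,
    tendsto_natCast_atTop_atTop.eventually_ge_atTop (C' / (τ / 2))] with n h1 h2
  have hn : (0 : ℝ) < n := hK0.trans_le h1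
  refine ⟨div_pos hK0 hn, fun ω π o α hS => (frac_or_le _ _).trans ?_⟩
  have h3 := (H n s ω (E + (K / n : ℝ) * Complex.I) m (by rw [Q1_im]; exact div_pos hK0 hn)
    (by rw [Q1_im]; exact (div_le_one hn).2 h1) hR.mim (ref_norm_le hR hD) π o α hS).1
  rw [Q1_im, mul_div_cancel₀ _ hn.ne'] at h3
  have h4 := (frac_markov hδ fun h => norm_nonneg _).trans (div_le_div_of_nonneg_right h3 hδ.le)
  have h5 : C / K / δ ≤ τ / 2 := by
    rw [div_right_comm, div_le_comm₀ hK0 (half_pos hτ)]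
    exact hK
  have h6 : C' / n ≤ τ / 2 := (div_le_comm₀ hn (half_pos hτ)).2 h2
  linarith [H' n ω π o α hS]

/-- `phi_mod`; off the set where `‖Zh' - Zh‖ > δ` (fraction `≤ C/(Kδ)`, `stab_stats`, Markov) or
`‖mE' - mE‖ > δ/C` (fraction `≤ C/n`, `env_stab`, `zeta_lip`) the summands differ by `≤ ε/2` -/
theorem q1 {D : ℕ} (hD : 2 ≤ D) {c₀ : ℝ} (hc : 0 < c₀) {E : ℝ} {m : ℂ} (hR : Ref D c₀ E m)
    (φ : C(ℂ × ℂ, ℝ)) {ε : ℝ} (hε : 0 < ε) :
    ∃ K₀ : ℝ, ∀ K : ℝ, K₀ ≤ K → 0 < K → ∀ s : ℝ, |s| ≤ 1 → ∀ w : ℂ, 0 < w.im →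
      ∀ᶠ n in atTop, ∀ ω : Fin n → J, ∀ (π : Pairing n D) (o : Fin n) (α : Fin (D + 1) → HE n D),
        StarOK π.1 o α →
        |stF s ω E (K / n) w m φ (sw π o α) - stF s ω E (K / n) w m φ π| ≤ ε := by
  obtain ⟨Cφ, hCφ, hb, hmod⟩ := phi_mod φ (2 / c₀ + 1)
  obtain ⟨δ, hδ, hmod⟩ := hmod (ε / 2) (half_pos hε)
  obtain ⟨CL, hCL, hL⟩ := zeta_lip hD hc
  obtain ⟨K₀, H⟩ := Q1_core hD hc hR hδ (div_pos hδ hCL) (τ := ε / 2 / (2 * Cφ)) (by positivity)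
  refine ⟨K₀, fun K hK hK0 s hs w hw => (H K hK hK0 s w hw).mono fun n hn ω π o α hS => ?_⟩
  obtain ⟨hη, hn⟩ := hn
  have hz : 0 < ((E : ℂ) + (K / n : ℝ) * Complex.I).im := by rw [Q1_im]; exact hη
  have hm1 := ref_norm_le hR hD
  have b1 := fun (π : Pairing n D) h => norm_Zh_le s ω π h hz hc hR.mim hm1
  have p2 := fun (π : Pairing n D) h => (mE_im_pos s ω π h hw).le
  have b2 := fun (π : Pairing n D) h => norm_zeta_le hc hR.mim hm1 (p2 π h)
  refine (Q1_avg (half_pos hε).le hCφ.le (fun h => hb _ _ (b1 _ h) (b2 _ h))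
    (fun h => hb _ _ (b1 _ h) (b2 _ h)) fun h hh => ?_).trans
      ((add_le_add_right (mul_le_mul_of_nonneg_left (hn ω π o α hS) (by positivity)) _).trans
        (le_of_eq (by field_simp; ring)))
  rw [not_or, not_lt, not_lt] at hh
  refine hmod _ _ _ _ (b1 _ h) (b2 _ h) (b1 _ h) (b2 _ h) hh.1
    ((hL E m hR _ _ (p2 _ h) (p2 _ h)).trans ?_)
  rw [mul_comm]
  exact (le_div_iff₀ hCL).1 hh.2

/-- same with `rec_lip`: the summand for `(o', a)` moves by `≤ ε/2` unless some child `a c` has `‖Mh‖ > T` or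
`‖Mh'‖ > T` or `‖Zh' - Zh‖ > δ_T` or `‖mE' - mE‖ > δ'`; `frac_exists_le`, `frac_eval` -/
theorem q2 {D : ℕ} (hD : 2 ≤ D) {c₀ : ℝ} (hc : 0 < c₀) {E : ℝ} {m : ℂ} (hR : Ref D c₀ E m)
    (φ : C(ℂ × ℂ, ℝ)) : ∃ C : ℝ, 0 < C ∧ ∀ ε T : ℝ, 0 < ε →
    ∃ K₀ : ℝ, ∀ K : ℝ, K₀ ≤ K → 0 < K → ∀ s : ℝ, |s| ≤ 1 → ∀ w : ℂ, 0 < w.im →
      ∀ᶠ n in atTop, ∀ ω : Fin n → J, ∀ (π : Pairing n D) (o : Fin n) (α : Fin (D + 1) → HE n D),
        StarOK π.1 o α →
        |stP s ω E (K / n) w m φ (sw π o α) - stP s ω E (K / n) w m φ π| ≤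
          ε + C * (tailM s ω (E + (K / n : ℝ) * Complex.I) m T π +
            tailM s ω (E + (K / n : ℝ) * Complex.I) m T (sw π o α)) := by
  obtain ⟨Cφ, hCφ, hb, hmod⟩ := phi_mod φ (2 / c₀ + 1)
  obtain ⟨CL, hCL, hL⟩ := rec_lip hD hc
  have hD0 : (0 : ℝ) < D := by exact_mod_cast (by omega : 0 < D)
  refine ⟨2 * Cφ * D, by positivity, fun ε T hε => ?_⟩
  obtain ⟨δ, hδ, hmod⟩ := hmod (ε / 2) (half_pos hε)
  obtain ⟨K₀, H⟩ := Q1_core hD hc hR (δ := δ / (CL * ((1 + T) ^ 2 + 1) * D)) (δ' := δ / (CL * D))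
    (τ := ε / 2 / (2 * Cφ * D)) (by positivity) (by positivity) (by positivity)
  refine ⟨K₀, fun K hK hK0 s hs w hw => (H K hK hK0 s w hw).mono fun n hn ω π o α hS => ?_⟩
  obtain ⟨hη, hn⟩ := hn
  replace hn := hn ω π o α hS
  have hz : 0 < ((E : ℂ) + (K / n : ℝ) * Complex.I).im := by rw [Q1_im]; exact hη
  have hm1 := ref_norm_le hR hD
  have p1 := fun (π : Pairing n D) h => Mh_im_pos s ω π h hz (hc.trans_le hR.mim)
  have p2 := fun (π : Pairing n D) h => mE_im_pos s ω π h hw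
  have hT := add_nonneg (frac_nonneg fun h => T < ‖Mh s ω (E + (K / n : ℝ) * Complex.I) m π h‖)
    (frac_nonneg fun h => T < ‖Mh s ω (E + (K / n : ℝ) * Complex.I) m (sw π o α) h‖)
  unfold stP tailM
  rw [← avg_sub]
  refine abs_avg_le_of_le (by positivity) fun o' => ?_
  have t1 : 0 ≤ (((K / n : ℝ) : ℂ) * Complex.I - ((s * (ω o' : ℝ) : ℝ) : ℂ)).im := by
    simpa using hη.le
  have t2 : 0 ≤ (w - E - ((s * (ω o' : ℝ) : ℝ) : ℂ)).im := by simpa using hw.le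
  have b : ∀ {t : ℂ} {M : Fin D → ℂ}, 0 ≤ t.im → (∀ c, 0 < (M c).im) →
      ‖zeta m (recF E t M)‖ ≤ 2 / c₀ + 1 := fun ht hM =>
    norm_zeta_le hc hR.mim hm1 (PA.recF_im_pos (by omega) (by simpa using ht) hM).le
  refine (Q1_avg (P := fun a : Fin D → HE n D => ∃ c ∈ Finset.univ,
      (δ / (CL * ((1 + T) ^ 2 + 1) * D) < ‖Zh s ω (E + (K / n : ℝ) * Complex.I) m (sw π o α) (a c) -
          Zh s ω (E + (K / n : ℝ) * Complex.I) m π (a c)‖ ∨
        δ / (CL * D) < ‖mE s ω w (sw π o α) (a c) - mE s ω w π (a c)‖) ∨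
      (T < ‖Mh s ω (E + (K / n : ℝ) * Complex.I) m π (a c)‖ ∨
        T < ‖Mh s ω (E + (K / n : ℝ) * Complex.I) m (sw π o α) (a c)‖))
    (half_pos hε).le hCφ.le (fun a => hb _ _ (b t1 fun c => p1 _ _) (b t2 fun c => p2 _ _))
    (fun a => hb _ _ (b t1 fun c => p1 _ _) (b t2 fun c => p2 _ _)) fun a ha => ?_).trans ?_
  · simp only [Finset.mem_univ, true_and, not_exists, not_or, not_lt] at ha
    refine hmod _ _ _ _ (b t1 fun c => p1 _ _) (b t2 fun c => p2 _ _) (b t1 fun c => p1 _ _)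
      (b t2 fun c => p2 _ _) ?_ ?_
    · refine ((hL E m hR _ t1 _ _ (fun c => p1 _ _) fun c => p1 _ _).2 T (fun c => (ha c).2.2)
        fun c => (ha c).2.1).trans ?_
      have h1 := Finset.sum_le_card_nsmul Finset.univ _ _ fun c _ => (ha c).1.1
      rw [Finset.card_univ, Fintype.card_fin, nsmul_eq_mul] at h1
      calc _ ≤ CL * ((1 + T) ^ 2 + 1) * (D * (δ / (CL * ((1 + T) ^ 2 + 1) * D))) :=
            mul_le_mul (mul_le_mul_of_nonneg_left (le_add_of_nonneg_right zero_le_one) hCL.le) h1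
              (Finset.sum_nonneg fun c _ => norm_nonneg _) (by positivity)
        _ = δ := by field_simp
    · refine (hL E m hR _ t2 _ _ (fun c => p2 _ _) fun c => p2 _ _).1.trans ?_
      have h1 := Finset.sum_le_card_nsmul Finset.univ _ _ fun c _ => (ha c).1.2
      rw [Finset.card_univ, Fintype.card_fin, nsmul_eq_mul] at h1
      exact (mul_le_mul_of_nonneg_left h1 hCL.le).trans (le_of_eq (by field_simp))
  · refine (add_le_add_right (mul_le_mul_of_nonneg_left ((frac_exists_le _ _).trans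
      (Finset.sum_le_card_nsmul _ _ _ fun c _ => (frac_eval c fun h =>
        (δ / (CL * ((1 + T) ^ 2 + 1) * D) < ‖Zh s ω (E + (K / n : ℝ) * Complex.I) m (sw π o α) h -
          Zh s ω (E + (K / n : ℝ) * Complex.I) m π h‖ ∨
        δ / (CL * D) < ‖mE s ω w (sw π o α) h - mE s ω w π h‖) ∨
      (T < ‖Mh s ω (E + (K / n : ℝ) * Complex.I) m π h‖ ∨
        T < ‖Mh s ω (E + (K / n : ℝ) * Complex.I) m (sw π o α) h‖)).trans_le
          ((frac_or_le _ _).trans (add_le_add hn (frac_or_le _ _))))) (by positivity)) _).trans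
      (le_of_eq ?_)
    rw [Finset.card_univ, Fintype.card_fin, nsmul_eq_mul]
    field_simp
    ring

end Crest.Agent.R166.PA
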