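import Crest.Agent.R166.A.Q0
import Crest.Agent.R166.A.Env
import Crest.Agent.R166.A.Key1
import Crest.Agent.R166.A.Key2

/-! # Part A: after the switch the pair at `(o, j)` is one step of the recursion -/

set_option autoImplicit false
set_option linter.unusedVariables false
set_option linter.unusedSectionVars false

open MeasureTheory ProbabilityTheory Filter Topology Matrix
open scoped ENNReal BoundedContinuousFunction

namespace Crest.Agent.R166.PA

theorem q3_stP {n D : ℕ} (hn : 0 < n) (s : ℝ) (ω : Fin n → J) (E η : ℝ) (w m : ℂ) (φ : ℂ × ℂ → ℝ)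
    (π : Pairing n D) : stP s ω E η w m φ π = avg fun o : Fin n =>
      avg fun α : Fin (D + 1) → HE n D => avg fun j : Fin (D + 1) =>
        φ (zeta m (recF E (η * Complex.I - ((s * (ω o : ℝ) : ℝ) : ℂ))
          fun c => Mh s ω (E + η * Complex.I) m π (kids π α j c)),
        zeta m (recF E (w - E - ((s * (ω o : ℝ) : ℝ) : ℂ)) fun c => mE s ω w π (kids π α j c))) := by
  have : Nonempty (Fin n) := ⟨⟨0, hn⟩⟩
  unfold stP
  refine avg_congr fun o => ?_
  rw [avg_comm]
  refine Eq.trans (avg_const (A := Fin (D + 1)) _).symm (avg_congr fun j => ?_)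
  exact (avg_reindex (Fin.succAbove_right_injective (p := j)) π.1 _).symm

theorem q3_tail {n D : ℕ} (s : ℝ) (ω : Fin n → J) (z m : ℂ) (T : ℝ) (π : Pairing n D) :
    (avg2 π fun o α => ∑ i, if T < ‖Mh s ω z m π (π.1 (α i))‖ then (1 : ℝ) else 0) ≤
      (D + 1) * tailM s ω z m T π := by
  have h0 : 0 ≤ tailM s ω z m T π := frac_nonneg _
  refine (avg2_le_avg (fun _ _ _ => le_rfl) fun o α =>
    Finset.sum_nonneg fun i _ => by split_ifs <;> norm_num).trans
    (avg_le_of_le (by positivity) fun o => le_of_eq ?_)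
  rw [avg_finset_sum Finset.univ fun i (α : Fin (D + 1) → HE n D) =>
    if T < ‖Mh s ω z m π (π.1 (α i))‖ then (1 : ℝ) else 0]
  have : ∀ i : Fin (D + 1), (avg fun α : Fin (D + 1) → HE n D =>
      if T < ‖Mh s ω z m π (π.1 (α i))‖ then (1 : ℝ) else 0) = tailM s ω z m T π := by
    intro i
    rw [avg_pi_eval i fun h => if T < ‖Mh s ω z m π (π.1 h)‖ then (1 : ℝ) else 0,
      avg_equiv π.1 fun h => if T < ‖Mh s ω z m π h‖ then (1 : ℝ) else 0]
    unfold tailM frac
    refine avg_congr fun h => ?_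
    split_ifs <;> rfl
  simp [this]

/-- `stP π = avg_o avg_α avg_j φ(ζ(recF E t₁ (Mh π ∘ kids π α j)), ζ(recF E t₂ (mE π ∘ kids π α j)))` (`avg_reindex`);
restrict to `OK` (`avg2_compl`).  On `OK`, if all children have `‖Mh‖ ≤ T`, `C_T errK ≤ δ` and
`‖mE π' (π (α i)) - mE π (π (α i))‖ ≤ δ'` for all `i`, then the first arguments differ by `≤ δ` (`key_step`, `z₀ = E`,
`A = 2/c₀ + 1`) and the second ones too (`mE_rec` for `π'`, `π' (o,i) = π (α i)`, `rec_lip`).  The exceptions have mean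
`≤ (D+1) tailM + C_T² C/(K δ²) + C/n` (`errK_sq`, `env_kids`). -/
theorem q3 {D : ℕ} (hD : 2 ≤ D) {c₀ : ℝ} (hc : 0 < c₀) {E : ℝ} {m : ℂ} (hR : Ref D c₀ E m)
    (φ : C(ℂ × ℂ, ℝ)) : ∃ C : ℝ, 0 < C ∧ ∀ ε T : ℝ, 0 < ε →
    ∃ K₀ : ℝ, ∀ K : ℝ, K₀ ≤ K → 0 < K → ∀ s : ℝ, |s| ≤ 1 → ∀ w : ℂ, 0 < w.im →
      ∀ᶠ n in atTop, ∀ ω : Fin n → J,
        (avg fun π : Pairing n D =>
          |(avg2 π fun o α => avg fun j =>
              φ (Zh s ω (E + (K / n : ℝ) * Complex.I) m (sw π o α) (o, j),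
                zeta m (mE s ω w (sw π o α) (o, j)))) - stP s ω E (K / n) w m φ π|) ≤
          ε + C * avg fun π : Pairing n D => tailM s ω (E + (K / n : ℝ) * Complex.I) m T π := by
  have hD1 : 1 ≤ D := by omega
  have hm1 := ref_norm_le hR hD
  have hm0 : 0 < m.im := hc.trans_le hR.mim
  obtain ⟨Cφ, hCφ, hφb, hφm⟩ := phi_mod φ (2 / c₀ + 1)
  refine ⟨2 * Cφ * (D + 1), by positivity, fun ε T hε => ?_⟩
  obtain ⟨δ, hδ, hδφ⟩ := hφm (ε / 4) (by positivity)
  obtain ⟨CT, hCT, hkey⟩ := key_step D hc (2 / c₀ + 1) T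
  obtain ⟨Ce, hCe, herr⟩ := errK_sq D hc
  obtain ⟨Cr, hCr, hrec⟩ := rec_lip hD hc
  obtain ⟨Cc, hCc, hcompl⟩ := avg2_compl D
  refine ⟨8 * Cφ * (CT / δ) ^ 2 * Ce / ε, fun K hK hK0 s hs w hw => ?_⟩
  obtain ⟨Ck, hCk, henv⟩ := env_kids D s hw (ε := δ / (Cr * (D + 1))) (by positivity)
  have hlim : ∀ a : ℝ, Tendsto (fun n : ℕ => a / n) atTop (𝓝 0) :=
    tendsto_const_div_atTop_nhds_zero_nat
  filter_upwards [eventually_gt_atTop 0, (hlim K).eventually (ge_mem_nhds one_pos),
    (hlim (2 * Cφ * Ck)).eventually (ge_mem_nhds (show 0 < ε / 4 by positivity)),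
    (hlim (Cφ * Cc)).eventually (ge_mem_nhds (show 0 < ε / 4 by positivity))]
    with n hn hK1 hn1 hn2 ω
  have hn' : (0 : ℝ) < n := by exact_mod_cast hn
  set z : ℂ := E + (K / n : ℝ) * Complex.I with hz
  have hzim : z.im = K / n := by simp [hz]
  have hz0 : 0 < z.im := by rw [hzim]; positivity
  have hzn : ‖z‖ ≤ 2 / c₀ + 1 := by
    refine (norm_add_le _ _).trans (add_le_add (ref_norm_z_le hR hc) ?_)
    rw [norm_mul, Complex.norm_I, mul_one, Complex.norm_real, Real.norm_of_nonneg (by positivity)]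
    exact hK1
  let G1 : Pairing n D → Fin n → (Fin (D + 1) → HE n D) → Fin (D + 1) → ℂ := fun π o α j =>
    zeta m (recF E (((K / n : ℝ) : ℂ) * Complex.I - ((s * (ω o : ℝ) : ℝ) : ℂ))
      fun c => Mh s ω z m π (kids π α j c))
  let G2 : Pairing n D → Fin n → (Fin (D + 1) → HE n D) → Fin (D + 1) → ℂ := fun π o α j =>
    zeta m (recF E (w - E - ((s * (ω o : ℝ) : ℝ) : ℂ)) fun c => mE s ω w π (kids π α j c))
  have ht2 : ∀ o, 0 ≤ (w - E - ((s * (ω o : ℝ) : ℝ) : ℂ)).im := fun o => by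
    simp only [Complex.sub_im, Complex.ofReal_im, sub_zero]; exact hw.le
  have hG1 : ∀ π o α j, ‖G1 π o α j‖ ≤ 2 / c₀ + 1 := fun π o α j =>
    norm_zeta_le hc hR.mim hm1 (recF_im_pos hD1 (by
      simp only [Complex.add_im, Complex.sub_im, Complex.ofReal_im, Complex.mul_im,
        Complex.ofReal_re, Complex.I_im, Complex.I_re]
      have : 0 < K / n := by positivity
      linarith) fun c => Mh_im_pos s ω π _ hz0 hm0).le
  have hG2 : ∀ π o α j, ‖G2 π o α j‖ ≤ 2 / c₀ + 1 := fun π o α j =>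
    norm_zeta_le hc hR.mim hm1 (recF_im_pos hD1 (by
      rw [Complex.add_im, Complex.ofReal_im, zero_add]; exact ht2 o)
      fun c => mE_im_pos s ω π _ hw).le
  have hF1 : ∀ (π : Pairing n D) h, ‖Zh s ω z m π h‖ ≤ 2 / c₀ + 1 := fun π h =>
    norm_Zh_le s ω π h hz0 hc hR.mim hm1
  have hF2 : ∀ (π : Pairing n D) h, ‖zeta m (mE s ω w π h)‖ ≤ 2 / c₀ + 1 := fun π h =>
    norm_zeta_le hc hR.mim hm1 (mE_im_pos s ω π h hw).le
  let B1 : Pairing n D → Fin n → (Fin (D + 1) → HE n D) → ℝ := fun π o α =>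
    ∑ i, if T < ‖Mh s ω z m π (π.1 (α i))‖ then (1 : ℝ) else 0
  let B2 : Pairing n D → Fin n → (Fin (D + 1) → HE n D) → ℝ := fun π o α =>
    (CT / δ) ^ 2 * errK s ω z m π o α ^ 2
  let B3 : Pairing n D → Fin n → (Fin (D + 1) → HE n D) → ℝ := fun π o α =>
    if ∃ i, δ / (Cr * (D + 1)) < ‖mE s ω w (sw π o α) (π.1 (α i)) - mE s ω w π (π.1 (α i))‖
      then 1 else 0
  have hB1 : ∀ π o α, 0 ≤ B1 π o α := fun π o α =>
    Finset.sum_nonneg fun i _ => by split_ifs <;> norm_num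
  have hB2 : ∀ π o α, 0 ≤ B2 π o α := fun π o α => by positivity
  have hB3 : ∀ π o α, 0 ≤ B3 π o α := fun π o α => by
    simp only [B3]; split_ifs <;> norm_num
  have hpt : ∀ (π : Pairing n D) o α, StarOK π.1 o α → ∀ j,
      |φ (Zh s ω z m (sw π o α) (o, j), zeta m (mE s ω w (sw π o α) (o, j))) -
        φ (G1 π o α j, G2 π o α j)| ≤ ε / 4 + 2 * Cφ * (B1 π o α + B2 π o α + B3 π o α) := by
    intro π o α hok j
    have h1 := hB1 π o α
    have h2 := hB2 π o α
    have h3 := hB3 π o α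
    by_cases hbad : 1 ≤ B1 π o α + B2 π o α + B3 π o α
    · have a1 := hφb _ _ (hF1 (sw π o α) (o, j)) (hF2 (sw π o α) (o, j))
      have a2 := hφb _ _ (hG1 π o α j) (hG2 π o α j)
      have a3 := abs_sub (φ (Zh s ω z m (sw π o α) (o, j), zeta m (mE s ω w (sw π o α) (o, j))))
        (φ (G1 π o α j, G2 π o α j))
      nlinarith
    · rw [not_le] at hbad
      refine (hδφ _ _ _ _ (hF1 _ _) (hF2 _ _) (hG1 π o α j) (hG2 π o α j) ?_ ?_).trans
        (le_add_of_nonneg_right (by positivity))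
      · have b1 : ∀ i, ¬ T < ‖Mh s ω z m π (π.1 (α i))‖ := fun i hi => by
          have := Finset.single_le_sum (f := fun i =>
            if T < ‖Mh s ω z m π (π.1 (α i))‖ then (1 : ℝ) else 0)
            (fun i _ => by split_ifs <;> norm_num) (Finset.mem_univ i)
          simp only [if_pos hi] at this
          have : 1 ≤ B1 π o α := this
          linarith
        refine (hkey n s ω z m hs hz0 hzn hR.mim hm1 π o α hok j
          (fun c c' hc _ => absurd hc (b1 _)) E _ (by rw [hz]; ring)).trans ?_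
        have b2 : (CT / δ * errK s ω z m π o α) ^ 2 < 1 ^ 2 := by
          rw [mul_pow, one_pow]
          have : B2 π o α < 1 := by linarith
          exact this
        have b3 := lt_of_pow_lt_pow_left₀ 2 zero_le_one b2
        rw [div_mul_eq_mul_div, div_lt_one hδ] at b3
        exact b3.le
      · have b1 : ∀ i, ‖mE s ω w (sw π o α) (π.1 (α i)) - mE s ω w π (π.1 (α i))‖ ≤
            δ / (Cr * (D + 1)) := fun i => by
          by_contra hi
          have : B3 π o α = 1 := if_pos ⟨i, not_le.1 hi⟩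
          linarith
        have b2 : ∀ i, (sw π o α).1 (o, i) = π.1 (α i) := fun i => (hok.spec.2.2.2.1 i).1
        rw [mE_rec s ω (sw π o α) hw E o j]
        simp only [b2]
        refine (hrec E m hR _ (ht2 o) _ _ (fun c => mE_im_pos s ω _ _ hw)
          (fun c => mE_im_pos s ω _ _ hw)).1.trans ?_
        have b3 : ∑ c : Fin D, ‖mE s ω w (sw π o α) (π.1 (α (j.succAbove c))) -
            mE s ω w π (kids π α j c)‖ ≤ ∑ c : Fin D, δ / (Cr * (D + 1)) :=
          Finset.sum_le_sum fun c _ => b1 _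
        refine (mul_le_mul_of_nonneg_left b3 hCr.le).trans ?_
        rw [Finset.sum_const, Finset.card_univ, Fintype.card_fin, nsmul_eq_mul,
          show Cr * (D * (δ / (Cr * (D + 1)))) = δ * (D / (D + 1)) by field_simp]
        exact mul_le_of_le_one_right hδ.le (div_le_one_of_le₀ (by linarith) (by positivity))
  have hπ : ∀ π : Pairing n D, |(avg2 π fun o α => avg fun j =>
      φ (Zh s ω z m (sw π o α) (o, j), zeta m (mE s ω w (sw π o α) (o, j)))) -
        stP s ω E (K / n) w m φ π| ≤ ε / 2 + 2 * Cφ * ((D + 1) * tailM s ω z m T π +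
          avg2 π (B2 π) + avg2 π (B3 π)) := by
    intro π
    have c1 := hcompl n π (fun o α => avg fun j => φ (G1 π o α j, G2 π o α j)) Cφ
      fun o α => abs_avg_le_of_le hCφ.le fun j => hφb _ _ (hG1 π o α j) (hG2 π o α j)
    rw [← q3_stP hn s ω E (K / n) w m φ π] at c1
    have c2 : |(avg2 π fun o α => avg fun j =>
        φ (Zh s ω z m (sw π o α) (o, j), zeta m (mE s ω w (sw π o α) (o, j)))) -
        avg2 π fun o α => avg fun j => φ (G1 π o α j, G2 π o α j)| ≤
        avg2 π fun o α => ε / 4 + 2 * Cφ * (B1 π o α + B2 π o α + B3 π o α) := by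
      rw [← avg2_sub]
      refine (abs_avg2_le _ _).trans (avg2_mono fun o α hok => ?_)
      rw [← avg_sub]
      have := hB1 π o α
      have := hB2 π o α
      have := hB3 π o α
      exact abs_avg_le_of_le (by positivity) (hpt π o α hok)
    rw [avg2_add, avg2_mul_left, avg2_add, avg2_add] at c2
    have c3 : (avg2 π fun _ _ => ε / 4) ≤ ε / 4 :=
      (avg2_le_avg (fun _ _ _ => le_rfl) fun _ _ => by positivity).trans
        (avg_le_of_le (by positivity) fun _ => avg_le_of_le (by positivity) fun _ => le_rfl)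
    have c4 : avg2 π (B1 π) ≤ (D + 1) * tailM s ω z m T π := q3_tail s ω z m T π
    have c5 := abs_sub_le (avg2 π fun o α => avg fun j =>
        φ (Zh s ω z m (sw π o α) (o, j), zeta m (mE s ω w (sw π o α) (o, j))))
      (avg2 π fun o α => avg fun j => φ (G1 π o α j, G2 π o α j)) (stP s ω E (K / n) w m φ π)
    have c6 := mul_le_mul_of_nonneg_left c4 (show 0 ≤ 2 * Cφ by positivity)
    change _ ≤ _ + 2 * Cφ * (avg2 π (B1 π) + avg2 π (B2 π) + avg2 π (B3 π)) at c2
    linarith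
  refine (avg_mono hπ).trans ?_
  rw [avg_add, avg_const_mul, avg_add, avg_add, avg_const_mul]
  have d1 : (avg fun _ : Pairing n D => ε / 2) ≤ ε / 2 :=
    avg_le_of_le (by positivity) fun _ => le_rfl
  have d2 : (avg fun π : Pairing n D => avg2 π (B2 π)) ≤ (CT / δ) ^ 2 * (Ce / K) := by
    have e1 := herr n s ω z m hz0 hR.mim
    rw [hzim, mul_div_cancel₀ _ hn'.ne'] at e1
    refine le_trans (le_of_eq ?_) (mul_le_mul_of_nonneg_left e1 (sq_nonneg (CT / δ)))
    rw [← avg_const_mul]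
    exact avg_congr fun π => avg2_mul_left π _ _
  have d3 : (avg fun π : Pairing n D => avg2 π (B3 π)) ≤ Ck / n := henv n ω
  have d4 : 2 * Cφ * ((CT / δ) ^ 2 * (Ce / K)) ≤ ε / 4 := by
    rw [div_le_iff₀ hε] at hK
    rw [show 2 * Cφ * ((CT / δ) ^ 2 * (Ce / K)) = 2 * Cφ * (CT / δ) ^ 2 * Ce / K by ring,
      div_le_iff₀ hK0]
    linarith
  have d5 := mul_le_mul_of_nonneg_left d2 (show 0 ≤ 2 * Cφ by positivity)
  have d6 := mul_le_mul_of_nonneg_left d3 (show 0 ≤ 2 * Cφ by positivity)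
  rw [← mul_div_assoc] at d6
  linarith

end Crest.Agent.R166.PA
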