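import Crest.Agent.R166.A.Q1
import Crest.Agent.R166.A.Q3
import Crest.Agent.R166.A.Exch

/-! # Part A: the empirical law is an approximate fixed point -/

set_option autoImplicit false
set_option linter.unusedVariables false
set_option linter.unusedSectionVars false

open MeasureTheory ProbabilityTheory Filter Topology Matrix
open scoped ENNReal BoundedContinuousFunction

namespace Crest.Agent.R166.PA

/-- `exch_real` with `f π o = avg_j φ(Zh π (o,j), ζ(mE π (o,j)))` (`avg (f π) = stF`, `avg_prod`), `g = stF - stP`,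
`Δ = 2ε'`, `τ = C tailM` (`q1`, `q2`);  `E g² = E (stF - Tf) g + E (Tf - stP) g` and `q3`. -/
theorem qrec {D : ℕ} (hD : 2 ≤ D) {c₀ : ℝ} (hc : 0 < c₀) {E : ℝ} {m : ℂ} (hR : Ref D c₀ E m)
    (φ : C(ℂ × ℂ, ℝ)) : ∃ C : ℝ, 0 < C ∧ ∀ ε T : ℝ, 0 < ε →
    ∃ K₀ : ℝ, ∀ K : ℝ, K₀ ≤ K → 0 < K → ∀ s : ℝ, |s| ≤ 1 → ∀ w : ℂ, 0 < w.im →
      ∀ᶠ n in atTop, ∀ ω : Fin n → J,
        (avg fun π : Pairing n D => (stF s ω E (K / n) w m φ π - stP s ω E (K / n) w m φ π) ^ 2) ≤
          ε + C * avg fun π : Pairing n D => tailM s ω (E + (K / n : ℝ) * Complex.I) m T π := by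
  have hmim : 0 < m.im := hc.trans_le hR.mim
  have hm1 := ref_norm_le hR hD
  obtain ⟨Cφ, hCφ, hφb, -⟩ := phi_mod φ (2 / c₀ + 1)
  obtain ⟨Cx, hCx, hx⟩ := exch_real D
  obtain ⟨C2, hC2, h2⟩ := q2 hD hc hR φ
  obtain ⟨C3, hC3, h3⟩ := q3 hD hc hR φ
  refine ⟨Cφ * (2 * C2) + 2 * Cφ * C3, by positivity, fun ε T hε => ?_⟩
  set e : ℝ := ε / (5 * Cφ) with he
  have he0 : 0 < e := by positivity
  obtain ⟨K1, h1⟩ := q1 hD hc hR φ he0
  obtain ⟨K2, h2⟩ := h2 e T he0
  obtain ⟨K3, h3⟩ := h3 e T he0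
  refine ⟨max K1 (max K2 K3), fun K hK hK0 s hs w hw => ?_⟩
  filter_upwards [h1 K ((le_max_left _ _).trans hK) hK0 s hs w hw,
    h2 K (((le_max_left _ _).trans (le_max_right _ _)).trans hK) hK0 s hs w hw,
    h3 K (((le_max_right _ _).trans (le_max_right _ _)).trans hK) hK0 s hs w hw,
    (tendsto_const_div_atTop_nhds_zero_nat (Cx * (2 * Cφ))).eventually (ge_mem_nhds he0),
    eventually_gt_atTop 0] with n a1 a2 a3 a4 a5 ω
  have hn : (0 : ℝ) < n := by exact_mod_cast a5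
  have hη : 0 < K / n := by positivity
  have hz : 0 < (E + ((K / n : ℝ) : ℂ) * Complex.I : ℂ).im := by simpa using hη
  set z : ℂ := E + ((K / n : ℝ) : ℂ) * Complex.I with hzdef
  set f : Pairing n D → Fin n → ℝ := fun π o => avg fun j =>
    φ (Zh s ω z m π (o, j), zeta m (mE s ω w π (o, j))) with hf
  set F : Pairing n D → ℝ := fun π => stF s ω E (K / n) w m φ π with hF
  set P : Pairing n D → ℝ := fun π => stP s ω E (K / n) w m φ π with hP
  set τ : Pairing n D → ℝ := fun π => tailM s ω z m T π with hτ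
  have hτ0 : ∀ π, 0 ≤ τ π := fun π => frac_nonneg _
  have hfb : ∀ π o, |f π o| ≤ Cφ := fun π o => abs_avg_le_of_le hCφ.le fun j =>
    hφb _ _ (norm_Zh_le s ω π _ hz hc hR.mim hm1)
      (norm_zeta_le hc hR.mim hm1 (mE_im_pos s ω π _ hw).le)
  have hfF : ∀ π, avg (f π) = F π := fun π => by
    simp only [hf, hF, stF]
    exact (avg_prod fun h : HE n D => φ (Zh s ω z m π h, zeta m (mE s ω w π h))).symm
  have hFb : ∀ π, |F π| ≤ Cφ := fun π => hfF π ▸ abs_avg_le_of_le hCφ.le (hfb π)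
  have hPb : ∀ π, |P π| ≤ Cφ := fun π => abs_avg_le_of_le hCφ.le fun o =>
    abs_avg_le_of_le hCφ.le fun a => hφb _ _
      (norm_zeta_le hc hR.mim hm1 (recF_im_pos (by omega) (by simpa using hη.le)
        fun c => Mh_im_pos s ω π _ hz hmim).le)
      (norm_zeta_le hc hR.mim hm1 (recF_im_pos (by omega) (by simpa using hw.le)
        fun c => mE_im_pos s ω π _ hw).le)
  have hgb : ∀ π, |F π - P π| ≤ 2 * Cφ := fun π => by
    have := abs_sub (F π) (P π); linarith [hFb π, hPb π]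
  have hex := hx n f (fun π => F π - P π) Cφ (2 * Cφ) (2 * e) (fun π => C2 * τ π) hCφ.le
    (by positivity) (by positivity) hfb hgb (fun π => mul_nonneg hC2.le (hτ0 π))
    (fun π o α hok => by
      have b1 := abs_le.1 (a1 ω π o α hok)
      have b2 := abs_le.1 (a2 ω π o α hok)
      rw [abs_le]
      simp only [hF, hP, hτ]
      constructor <;> linarith [b1.1, b1.2, b2.1, b2.2])
  set Tf : Pairing n D → ℝ := fun π => avg2 π fun o α => f (sw π o α) o with hTf
  have h3' : (avg fun π => |Tf π - P π|) ≤ e + C3 * avg τ := a3 ω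
  have hsplit : (avg fun π => (F π - P π) ^ 2) =
      (avg fun π => (Tf π - P π) * (F π - P π)) -
        ((avg fun π => Tf π * (F π - P π)) - avg fun π => avg (f π) * (F π - P π)) := by
    rw [← avg_sub, ← avg_sub]
    refine avg_congr fun π => ?_
    rw [hfF]; ring
  have hA : (avg fun π => (Tf π - P π) * (F π - P π)) ≤ 2 * Cφ * (e + C3 * avg τ) := by
    calc _ ≤ avg fun π => 2 * Cφ * |Tf π - P π| := avg_mono fun π => by
          refine (le_abs_self _).trans ?_
          rw [abs_mul, mul_comm]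
          exact mul_le_mul_of_nonneg_right (hgb π) (abs_nonneg _)
      _ = 2 * Cφ * avg fun π => |Tf π - P π| := avg_const_mul _ _
      _ ≤ _ := by gcongr
  have hB := (abs_le.1 hex).1
  rw [avg_const_mul] at hB
  have hC : Cφ * (Cx * (2 * Cφ) / n + 2 * e + 2 * (C2 * avg τ)) ≤
      Cφ * (e + 2 * e + 2 * (C2 * avg τ)) := by gcongr
  have hε5 : 5 * Cφ * e = ε := by rw [he]; field_simp
  change (avg fun π => (F π - P π) ^ 2) ≤ ε + (Cφ * (2 * C2) + 2 * Cφ * C3) * avg τ
  rw [hsplit]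
  nlinarith

end Crest.Agent.R166.PA
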