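import Crest.Agent.R166.A.Cpl2
import Crest.Agent.R166.A.Edge
import Crest.Agent.R166.A.Stab

/-! # Part A: one good block bounds `G'_oo` -/

set_option autoImplicit false
set_option linter.unusedVariables false
set_option linter.unusedSectionVars false

open MeasureTheory ProbabilityTheory Filter Topology Matrix
open scoped ENNReal BoundedContinuousFunction

namespace Crest.Agent.R166.PA

theorem RB_edge {n : ℕ} (x y : Fin n) (f : Fin n → ℂ) (v : Fin n) :
    (cx (edgeM x y) *ᵥ f) v = (if v = x then f y else 0) + (if v = y then f x else 0) := by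
  have := Jm_mulVec 0 x y f v
  simpa [Jm] using this

theorem RB_cx_sum {n : ℕ} {I : Type} (S : Finset I) (f : I → Matrix (Fin n) (Fin n) ℝ) :
    cx (∑ i ∈ S, f i) = ∑ i ∈ S, cx (f i) := by
  ext x y
  simp [cx, Matrix.sum_apply]

theorem RB_apply {n D : ℕ} (s : ℝ) (ω : Fin n → J) {z : ℂ} (hz : 0 < z.im) {π : Pairing n D} {o : Fin n}
    {α : Fin (D + 1) → HE n D} (h : StarOK π.1 o α) (f : Fin n → ℂ)
    (hf : f = fun x => res (ham s (sw π o α).1 ω) z x o) (v : Fin n) :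
    ((cx (ham s π.1 ω) - z • 1) *ᵥ f) v = (if v = o then 1 else 0) -
      ∑ i, (((if v = o then f (π.1 (α i)).1 else 0) + (if v = (π.1 (α i)).1 then f o else 0)) +
        ((if v = (α i).1 then f (π.1 (o, i)).1 else 0) + (if v = (π.1 (o, i)).1 then f (α i).1 else 0)) -
        ((if v = o then f (π.1 (o, i)).1 else 0) + (if v = (π.1 (o, i)).1 then f o else 0)) -
        ((if v = (α i).1 then f (π.1 (α i)).1 else 0) +
          (if v = (π.1 (α i)).1 then f (α i).1 else 0))) := by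
  have h1 : ham s π.1 ω = ham s (sw π o α).1 ω - ∑ i, (edgeM o (π.1 (α i)).1 +
      edgeM (α i).1 (π.1 (o, i)).1 - edgeM o (π.1 (o, i)).1 - edgeM (α i).1 (π.1 (α i)).1) := by
    unfold ham sw
    rw [h.adj_eq]; abel
  have h2 : ((cx (ham s (sw π o α).1 ω) - z • 1) *ᵥ f) v = if v = o then 1 else 0 := by
    have := congrFun (congrFun (mul_res (ham_isSymm (sw π o α).2.1 s ω) hz.ne') v) o
    rw [Matrix.one_apply] at this
    rw [← this, hf]
    rfl
  rw [← h2, h1, cx_sub, sub_right_comm, Matrix.sub_mulVec, Pi.sub_apply, RB_cx_sum, Matrix.sum_mulVec,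
    Finset.sum_apply]
  congr 1
  refine Finset.sum_congr rfl fun i _ => ?_
  rw [cx_sub, cx_sub, cx_add, Matrix.sub_mulVec, Matrix.sub_mulVec, Matrix.add_mulVec, Pi.sub_apply,
    Pi.sub_apply, Pi.add_apply, RB_edge, RB_edge, RB_edge, RB_edge]

/-- `rb_abs` with `H = ham π`, `S = ptsEx π o α (univ.erase j)`, `a = a_j`, `b = b_j`, `c = μ/8` (`im_form_ge`), `C₁ = 3`
(`norm_gE_ref_le`), `f = G' δ_o`.  `(H - z) f = δ_o + (H - H') f` vanishes off the switch points (`sw_diff_supp`), and its value at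
`b_j` is `f a_j - f o` (`StarOK.adj_eq`, injectivity of `starPts`).  So `‖G'_oo‖² ≤ C η ∑‖f‖² = C Im G'_oo ≤ C ‖G'_oo‖`. -/
theorem rb (D : ℕ) {μ : ℝ} (hμ : 0 < μ) : ∃ L₀ : ℝ, 0 < L₀ ∧
    ∀ (n : ℕ) (s : ℝ) (ω : Fin n → J) (z m : ℂ), 0 < z.im → μ ≤ m.im → ‖m‖ ^ 2 ≤ 1 / 2 →
      ∀ (π : Pairing n D) (o : Fin n) (α : Fin (D + 1) → HE n D), StarOK π.1 o α → ∀ j,
        ¬ FailB s ω z m (μ / 16) (μ / 64) π o α j → ‖res (ham s (sw π o α).1 ω) z o o‖ ≤ L₀ := by
  obtain ⟨C, hC, hrb⟩ := rb_abs (c := μ / 8) (C₁ := 3) (by positivity) (by norm_num)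
  refine ⟨C, hC, fun n s ω z m hz hm hm2 π o α hok j hF => ?_⟩
  unfold FailB at hF
  rw [not_not] at hF
  obtain ⟨hG, ha, hb⟩ := hF
  obtain ⟨i1, i2⟩ := (g3_inj_iff π.1 o α).1 hok.1
  have hm1 : ‖m‖ ≤ 1 := by nlinarith [norm_nonneg m]
  have hμ1 : μ ≤ 1 := hm.trans ((Complex.im_le_norm m).trans hm1)
  set f : Fin n → ℂ := fun x => res (ham s (sw π o α).1 ω) z x o with hf
  have hap := RB_apply s ω hz hok f hf
  have key := hrb n (ham s π.1 ω) z (ptsEx π o α (Finset.univ.erase j)) (α j).1 (π.1 (α j)).1 (μ / 64)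
    (ham_isSymm π.2.1 s ω) hz (by positivity) (by linarith) (i2 j j).2.2.1
    (im_form_ge hμ hm hm2 le_rfl (G := fun b c =>
      res (ham s π.1 ω) z (ends π.1 (α j) b) (ends π.1 (α j) c)) hG)
    (fun i k => by
      have e1 := hG i k
      have e2 := norm_gE_ref_le hm2 i k
      have e3 := norm_sub_norm_le (res (ham s π.1 ω) z (ends π.1 (α j) i) (ends π.1 (α j) k))
        (gE m m i k)
      change ‖res (ham s π.1 ω) z (ends π.1 (α j) i) (ends π.1 (α j) k)‖ ≤ 3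
      linarith)
    ha hb f
    (fun x hx hxa hxb => by
      simp only [ptsEx, Finset.mem_union, Finset.mem_insert, Finset.mem_image, Finset.mem_univ,
        true_and, Finset.mem_erase, and_true, not_or, not_exists, not_and] at hx
      obtain ⟨⟨⟨x1, x2⟩, x3⟩, x4⟩ := hx
      have y3 : ∀ i, x ≠ (α i).1 := fun i e => by
        by_cases hi : i = j
        · exact hxa (hi ▸ e)
        · exact x3 i hi e.symm
      have y4 : ∀ i, x ≠ (π.1 (α i)).1 := fun i e => by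
        by_cases hi : i = j
        · exact hxb (hi ▸ e)
        · exact x4 i hi e.symm
      have y2 : ∀ i, x ≠ (π.1 (o, i)).1 := fun i e => x2 i e.symm
      rw [hap]
      simp [x1, y2, y3, y4])
  have hbv : ((cx (ham s π.1 ω) - z • 1) *ᵥ f) (π.1 (α j)).1 = f (α j).1 - f o := by
    rw [hap, if_neg (i1 j).2.2, Finset.sum_eq_single j]
    · simp [(i1 j).2.2, (i2 j j).2.2.1.symm, (i2 j j).2.1.symm]
    · intro i _ hi
      have e : (π.1 (α j)).1 ≠ (π.1 (α i)).1 := fun e => hi ((i2 j i).2.2.2.2.2 e).symm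
      simp [(i1 j).2.2, (i2 i j).2.2.1.symm, (i2 i j).2.1.symm, e]
    · simp
  rw [hbv, sub_sub_cancel, hf, ← ward_diag (ham_isSymm (sw π o α).2.1 s ω) hz.ne'] at key
  have e4 := Complex.im_le_norm (res (ham s (sw π o α).1 ω) z o o)
  by_contra hcon
  rw [not_le] at hcon
  simp only at key
  nlinarith [mul_le_mul_of_nonneg_left e4 hC.le]

/-- `edge_fwd` with `M₁ = M₂ = m`, `T = 1/μ`: `¬ GoodE` forces `‖Zh h‖`, `‖Zh (π h)‖` or `‖Th h‖ > ε₁`; Markov -/
theorem frac_not_good {μ δ : ℝ} (hμ : 0 < μ) (hδ : 0 < δ) : ∃ C : ℝ, 0 < C ∧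
    ∀ (n D : ℕ) (s : ℝ) (ω : Fin n → J) (z m : ℂ), 0 < z.im → μ ≤ m.im → ‖m‖ ^ 2 ≤ 1 / 2 →
      ∀ π : Pairing n D, (frac fun h => ¬ GoodE s ω z m δ π h) ≤
        C * (stB s ω z m π + stT s ω z m π) := by
  obtain ⟨C, ε₀, hC, hε₀, hE⟩ := edge_fwd (T := max 1 (1 / μ)) hμ (le_max_left _ _)
  set e : ℝ := min ε₀ (δ / C) with he
  have he0 : 0 < e := by positivity
  set K : ℝ := (2 / μ / e) ^ 2 with hK
  refine ⟨2 * K + 1 / e ^ 2, by positivity, fun n D s ω z m hz hm hm2 π => ?_⟩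
  have hm1 : ‖m‖ ≤ 1 := by nlinarith [norm_nonneg m]
  have hm0 : 0 < m.im := hμ.trans_le hm
  have hin : InK (max 1 (1 / μ)) m := by
    refine ⟨le_trans ?_ hm, hm1.trans (le_max_left _ _)⟩
    rw [div_le_iff₀ (by positivity)]
    have := le_max_right 1 (1 / μ)
    rw [div_le_iff₀ hμ] at this
    linarith
  have hN : ∀ h, ‖Nh s ω z m π h - nOf m m‖ ≤ 2 / μ * ‖Zh s ω z m π h‖ := fun h => by
    have := norm_nOf_sub_le hμ hm hm2 (Mh_im_pos s ω π h hz hm0).le hm0.le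
    rwa [nOf_Mh s ω π h hz hm0, zeta_self, sub_zero] at this
  have hZ : ∀ h, e < ‖Nh s ω z m π h - nOf m m‖ → 1 ≤ K * ‖Zh s ω z m π h‖ ^ 2 := fun h hh => by
    rw [hK, ← mul_pow]
    refine one_le_pow₀ ?_
    rw [div_mul_eq_mul_div, le_div_iff₀ he0, one_mul]
    exact hh.le.trans (hN h)
  have hle := frac_le_avg (P := fun h => ¬ GoodE s ω z m δ π h)
    (f := fun h => K * ‖Zh s ω z m π h‖ ^ 2 + K * ‖Zh s ω z m π (π.1 h)‖ ^ 2 +
      1 / e ^ 2 * ‖Th s ω z m π h‖ ^ 2) (fun h => by positivity) fun h hh => by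
    have p1 : 0 ≤ K * ‖Zh s ω z m π h‖ ^ 2 := by positivity
    have p2 : 0 ≤ K * ‖Zh s ω z m π (π.1 h)‖ ^ 2 := by positivity
    have p3 : 0 ≤ 1 / e ^ 2 * ‖Th s ω z m π h‖ ^ 2 := by positivity
    by_cases c1 : e < ‖Nh s ω z m π h - nOf m m‖
    · linarith [hZ h c1]
    by_cases c2 : e < ‖Nh s ω z m π (π.1 h) - nOf m m‖
    · linarith [hZ _ c2]
    by_cases c3 : e < ‖Th s ω z m π h‖
    · have : 1 ≤ 1 / e ^ 2 * ‖Th s ω z m π h‖ ^ 2 := by
        rw [div_mul_eq_mul_div, le_div_iff₀ (by positivity), one_mul, one_mul]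
        gcongr
      linarith
    exfalso
    apply hh
    intro b c
    rw [Nh_pi] at c2
    refine (hE n z.im (Bz s ω z π) (Bz_dis s ω π z) hz m hm hm1 h.1 (π.1 h).1 m m hin hin e
      (min_le_left _ _) (not_lt.1 c1) (not_lt.1 c2) (not_lt.1 c3) b c).trans ?_
    have : e ≤ δ / C := min_le_right _ _
    rw [le_div_iff₀ hC] at this
    linarith
  refine hle.trans ?_
  rw [avg_add, avg_add, avg_const_mul, avg_const_mul, avg_const_mul,
    avg_equiv π.1 fun h => ‖Zh s ω z m π h‖ ^ 2]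
  have b1 := stB_nonneg s ω π z m
  have b2 := stT_nonneg s ω π z m
  change K * stB s ω z m π + K * stB s ω z m π + 1 / e ^ 2 * stT s ω z m π ≤ _
  have : 0 ≤ K := by positivity
  have : 0 ≤ 1 / e ^ 2 := by positivity
  nlinarith [mul_nonneg ‹0 ≤ K› b2, mul_nonneg this b1]

end Crest.Agent.R166.PA
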