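import Crest.Agent.R166.A.Boot
import Crest.Agent.R166.A.Meas
import Crest.Agent.R166.A.Q0

/-! # Part A: tightness without disorder -/

set_option autoImplicit false
set_option linter.unusedVariables false
set_option linter.unusedSectionVars false

open MeasureTheory ProbabilityTheory Filter Topology Matrix
open scoped ENNReal BoundedContinuousFunction

namespace Crest.Agent.R166.PA

/-- `POm_dirac`, `ham_J0` (so `s = 0`), `T = 2`: `frac (2 < ‖Mh‖) ≤ frac (1/2 < ‖Mh - m‖) ≤ C stB` (`frac_far_le`),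
`stB (load mc) ≤ sB + C η` (`scale_stB`), `boot` with `δ₀ = ε/(2C)` -/
theorem tight_clean {D : ℕ} (hD : 2 ≤ D) {κ c₀ η₁ C₀ : ℝ} (hb : Band D κ c₀ η₁ C₀) (s : ℝ) {E : ℝ}
    (hE : E ^ 2 ≤ 4 * D - κ) : Tight D s (Measure.dirac J0) E := by
  intro ε hε
  have hc := hb.1
  have hη₁ := hb.2.1
  have hη₁' := hb.2.2.1
  have hC₀ := hb.2.2.2.1
  have hR := (hb.2.2.2.2 E hE).1
  have hmim : 0 < (mc D E).im := hc.trans_le hR.mim
  obtain ⟨Cf, hCf, hfar⟩ := frac_far_le hD hc (by norm_num : (0 : ℝ) < 1 / 2)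
  obtain ⟨Cs, hCs, hscale⟩ := scale_stB hc
  obtain ⟨s₀, hs₀, hboot⟩ := boot hD hb (by positivity : 0 < ε / (2 * Cf))
  obtain ⟨K₀, hK₀, hbt⟩ := hboot ε hε
  refine ⟨2, K₀, fun K hK hK0 => ?_⟩
  filter_upwards [hbt, (tendsto_const_div_atTop_nhds_zero_nat K).eventually (ge_mem_nhds hη₁),
    (tendsto_const_div_atTop_nhds_zero_nat K).eventually
      (ge_mem_nhds (by positivity : 0 < ε / (2 * Cf) / (Cs * C₀ + 1))), eventually_gt_atTop 0]
    with n h2 h5 h7 h8
  have hn : (0 : ℝ) < n := by exact_mod_cast h8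
  have hη : 0 < K / n := by positivity
  have hz : 0 < (E + ((K / n : ℝ) : ℂ) * Complex.I : ℂ).im := by simpa using hη
  obtain ⟨hRz, hmz, -⟩ := (hb.2.2.2.2 E hE).2 (K / n) hη h5
  refine (POm_dirac _).trans (ENNReal.ofReal_le_ofReal ?_)
  refine le_trans (frac_mono fun π hπ => ?_) (h2 0 (by simpa using hs₀.le) E hE fun _ => J0)
  refine ⟨K / n, by gcongr, h5, ?_⟩
  by_contra c1
  rw [not_lt] at c1
  have hM : ∀ h, Mh s (fun _ => J0) (E + (K / n : ℝ) * Complex.I) (mc D E) π h =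
      Mh 0 (fun _ => J0) (E + (K / n : ℝ) * Complex.I) (mc D E) π h := fun h => by
    unfold Mh Nh Sh Bz; rw [ham_J0]
  have hBm : stB 0 (fun _ => J0) (E + (K / n : ℝ) * Complex.I) (mc D E) π ≤ ε / Cf := by
    have := hscale n D 0 (fun _ => J0) E (K / n) (K / n) 0
      (mz D (E + ((K / n : ℝ) : ℂ) * Complex.I)) (mc D E)
      hη hη (h5.trans hη₁') (h5.trans hη₁') (by simp) (by simp) hRz.mim hR.mim
      (ref_norm_le hRz hD) (ref_norm_le hR hD) π
    have h9 := (abs_le.1 this).1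
    have h10 : Cs * (0 + ‖mz D (E + ((K / n : ℝ) : ℂ) * Complex.I) - mc D E‖) ≤ ε / (2 * Cf) := by
      rw [zero_add]
      have h11 : K / n * (Cs * C₀ + 1) ≤ ε / (2 * Cf) := (le_div_iff₀ (by positivity)).1 h7
      calc _ ≤ Cs * (C₀ * (K / n)) := by gcongr
        _ ≤ _ := by nlinarith
    have h12 : ε / Cf = ε / (2 * Cf) + ε / (2 * Cf) := by field_simp; ring
    unfold sB at c1
    linarith
  have h13 := hfar E (mc D E) hR (HE n D) _ fun h =>
    (Mh_im_pos 0 (fun _ => J0) π h hz hmim).le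
  have h14 : Cf * stB 0 (fun _ => J0) (E + (K / n : ℝ) * Complex.I) (mc D E) π ≤ Cf * (ε / Cf) := by
    gcongr
  rw [mul_div_cancel₀ _ hCf.ne'] at h14
  have h15 : tailM s (fun _ => J0) (E + (K / n : ℝ) * Complex.I) (mc D E) 2 π ≤ ε := by
    refine le_trans (frac_mono fun h hh => ?_) (h13.trans h14)
    rw [hM] at hh
    have := norm_sub_norm_le (Mh 0 (fun _ => J0) (E + (K / n : ℝ) * Complex.I) (mc D E) π h) (mc D E)
    linarith [ref_norm_le hR hD]
  exact absurd hπ (not_lt.2 h15)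

end Crest.Agent.R166.PA
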