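import Crest.Agent.R166.A.Meas
import Crest.Agent.R166.A.Edge

/-! # Part A: trace law and eigenvector integrability -/

set_option autoImplicit false
set_option linter.unusedVariables false
set_option linter.unusedSectionVars false

open MeasureTheory ProbabilityTheory Filter Topology Matrix
open scoped ENNReal BoundedContinuousFunction

namespace Crest.Agent.R166.PA

theorem Tr_pos {D : ℕ} (s E : ℝ) (j : ℕ) (e : Env D × Env D) :
    0 < (gE (mT s (zj E j) e.1) (mT s (zj E j) e.2) 0 0).im :=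
  gE00_im_pos (mT_im_pos (zj_im_pos E j) _) (mT_im_pos (zj_im_pos E j) _)

theorem Tr_cont {D : ℕ} (s E : ℝ) (j : ℕ) (L : ℝ) : Continuous fun e : Env D × Env D =>
    min (gE (mT s (zj E j) e.1) (mT s (zj E j) e.2) 0 0).im L := by
  have h := continuous_mT (D := D) (s := s) (zj_im_pos E j)
  refine (Complex.continuous_im.comp (continuous_iff_continuousAt.2 fun e => ?_)).min
    continuous_const
  exact (continuousAt_gE00 (mT_im_pos (zj_im_pos E j) e.1)
    (mT_im_pos (zj_im_pos E j) e.2)).tendsto.comp ((h.prodMap h).tendsto e)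

/-- the tree side -/
theorem Tr_tree {D : ℕ} {s E : ℝ} (β : Measure J) [IsProbabilityMeasure β] (hT : TreeOK D s β E)
    {δ : ℝ} (hδ : 0 < δ) (L₁ : ℝ) : ∃ L : ℝ, 0 ≤ L ∧ L₁ ≤ L ∧ ∀ᶠ j in atTop,
      |∫ e, min (gE (mT s (zj E j) e.1) (mT s (zj E j) e.2) 0 0).im L
        ∂((envLaw D β).prod (envLaw D β)) - Real.pi * rho D s β E| ≤ 2 * δ := by
  have h1 := tendsto_integral_of_dominated_convergence
    (F := fun (N : ℕ) (e : Env D × Env D) => min (gE (m0 s E e.1) (m0 s E e.2) 0 0).im (N : ℝ)) _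
    (fun N => (hT.2.1.1.aemeasurable.min aemeasurable_const).aestronglyMeasurable) hT.2.1.abs
    (fun N => ae_of_all _ fun e => abs_le.2 ⟨le_min (neg_abs_le _)
      ((neg_nonpos.2 (abs_nonneg _)).trans N.cast_nonneg), (min_le_left _ _).trans (le_abs_self _)⟩)
    (ae_of_all _ fun e => tendsto_const_nhds.congr' ((tendsto_natCast_atTop_atTop.eventually
      (eventually_ge_atTop _)).mono fun N hN => (min_eq_left hN).symm))
  obtain ⟨N, h2, h3⟩ := ((Metric.tendsto_nhds.1 h1 δ hδ).and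
    ((tendsto_natCast_atTop_atTop (R := ℝ)).eventually (eventually_ge_atTop L₁))).exists
  have h4 := tendsto_integral_of_dominated_convergence (μ := (envLaw D β).prod (envLaw D β))
    (f := fun e => min (gE (m0 s E e.1) (m0 s E e.2) 0 0).im (N : ℝ)) (fun _ => (N : ℝ))
    (fun j => (Tr_cont s E j N).aestronglyMeasurable) (integrable_const _)
    (fun j => ae_of_all _ fun e => (abs_of_nonneg (le_min (Tr_pos s E j e).le N.cast_nonneg)).trans_le
      (min_le_right _ _)) (by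
      filter_upwards [Measure.quasiMeasurePreserving_fst.ae hT.1,
        Measure.quasiMeasurePreserving_snd.ae hT.1] with e a b
      exact ((Complex.continuous_im.tendsto _).comp ((continuousAt_gE00 a.2 b.2).tendsto.comp
        (a.1.prodMk_nhds b.1))).min tendsto_const_nhds)
  refine ⟨N, N.cast_nonneg, h3, (Metric.tendsto_nhds.1 h4 δ hδ).mono fun j hj => ?_⟩
  rw [rho, mul_div_cancel₀ _ Real.pi_ne_zero]
  rw [Real.dist_eq] at h2 hj
  exact (abs_sub_le _ _ _).trans (by linarith)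

/-- `φ_L y = max 0 (min y L)` (1-Lipschitz, bounded).  `|avg Im G - avg φ_L(Im G)| ≤ topY L` (`Im G ≥ 0`);
`avg_h |φ_L(Im G_{h.1 h.1}) - φ_L(Im gE_j 0 0)| ≤ ε₁ + L ε₁` off the `LocLaw` event (`avg_HE_fst`, `avg_le_add_frac`);
`env_lln_edge` for `e ↦ φ_L (Im gE (mT e.1) (mT e.2) 0 0)` (continuous: `1 - m m' ≠ 0`); dominated convergence `j → ∞`
(`TreeOK.1` in both coordinates) and `L → ∞` (`TreeOK.2.1`, `Im gE ≥ 0`); `π ρ = ∫ Im gE`.  Enlarge `L` (`topY` decreases in `L ≥ 0`). -/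
theorem trlaw_of {D : ℕ} {s E : ℝ} (β : Measure J) [IsProbabilityMeasure β] (hT : TreeOK D s β E)
    (hL : LocLaw D s β E) (hU : UIG D s β E) : TrLaw D s β E := by
  intro ε hε
  have hδ : 0 < ε / 5 := by positivity
  obtain ⟨K₁, h1⟩ := hU _ hδ
  obtain ⟨L₁, h1⟩ := h1 _ hδ
  obtain ⟨L, L0, L1, h2⟩ := Tr_tree β hT hδ L₁
  have hε₁ : 0 < ε / 5 / (1 + L) := by positivity
  obtain ⟨K₂, j₀, h3⟩ := hL _ hε₁
  obtain ⟨j, h2, hj⟩ := (h2.and (eventually_ge_atTop j₀)).exists
  refine ⟨max K₁ K₂, fun K hK K0 => ?_⟩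
  filter_upwards [h1 K (le_of_max_le_left hK) K0, h3 K (le_of_max_le_right hK) K0 j hj,
    env_lln_edge D β ⟨_, Tr_cont s E j L⟩ hδ, eventually_gt_atTop 0] with n a b c n0
  have b' := b.trans (ENNReal.ofReal_le_ofReal (div_le_self hδ.le (by linarith)))
  refine (measure_mono fun o ho => ?_).trans ((measure_union_le _ _).trans ((add_le_add
    ((measure_union_le _ _).trans (add_le_add a b')) c).trans ?_))
  swap
  · rw [← ENNReal.ofReal_add hδ.le hδ.le, ← ENNReal.ofReal_add (by positivity) hδ.le]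
    exact ENNReal.ofReal_le_ofReal (by linarith)
  by_contra hc
  simp only [Set.mem_union, Set.mem_ofPred_eq, not_or, not_lt, ContinuousMap.coe_mk] at hc ho
  obtain ⟨⟨a, b⟩, c⟩ := hc
  have hz : (E + (K / n : ℝ) * Complex.I : ℂ).im = K / n := by simp
  have hz0 : 0 < (E + (K / n : ℝ) * Complex.I : ℂ).im := by rw [hz]; positivity
  generalize (E + (K / n : ℝ) * Complex.I : ℂ) = z at *
  have G0 : ∀ x, 0 ≤ (res (ham s o.1.1 o.2) z x x).im := fun x => by
    rw [ward_diag (ham_isSymm o.1.2.1 s o.2) hz0.ne']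
    positivity
  have e1 : |(avg fun x => (res (ham s o.1.1 o.2) z x x).im) -
      avg fun x => min (res (ham s o.1.1 o.2) z x x).im L| ≤ ε / 5 := by
    rw [← avg_sub]
    refine (abs_avg_le _).trans ((avg_mono fun x => ?_).trans a)
    rw [abs_of_nonneg (sub_nonneg.2 (min_le_left _ _))]
    split_ifs with h
    · exact sub_le_self _ (le_min (G0 x) L0)
    · rw [min_eq_left ((not_lt.1 h).trans L1), sub_self]
  have e2 : |(avg fun x => min (res (ham s o.1.1 o.2) z x x).im L) - avg fun h : HE n D =>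
      min (gE (mT s (zj E j) (envH o.1.1 o.2 h)) (mT s (zj E j) (envH o.1.1 o.2 (o.1.1 h))) 0 0).im
        L| ≤ ε / 5 := by
    rw [← avg_HE_fst (D := D), ← avg_sub]
    refine (abs_avg_le _).trans ((avg_le_add_frac hε₁.le L0 (fun h hh => ?_) fun h => ?_).trans
      ((add_le_add_right (mul_le_mul_of_nonneg_left b L0) _).trans (le_of_eq (by field_simp))))
    · refine (abs_min_sub_min_le_max _ _ _ _).trans (max_le ?_ (by simpa using hε₁.le))
      rw [← Complex.sub_im]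
      exact (Complex.abs_im_le_norm _).trans (not_lt.1 fun h' => hh ⟨0, 0, h'⟩)
    · have p1 := le_min (G0 h.1) L0
      have p2 := le_min (Tr_pos s E j (envH o.1.1 o.2 h, envH o.1.1 o.2 (o.1.1 h))).le L0
      exact abs_sub_le_iff.2 ⟨(sub_le_self _ p2).trans (min_le_right _ _),
        (sub_le_self _ p1).trans (min_le_right _ _)⟩
  rw [abs_le] at e1 e2 c h2
  exact ho.not_ge (abs_le.2 ⟨by linarith, by linarith⟩)

/-- `(H - z)⁻¹ X = X/(λ - z)`; Ward and Cauchy-Schwarz: `X_x²/‖λ - z‖² = ‖⟨G δ_x, X⟩‖² ≤ n ∑‖G y x‖² = n Im G_xx/η`, and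
`‖λ - z‖² ≤ 2η²` -/
theorem eig_sq_le {n : ℕ} {H : Matrix (Fin n) (Fin n) ℝ} (hH : H.IsSymm) {E R K : ℝ} (hK : 0 < K)
    (hRK : R ≤ K) {X : Fin 1 → Fin n → ℝ} (hX : EigSys H E R 1 X) (x : Fin n) :
    X 0 x ^ 2 ≤ 2 * K * (res H (E + (K / n : ℝ) * Complex.I) x x).im := by
  have n0 : (0 : ℝ) < n := by exact_mod_cast x.pos
  obtain ⟨lam, h1, h2⟩ := hX.2 0
  have h3 := hX.1 0 0
  rw [if_pos rfl] at h3
  have hz : (E + (K / n : ℝ) * Complex.I : ℂ).im = K / n := by simp
  have hr : (E + (K / n : ℝ) * Complex.I : ℂ).re = E := by simp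
  generalize (E + (K / n : ℝ) * Complex.I : ℂ) = z at *
  have hz0 : z.im ≠ 0 := by rw [hz]; positivity
  have e1 : (cx H - z • 1) *ᵥ (fun y => (X 0 y : ℂ)) = (lam - z) • fun y => (X 0 y : ℂ) := by
    funext y
    have := congrArg (fun r : ℝ => (r : ℂ)) (congrFun h2 y)
    simp only [Matrix.mulVec, dotProduct, Complex.ofReal_sum, Complex.ofReal_mul, Pi.smul_apply,
      smul_eq_mul] at this
    rw [Matrix.sub_mulVec, Matrix.smul_mulVec, Matrix.one_mulVec]
    simp only [Matrix.mulVec, dotProduct, cx_apply, Pi.sub_apply, Pi.smul_apply, smul_eq_mul, this]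
    ring
  have e2 := congrFun (congrArg (res H z *ᵥ ·) e1) x
  simp only [Matrix.mulVec_mulVec, res_mul hH hz0, Matrix.one_mulVec, Matrix.mulVec_smul,
    Pi.smul_apply, smul_eq_mul] at e2
  have e3 : ‖(lam - z : ℂ)‖ ^ 2 ≤ 2 * (K / n) ^ 2 := by
    rw [Complex.sq_norm, Complex.normSq_apply, Complex.sub_re, Complex.sub_im, Complex.ofReal_re,
      Complex.ofReal_im, hr, hz]
    have := sq_le_sq' (abs_le.1 (h1.trans (div_le_div_of_nonneg_right hRK n0.le))).1
      (abs_le.1 (h1.trans (div_le_div_of_nonneg_right hRK n0.le))).2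
    linarith
  have e4 : ‖(res H z *ᵥ fun y => (X 0 y : ℂ)) x‖ ^ 2 ≤ (∑ y, ‖res H z y x‖ ^ 2) * n := by
    rw [Matrix.mulVec, dotProduct]
    refine (pow_le_pow_left₀ (norm_nonneg _) (norm_sum_le _ _) 2).trans ?_
    simp only [norm_mul, Complex.norm_real, Real.norm_eq_abs, res_symm' hH z x]
    refine (Finset.sum_mul_sq_le_sq_mul_sq _ _ _).trans (le_of_eq ?_)
    simp only [sq_abs, ← h3, sq (X 0 _)]
  rw [← sq_abs, ← Real.norm_eq_abs, ← Complex.norm_real, e2, norm_mul, mul_pow, ward_diag hH hz0, hz]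
  refine (mul_le_mul e3 e4 (by positivity) (by positivity)).trans (le_of_eq ?_)
  field_simp

/-- `K = max K₀ (max R 1)`, `ε' = ε/(2K)`, level `2 K L` -/
theorem uieig_of {D : ℕ} {s E : ℝ} (β : Measure J) (hU : UIG D s β E) : UIEig D s β E := by
  intro R ε hε
  obtain ⟨K₀, h⟩ := hU ε hε
  obtain ⟨K, h1, h2, h3⟩ : ∃ K, K₀ ≤ K ∧ R ≤ K ∧ 0 < K := ⟨max K₀ (max R 1), le_max_left _ _,
    le_max_of_le_right (le_max_left _ _), lt_max_of_lt_right (lt_max_of_lt_right one_pos)⟩
  obtain ⟨L, h⟩ := h (ε / (2 * K)) (by positivity)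
  refine ⟨2 * K * L, (h K h1 h3).mono fun n hn => (measure_mono fun o ho => ?_).trans hn⟩
  obtain ⟨X, hX, ho⟩ := ho
  change _ < topY _ _ _ _ _
  rw [div_lt_iff₀' (by positivity), topY, ← avg_const_mul]
  refine ho.trans_le (avg_mono fun x => ?_)
  have h4 := eig_sq_le (ham_isSymm o.1.2.1 s o.2) h3 h2 hX x
  split_ifs with h5 h6 h6
  · exact h4
  · exact absurd (lt_of_mul_lt_mul_left (h5.trans_le h4) (by positivity)) h6
  · exact (sq_nonneg _).trans h4
  · rw [mul_zero]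

end Crest.Agent.R166.PA
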