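import Crest.Agent.R166.A.Meas
import Crest.Agent.R166.T2

/-! # Part A: tree facts transported to the graph -/

set_option autoImplicit false
set_option linter.unusedVariables false
set_option linter.unusedSectionVars false

open MeasureTheory ProbabilityTheory Filter Topology Matrix
open scoped ENNReal BoundedContinuousFunction

namespace Crest.Agent.R166.PA

theorem TreeE_zj (E : ℝ) (j : ℕ) : 0 < (zj E j).im := by
  simp only [zj, Complex.add_im, Complex.ofReal_im, Complex.mul_im, Complex.ofReal_re,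
    Complex.I_im, Complex.I_re, mul_one, mul_zero, add_zero, zero_add]
  positivity

theorem TreeE_gen {D : ℕ} (β : Measure J) [IsProbabilityMeasure β] {g : Env D → ℝ}
    (hg : Continuous g) {τ : ℝ} (hτ : (envLaw D β).real {e | 0 ≤ g e} ≤ τ) {ε : ℝ} (hε : 0 < ε) :
    ∀ᶠ n in atTop, POm n D β {o | 2 * τ + ε < frac fun h : HE n D =>
      1 ≤ g (envH o.1.1 o.2 h) ∨ 1 ≤ g (envH o.1.1 o.2 (o.1.1 h))} ≤ ENNReal.ofReal ε := by
  have : IsProbabilityMeasure (envLaw D β) := by unfold envLaw; infer_instance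
  set φ : Env D → ℝ := fun e => min 1 (max 0 (g e)) with hφ
  have hφc : Continuous φ := continuous_const.min (continuous_const.max hg)
  have hφ0 : ∀ e, 0 ≤ φ e := fun e => le_min zero_le_one (le_max_left _ _)
  have hφi : Integrable φ (envLaw D β) :=
    hφc.integrable_of_hasCompactSupport (HasCompactSupport.of_compactSpace _)
  have hS : MeasurableSet {e | 0 ≤ g e} := (isClosed_le continuous_const hg).measurableSet
  have hφτ : ∫ e, φ e ∂(envLaw D β) ≤ τ := by
    refine le_trans ?_ hτ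
    rw [← integral_indicator_one hS]
    refine integral_mono hφi ((integrable_const _).indicator hS) fun e => ?_
    by_cases he : 0 ≤ g e
    · rw [Set.indicator_of_mem (show e ∈ {e | 0 ≤ g e} from he)]
      exact min_le_left _ _
    · rw [Set.indicator_of_notMem (show e ∉ {e | 0 ≤ g e} from he)]
      exact (min_le_right _ _).trans (max_le le_rfl (not_le.1 he).le)
  let f : C(Env D × Env D, ℝ) := ⟨fun e => φ e.1 + φ e.2,
    (hφc.comp continuous_fst).add (hφc.comp continuous_snd)⟩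
  have hf : ∫ e, f e ∂((envLaw D β).prod (envLaw D β)) ≤ 2 * τ := by
    simp only [f, ContinuousMap.coe_mk]
    rw [integral_add (hφi.comp_fst _) (hφi.comp_snd _), integral_fun_fst, integral_fun_snd]
    simp only [probReal_univ, one_smul]
    linarith
  filter_upwards [env_lln_edge D β f hε] with n hn
  refine le_trans (measure_mono fun o ho => ?_) hn
  have h1 : 2 * τ + ε < frac fun h : HE n D =>
      1 ≤ g (envH o.1.1 o.2 h) ∨ 1 ≤ g (envH o.1.1 o.2 (o.1.1 h)) := ho
  have h2 : (frac fun h : HE n D =>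
      1 ≤ g (envH o.1.1 o.2 h) ∨ 1 ≤ g (envH o.1.1 o.2 (o.1.1 h))) ≤
      avg fun h : HE n D => f (envH o.1.1 o.2 h, envH o.1.1 o.2 (o.1.1 h)) := by
    have h3 : ∀ e, 1 ≤ g e → φ e = 1 := fun e he => min_eq_left (he.trans (le_max_right _ _))
    refine frac_le_avg (fun h => add_nonneg (hφ0 _) (hφ0 _)) fun h hh => ?_
    show 1 ≤ φ _ + φ _
    rcases hh with hh | hh
    · rw [h3 _ hh]; linarith [hφ0 (envH o.1.1 o.2 (o.1.1 h))]
    · rw [h3 _ hh]; linarith [hφ0 (envH o.1.1 o.2 h)]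
  rw [Set.mem_ofPred_eq]
  refine lt_of_lt_of_le ?_ (le_abs_self _)
  linarith

/-- `tree_close` with `(δ/2, τ/2)`; `env_lln_edge` for the continuous `f e = min 1 (max 0 (2‖mT e.1 - mc‖/δ - 1))`,
which is `1` where `‖mT - mc‖ ≥ δ` and `0` where `‖mT - mc‖ ≤ δ/2` -/
theorem tree_close_emp {D : ℕ} (hD : 2 ≤ D) {κ δ τ : ℝ} (hκ : 0 < κ) (hδ : 0 < δ) (hτ : 0 < τ) :
    ∃ (s₀ : ℝ) (j₀ : ℕ), 0 < s₀ ∧ ∀ s : ℝ, 0 ≤ s → s < s₀ → ∀ (β : Measure J) [IsProbabilityMeasure β]
      (E : ℝ), E ^ 2 ≤ 4 * D - κ → ∀ j, j₀ ≤ j → ∀ ε : ℝ, 0 < ε → ∀ᶠ n in atTop,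
        POm n D β {o | τ < frac fun h : HE n D => δ < ‖mE s o.2 (zj E j) o.1 h - mc D E‖} ≤
          ENNReal.ofReal ε := by
  obtain ⟨s₀, j₀, hs₀, H⟩ := tree_close hD hκ (half_pos hδ) (by positivity : 0 < τ / 4)
  refine ⟨s₀, j₀, hs₀, fun s hs hs' β _ E hE j hj ε hε => ?_⟩
  have hg : Continuous fun e : Env D => 2 * ‖mT s (zj E j) e - mc D E‖ / δ - 1 :=
    ((continuous_const.mul ((continuous_mT (TreeE_zj E j)).sub continuous_const).norm).div_const
      _).sub continuous_const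
  have h1 : {e : Env D | 0 ≤ 2 * ‖mT s (zj E j) e - mc D E‖ / δ - 1} =
      {e | δ / 2 ≤ ‖mT s (zj E j) e - mc D E‖} := by
    ext e
    simp only [Set.mem_ofPred_eq, sub_nonneg, one_le_div hδ]
    constructor <;> intro h <;> linarith
  filter_upwards [TreeE_gen β hg (h1 ▸ H s hs hs' β E hE j hj) (lt_min hε (half_pos hτ))] with n hn
  refine le_trans (measure_mono fun o ho => ?_) (hn.trans (ENNReal.ofReal_le_ofReal (min_le_left _ _)))
  have h2 : τ < frac fun h : HE n D => δ < ‖mE s o.2 (zj E j) o.1 h - mc D E‖ := ho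
  refine lt_of_le_of_lt (by linarith [min_le_right ε (τ / 2)]) (h2.trans_le (frac_mono fun h hh => Or.inl ?_))
  rw [le_sub_iff_add_le, le_div_iff₀ hδ]
  have : δ < ‖mT s (zj E j) (envH o.1.1 o.2 h) - mc D E‖ := hh
  linarith

/-- `mT (zj j) → m0` a.e. with `Im m0 > 0`: the sets `{e | ∀ j ≥ N, InK' N (mT (zj j) e)}` (with room to spare) increase to
full measure, so for some `T, j₀` and all `j ≥ j₀`, `envLaw {¬ InK (T/2) (mT (zj j) e)} ≤ ε/8`; then `env_lln_edge` for a
continuous `f` with `1_{¬ InK T} ≤ f ≤ 1_{¬ InK (T/2)}` in each coordinate -/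
theorem tree_tight {D : ℕ} {s E : ℝ} (β : Measure J) [IsProbabilityMeasure β] (hT : TreeOK D s β E) :
    TreeTight D s β E := by
  have : IsProbabilityMeasure (envLaw D β) := by unfold envLaw; infer_instance
  intro ε hε
  set G : ℂ → ℝ := fun M => max ‖M‖ (M.im)⁻¹ with hG
  have hGc : ∀ j, Continuous fun e : Env D => G (mT s (zj E j) e) := fun j =>
    (continuous_mT (TreeE_zj E j)).norm.max
      ((Complex.continuous_im.comp (continuous_mT (TreeE_zj E j))).inv₀
        fun e => (mT_im_pos (TreeE_zj E j) e).ne')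
  set A : ℕ → Set (Env D) := fun N => ⋃ j, ⋃ (_ : N ≤ j), {e | (N : ℝ) ≤ G (mT s (zj E j) e)}
    with hA
  have hAm : ∀ N, MeasurableSet (A N) := fun N =>
    MeasurableSet.iUnion fun j => MeasurableSet.iUnion fun _ =>
      (isClosed_le continuous_const (hGc j)).measurableSet
  have hAa : Antitone A := by
    intro N N' hN e he
    simp only [hA, Set.mem_iUnion, Set.mem_ofPred_eq] at he ⊢
    obtain ⟨j, hj, he⟩ := he
    exact ⟨j, hN.trans hj, le_trans (by exact_mod_cast hN) he⟩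
  have hA0 : envLaw D β (⋂ N, A N) = 0 := by
    refine measure_mono_null (fun e he => ?_) (ae_iff.1 hT.1)
    rintro ⟨h1, h2⟩
    have h3 : Tendsto (fun j => G (mT s (zj E j) e)) atTop (𝓝 (G (m0 s E e))) :=
      h1.norm.max (((Complex.continuous_im.tendsto _).comp h1).inv₀ h2.ne')
    obtain ⟨j₁, hj₁⟩ := eventually_atTop.1 (h3.eventually (gt_mem_nhds (lt_add_one _)))
    obtain ⟨N, hN⟩ := exists_nat_ge (G (m0 s E e) + 1)
    have h4 := Set.mem_iInter.1 he (max N j₁)
    simp only [hA, Set.mem_iUnion, Set.mem_ofPred_eq] at h4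
    obtain ⟨j, hj, h4⟩ := h4
    have h5 := hj₁ j ((le_max_right _ _).trans hj)
    have h6 : (N : ℝ) ≤ (max N j₁ : ℕ) := by exact_mod_cast le_max_left _ _
    linarith
  have ht := tendsto_measure_iInter_atTop (μ := envLaw D β) (fun N => (hAm N).nullMeasurableSet) hAa
    ⟨0, measure_ne_top _ _⟩
  rw [hA0] at ht
  obtain ⟨N, hN⟩ := (ht.eventually (gt_mem_nhds
    (ENNReal.ofReal_pos.2 (by positivity : 0 < ε / 4)))).exists
  have hN0 : (0 : ℝ) ≤ N := Nat.cast_nonneg N
  refine ⟨N + 1, N, by linarith, fun j hj => ?_⟩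
  have h1 : (envLaw D β).real {e : Env D | 0 ≤ G (mT s (zj E j) e) - N} ≤ ε / 4 := by
    refine ENNReal.toReal_le_of_le_ofReal (by positivity) (le_trans (measure_mono fun e he => ?_) hN.le)
    simp only [hA, Set.mem_iUnion, Set.mem_ofPred_eq]
    exact ⟨j, hj, sub_nonneg.1 he⟩
  filter_upwards [TreeE_gen β ((hGc j).sub continuous_const) h1 (half_pos hε)] with n hn
  refine le_trans (measure_mono fun o ho => ?_)
    (hn.trans (ENNReal.ofReal_le_ofReal (half_le_self hε.le)))
  have h3 : ∀ e : Env D, ¬ InK (N + 1) (mT s (zj E j) e) → 1 ≤ G (mT s (zj E j) e) - N := by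
    intro e he
    by_contra h4
    have h5 : G (mT s (zj E j) e) ≤ N + 1 := by linarith
    refine he ⟨?_, (le_max_left _ _).trans h5⟩
    rw [one_div]
    exact inv_le_of_inv_le₀ (mT_im_pos (TreeE_zj E j) e) ((le_max_right _ _).trans h5)
  have h2 : ε < frac fun h : HE n D => ¬ (InK (N + 1) (mE s o.2 (zj E j) o.1 h) ∧
      InK (N + 1) (mE s o.2 (zj E j) o.1 (o.1.1 h))) := ho
  refine lt_of_le_of_lt (by linarith) (h2.trans_le (frac_mono fun h hh => ?_))
  rcases not_and_or.1 hh with hh | hh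
  · exact Or.inl (h3 _ hh)
  · exact Or.inr (h3 _ hh)

end Crest.Agent.R166.PA
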