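import Crest.Agent.R166.A.UIc1
import Crest.Agent.R166.A.CStep
import Crest.Agent.R166.A.Meas

/-! # Part A: uniform integrability without disorder -/

set_option autoImplicit false
set_option linter.unusedVariables false
set_option linter.unusedSectionVars false

open MeasureTheory ProbabilityTheory Filter Topology Matrix
open scoped ENNReal BoundedContinuousFunction

namespace Crest.Agent.R166.PA

open Classical in
/-- dyadic decomposition: `y = Im G_xx(η) > L₁ 2^{j₁}` has `L₁ 2^j < y ≤ L₁ 2^{j+1}` for some `j ≥ j₁`; then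
`Im G_xx(2^j η) ≥ y/2^j > L₁` (`im_res_diag_mono`), which with `Im G ≤ ‖G‖ ≤ 1/height` forces `2^j η ≤ η₁`, and `j < N`. -/
theorem top_dyadic {n : ℕ} {H : Matrix (Fin n) (Fin n) ℝ} (hH : H.IsSymm) (E : ℝ) {η η₁ L₁ : ℝ}
    (hη : 0 < η) (hη₁ : 0 < η₁) (hL : 1 / η₁ ≤ L₁) (j₁ N : ℕ) (hN : η₁ < 2 ^ N * η) (x : Fin n) :
    (if L₁ * 2 ^ j₁ < (res H (E + η * Complex.I) x x).im then (res H (E + η * Complex.I) x x).im else 0) ≤
      ∑ j ∈ Finset.Ico j₁ N, L₁ * 2 ^ (j + 1) *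
        if 2 ^ j * η ≤ η₁ ∧ L₁ < ‖res H (E + (2 ^ j * η : ℝ) * Complex.I) x x‖ then 1 else 0 := by
  have hL0 : 0 < L₁ := lt_of_lt_of_le (by positivity) hL
  have hnn : ∀ j ∈ Finset.Ico j₁ N, 0 ≤ L₁ * 2 ^ (j + 1) *
      if 2 ^ j * η ≤ η₁ ∧ L₁ < ‖res H (E + (2 ^ j * η : ℝ) * Complex.I) x x‖ then (1 : ℝ) else 0 := by
    intro j _
    split_ifs <;> positivity
  split_ifs with hy
  swap
  · exact Finset.sum_nonneg hnn
  set y := (res H (E + η * Complex.I) x x).im with hydef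
  have hex : ∃ k : ℕ, y ≤ L₁ * 2 ^ k := by
    obtain ⟨k, hk⟩ := pow_unbounded_of_one_lt (y / L₁) (by norm_num : (1 : ℝ) < 2)
    exact ⟨k, by rw [div_lt_iff₀ hL0] at hk; linarith⟩
  have hk := Nat.find_spec hex
  have hk1 : j₁ < Nat.find hex := by
    by_contra c
    have : L₁ * 2 ^ Nat.find hex ≤ L₁ * 2 ^ j₁ := by
      gcongr
      · norm_num
      · omega
    linarith
  obtain ⟨j, hj⟩ : ∃ j, Nat.find hex = j + 1 := ⟨Nat.find hex - 1, by omega⟩
  have hlt : L₁ * 2 ^ j < y := not_le.1 (Nat.find_min hex (by omega))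
  rw [hj] at hk hk1
  have h2 : (1 : ℝ) ≤ 2 ^ j := one_le_pow₀ (by norm_num)
  have hb : 0 < 2 ^ j * η := by positivity
  have hmono := im_res_diag_mono hH E hη (b := 2 ^ j * η) (by nlinarith) x
  rw [← hydef] at hmono
  have him : L₁ < (res H (E + (2 ^ j * η : ℝ) * Complex.I) x x).im := by
    by_contra c
    rw [not_lt] at c
    have h3 : 2 ^ j * η * (res H (E + (2 ^ j * η : ℝ) * Complex.I) x x).im ≤ 2 ^ j * η * L₁ := by
      gcongr
    have h4 : η * (L₁ * 2 ^ j) < η * y := by gcongr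
    nlinarith
  have hn1 : L₁ < ‖res H (E + (2 ^ j * η : ℝ) * Complex.I) x x‖ :=
    him.trans_le (Complex.im_le_norm _)
  have hz : ((E : ℂ) + (2 ^ j * η : ℝ) * Complex.I).im = 2 ^ j * η := by
    simp only [Complex.add_im, Complex.ofReal_im, Complex.mul_im, Complex.ofReal_re, Complex.I_im,
      Complex.I_re]
    ring
  have hn2 := norm_res_le (spec1_herm hH) (z := E + (2 ^ j * η : ℝ) * Complex.I)
    (by rw [hz]; exact hb.ne') x x
  rw [hz, abs_of_pos hb, ← one_div] at hn2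
  have hle : 2 ^ j * η < η₁ := lt_of_one_div_lt_one_div hη₁ (hL.trans_lt (hn1.trans_le hn2))
  have hjN : j < N := by
    have : (2 : ℝ) ^ j < 2 ^ N := lt_of_mul_lt_mul_right (hle.trans hN) hη.le
    exact (pow_lt_pow_iff_right₀ (by norm_num : (1 : ℝ) < 2)).1 this
  refine le_trans ?_ (Finset.single_le_sum hnn (Finset.mem_Ico.2 ⟨by omega, hjN⟩))
  rw [if_pos ⟨hle.le, hn1⟩, mul_one]
  exact hk


/-- `POm_dirac`, `ham_J0`; `K₀` from `omc_bound (ε/2)`; `L₁ = max L₀ (1/η₁)`, `L = L₁ 2^{j₁}`.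
`avg_π 1_{OmC} topY ≤ ∑_{j ≥ j₁} L₁ 2^{j+1} C (2 (2^j K)^{-3/4})² ≤ C' 2^{-j₁/2}` (`top_dyadic`, `cstep` at height `2^j K/n` with
`b = (2^j K)^{-3/4} ≥ 1/(2^j K)`, `K ≥ 1`); Markov; `j₁` with `C' 2^{-j₁/2} ≤ ε ε'/2`. -/
theorem uig_clean {D : ℕ} (hD : 2 ≤ D) {κ c₀ η₁ C₀ : ℝ} (hb : Band D κ c₀ η₁ C₀) (s : ℝ) {E : ℝ}
    (hE : E ^ 2 ≤ 4 * D - κ) : UIG D s (Measure.dirac J0) E := by
  classical
  intro ε hε
  have hc := hb.1
  have hη₁ := hb.2.1
  have hη₁' := hb.2.2.1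
  obtain ⟨K₀, hK₀, homc⟩ := omc_bound hD hb hE (half_pos hε)
  obtain ⟨C, L₀, N₀, hC, hL₀, hstep⟩ := cstep hD hc
  refine ⟨K₀, fun ε' hε' => ?_⟩
  set L₁ := max L₀ (1 / η₁) with hL₁
  have hL1 : 0 < L₁ := lt_max_of_lt_left hL₀
  set q : ℝ := (2 : ℝ) ^ (-(3 / 4 : ℝ)) with hq
  have hq0 : 0 < q := Real.rpow_pos_of_pos two_pos _
  set r : ℝ := 2 * q ^ 2 with hr
  have hr0 : 0 < r := by positivity
  have hr1 : r < 1 := by
    have e : r = (2 : ℝ) ^ (-(1 / 2 : ℝ)) := by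
      rw [hr, hq, ← Real.rpow_natCast, ← Real.rpow_mul zero_le_two,
        ← Real.rpow_one_add' zero_le_two (by norm_num)]
      norm_num
    rw [e]
    exact Real.rpow_lt_one_of_one_lt_of_neg one_lt_two (by norm_num)
  have hr2 : 0 < 1 - r := by linarith
  obtain ⟨j₁, hj₁⟩ := exists_pow_lt_of_lt_one
    (by positivity : 0 < ε / 2 * ε' * (1 - r) / (8 * L₁ * C)) hr1
  refine ⟨L₁ * 2 ^ j₁, fun K hK hK0 => ?_⟩
  filter_upwards [homc K hK, eventually_ge_atTop N₀, eventually_gt_atTop 0] with n h1 h2 h3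
  have hn : (0 : ℝ) < n := by exact_mod_cast h3
  have hη : 0 < K / n := by positivity
  obtain ⟨N, hN⟩ := pow_unbounded_of_one_lt (η₁ / (K / n)) (by norm_num : (1 : ℝ) < 2)
  rw [div_lt_iff₀ hη] at hN
  set ω : Fin n → J := fun _ => J0 with hω
  set f : Pairing n D → ℝ := fun π => if OmC ω E η₁ K π then
    topY 0 ω (E + (K / n : ℝ) * Complex.I) (L₁ * 2 ^ j₁) π else 0 with hf
  have hf0 : ∀ π, 0 ≤ f π := by
    intro π
    simp only [hf]
    split_ifs
    · refine avg_nonneg fun x => ?_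
      split_ifs with h
      · exact le_trans (by positivity) h.le
      · exact le_rfl
    · exact le_rfl
  set g : ℕ → Pairing n D → ℝ := fun j π => if 2 ^ j * (K / n) ≤ η₁ then
    frac fun o => sB 0 ω E (2 ^ j * (K / n)) π ≤ (2 ^ j * K) ^ (-(3 / 4 : ℝ)) ∧
      sT 0 ω E (2 ^ j * (K / n)) π ≤ (2 ^ j * K) ^ (-(3 / 4 : ℝ)) ∧
      L₀ < ‖res (ham 0 π.1 ω) (E + (2 ^ j * (K / n) : ℝ) * Complex.I) o o‖ else 0 with hg
  have hg0 : ∀ j π, 0 ≤ g j π := by
    intro j π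
    simp only [hg]
    split_ifs
    · exact frac_nonneg _
    · exact le_rfl
  have hfg : ∀ π, f π ≤ ∑ j ∈ Finset.Ico j₁ N, L₁ * 2 ^ (j + 1) * g j π := by
    intro π
    simp only [hf]
    split_ifs with hπ
    swap
    · exact Finset.sum_nonneg fun j _ => mul_nonneg (by positivity) (hg0 j π)
    refine (avg_mono fun x => top_dyadic (ham_isSymm π.2.1 0 ω) E hη hη₁ (le_max_right L₀ _)
      j₁ N hN x).trans ?_
    rw [avg_finset_sum]
    refine Finset.sum_le_sum fun j _ => ?_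
    rw [avg_const_mul]
    refine mul_le_mul_of_nonneg_left ?_ (by positivity)
    simp only [hg]
    split_ifs with hj
    · refine avg_mono fun x => ?_
      split_ifs with c1 c2
      · exact le_rfl
      · exact absurd ⟨(hπ j hj).1, (hπ j hj).2, (le_max_left _ _).trans_lt c1.2⟩ c2
      · exact zero_le_one
      · exact le_rfl
    · refine avg_le_of_le le_rfl fun x => ?_
      rw [if_neg fun c => hj c.1]
  have hga : ∀ j, avg (g j) ≤ C * (2 * q ^ j) ^ 2 := by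
    intro j
    by_cases hj : 2 ^ j * (K / n) ≤ η₁
    swap
    · refine avg_le_of_le (by positivity) fun π => ?_
      simp only [hg, if_neg hj]
      positivity
    have hb0 : 0 < 2 ^ j * (K / n) := by positivity
    have hz : ((E : ℂ) + (2 ^ j * (K / n) : ℝ) * Complex.I).im = 2 ^ j * (K / n) := by
      simp only [Complex.add_im, Complex.ofReal_im, Complex.mul_im, Complex.ofReal_re, Complex.I_im,
        Complex.I_re]
      ring
    obtain ⟨hR, -, -⟩ := (hb.2.2.2.2 E hE).2 _ hb0 hj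
    have hm : ‖mz D (E + (2 ^ j * (K / n) : ℝ) * Complex.I)‖ ^ 2 ≤ 1 / 2 := by
      have h4 := hR.nsq
      have h5 : (2 : ℝ) ≤ D := by exact_mod_cast hD
      nlinarith [sq_nonneg ‖mz D (E + (2 ^ j * (K / n) : ℝ) * Complex.I)‖]
    have h2j : (1 : ℝ) ≤ 2 ^ j := one_le_pow₀ (by norm_num)
    have hK1 : 1 ≤ K := hK₀.trans hK
    have hx1 : 1 ≤ 2 ^ j * K := by nlinarith
    have h6 := hstep n h2 0 ω _ _ (by rw [hz]; exact hb0) (by rw [hz]; exact hj.trans hη₁') hR.mim hm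
      ((2 ^ j * K) ^ (-(3 / 4 : ℝ))) (by positivity)
    have h7 : (2 ^ j * K) ^ (-(3 / 4 : ℝ)) ≤ q ^ j := by
      rw [hq, ← Real.rpow_natCast, ← Real.rpow_natCast, ← Real.rpow_mul zero_le_two, mul_comm (-(3 / 4 : ℝ)),
        Real.rpow_mul zero_le_two, Real.rpow_natCast]
      exact Real.rpow_le_rpow_of_nonpos (by positivity) (by nlinarith) (by norm_num)
    have h8 : 1 / (n * (2 ^ j * (K / n))) ≤ (2 ^ j * K) ^ (-(3 / 4 : ℝ)) := by
      have e : (n : ℝ) * (2 ^ j * (K / n)) = 2 ^ j * K := by field_simp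
      rw [e, one_div, ← Real.rpow_neg_one]
      exact Real.rpow_le_rpow_of_exponent_le hx1 (by norm_num)
    rw [hz] at h6
    simp only [hg, if_pos hj]
    refine le_trans h6 ?_
    gcongr
    linarith
  have havg : avg f ≤ ε / 2 * ε' := by
    refine (avg_mono hfg).trans ?_
    rw [avg_finset_sum]
    calc ∑ j ∈ Finset.Ico j₁ N, avg (fun π => L₁ * 2 ^ (j + 1) * g j π)
        ≤ ∑ j ∈ Finset.Ico j₁ N, 8 * L₁ * C * r ^ j := by
          refine Finset.sum_le_sum fun j _ => ?_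
          rw [avg_const_mul]
          refine (mul_le_mul_of_nonneg_left (hga j) (by positivity)).trans (le_of_eq ?_)
          rw [hr]
          ring
      _ ≤ 8 * L₁ * C * (r ^ j₁ / (1 - r)) := by
          rw [← Finset.mul_sum]
          gcongr
          exact geom_sum_Ico_le_of_lt_one hr0.le hr1
      _ ≤ ε / 2 * ε' := by
          rw [lt_div_iff₀ (by positivity)] at hj₁
          rw [← mul_div_assoc, div_le_iff₀ hr2]
          linarith
  refine (POm_dirac _).trans (ENNReal.ofReal_le_ofReal ?_)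
  refine (frac_mono (Q := fun π => ¬ OmC ω E η₁ K π ∨ ε' < f π) fun π hπ => ?_).trans
    ((frac_or_le _ _).trans ?_)
  · by_cases c : OmC ω E η₁ K π
    · right
      simp only [hf, if_pos c]
      have e : topY s ω (E + (K / n : ℝ) * Complex.I) (L₁ * 2 ^ j₁) π =
          topY 0 ω (E + (K / n : ℝ) * Complex.I) (L₁ * 2 ^ j₁) π := by
        unfold topY
        rw [hω, ham_J0]
      rw [← e]
      exact hπ
    · exact Or.inl c
  · have h9 := frac_markov hε' hf0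
    have h10 : avg f / ε' ≤ ε / 2 := by rwa [div_le_iff₀ hε']
    linarith [h1 ω]


end Crest.Agent.R166.PA
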