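import Crest.Agent.R166.A.Boot
import Crest.Agent.R166.A.Trans

/-! # Part A: the good event of the clean model -/

set_option autoImplicit false
set_option linter.unusedVariables false
set_option linter.unusedSectionVars false

open MeasureTheory ProbabilityTheory Filter Topology Matrix
open scoped ENNReal BoundedContinuousFunction

namespace Crest.Agent.R166.PA

/-- fine bounds at all dyadic heights `2^j K/n ≤ η₁` -/
def OmC {n D : ℕ} (ω : Fin n → J) (E η₁ K : ℝ) (π : Pairing n D) : Prop :=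
  ∀ j : ℕ, 2 ^ j * (K / n) ≤ η₁ → sB 0 ω E (2 ^ j * (K / n)) π ≤ (2 ^ j * K) ^ (-(3 / 4 : ℝ)) ∧
    sT 0 ω E (2 ^ j * (K / n)) π ≤ (2 ^ j * K) ^ (-(3 / 4 : ℝ))

/-- `boot` with `δ₀ = δ₂` of `mom_fine` and `s = 0`; then at height `2^j K/n` the failures have fraction
`≤ C (2^j K)^{-1/4}` (`mom_fine`; `trans_bound` + `frac_markov`); only `j < N` with `2^N K/n > η₁` matter; geometric sum. -/
theorem omc_bound {D : ℕ} (hD : 2 ≤ D) {κ c₀ η₁ C₀ : ℝ} (hb : Band D κ c₀ η₁ C₀) {E : ℝ}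
    (hE : E ^ 2 ≤ 4 * D - κ) {ε : ℝ} (hε : 0 < ε) : ∃ K₀ : ℝ, 1 ≤ K₀ ∧ ∀ K : ℝ, K₀ ≤ K →
      ∀ᶠ n in atTop, ∀ ω : Fin n → J, (frac fun π : Pairing n D => ¬ OmC ω E η₁ K π) ≤ ε := by
  classical
  have hc := hb.1
  have hη₁ := hb.2.1
  have hη₁' := hb.2.2.1
  obtain ⟨δ₂, Cf, hδ₂, hCf, hf⟩ := mom_fine hD hc
  obtain ⟨Ct, hCt, ht⟩ := trans_bound D hc
  obtain ⟨s₀, hs₀, hboot⟩ := boot hD hb hδ₂
  obtain ⟨Kb, hKb, hbt⟩ := hboot (ε / 2) (by positivity)
  set r : ℝ := (2 : ℝ) ^ (-(1 / 4 : ℝ)) with hr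
  have hr0 : 0 < r := by positivity
  have hr1 : r < 1 := Real.rpow_lt_one_of_one_lt_of_neg (by norm_num) (by norm_num)
  have hr2 : 0 < 1 - r := by linarith
  have hlim : Tendsto (fun K : ℝ => (Cf + Ct) * (K ^ (-(1 / 4 : ℝ)) * (1 - r)⁻¹)) atTop (𝓝 0) := by
    have := ((tendsto_rpow_neg_atTop (by norm_num : (0 : ℝ) < 1 / 4)).mul_const (1 - r)⁻¹).const_mul
      (Cf + Ct)
    simpa using this
  obtain ⟨K₁, hK₁⟩ := eventually_atTop.1 (hlim.eventually (ge_mem_nhds (by positivity : 0 < ε / 2)))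
  refine ⟨max 1 (max Kb K₁), le_max_left _ _, fun K hK => ?_⟩
  have hK1 : 1 ≤ K := (le_max_left _ _).trans hK
  have hKb' : Kb ≤ K := ((le_max_left _ _).trans (le_max_right _ _)).trans hK
  have hK₁' := hK₁ K (((le_max_right _ _).trans (le_max_right _ _)).trans hK)
  filter_upwards [hbt, eventually_gt_atTop 0] with n h2 h8 ω
  have hn : (0 : ℝ) < n := by exact_mod_cast h8
  have hη : 0 < K / n := by positivity
  obtain ⟨N, hN⟩ := pow_unbounded_of_one_lt (η₁ / (K / n)) (by norm_num : (1 : ℝ) < 2)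
  rw [div_lt_iff₀ hη] at hN
  set b : ℕ → ℝ := fun j => (2 ^ j * K) ^ (-(3 / 4 : ℝ)) with hbdef
  set Q : ℕ → Pairing n D → Prop := fun j π => 2 ^ j * (K / n) ≤ η₁ ∧
    ((b j < sB 0 ω E (2 ^ j * (K / n)) π ∧ sB 0 ω E (2 ^ j * (K / n)) π ≤ δ₂) ∨
      b j < sT 0 ω E (2 ^ j * (K / n)) π) with hQ
  have hQle : ∀ j, frac (Q j) ≤ (Cf + Ct) * (K ^ (-(1 / 4 : ℝ)) * r ^ j) := by
    intro j
    by_cases hj : 2 ^ j * (K / n) ≤ η₁
    · have hηj : 0 < 2 ^ j * (K / n) := by positivity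
      have hR := ((hb.2.2.2.2 E hE).2 _ hηj hj).1
      have hzim : (E + ((2 ^ j * (K / n) : ℝ) : ℂ) * Complex.I : ℂ).im = 2 ^ j * (K / n) := by
        simp only [Complex.add_im, Complex.ofReal_im, Complex.mul_im, Complex.ofReal_re, Complex.I_im,
          Complex.I_re, mul_one, mul_zero, add_zero, zero_add]
      have hX : 0 < 2 ^ j * K := by positivity
      have hb0 : 0 < b j := Real.rpow_pos_of_pos hX _
      have e1 : (n : ℝ) * (2 ^ j * (K / n)) = 2 ^ j * K := by field_simp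
      have e2 : 1 / (2 ^ j * K * b j) = K ^ (-(1 / 4 : ℝ)) * r ^ j := by
        have e3 : 2 ^ j * K * b j = (2 ^ j * K) ^ (1 / 4 : ℝ) := by
          simp only [hbdef]
          conv_lhs => arg 1; rw [← Real.rpow_one (2 ^ j * K)]
          rw [← Real.rpow_add hX]; norm_num
        rw [e3, one_div, ← Real.rpow_neg hX.le, Real.mul_rpow (by positivity) (by positivity), hr,
          ← Real.rpow_natCast, ← Real.rpow_natCast, ← Real.rpow_mul (by norm_num),
          ← Real.rpow_mul (by norm_num), mul_comm (j : ℝ), mul_comm]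
      have a1 := hf n h8 ω _ _ hR (by rw [hzim]; exact hηj) (by rw [hzim]; exact hj.trans hη₁') _ hb0
      have a2 := ht n 0 ω _ _ (by rw [hzim]; exact hηj) (by rw [hzim]; exact hj.trans hη₁') hR.mim
        (ref_norm_le hR hD)
      have a3 := frac_markov (f := fun π : Pairing n D => sT 0 ω E (2 ^ j * (K / n)) π) hb0
        fun π => stT_nonneg 0 ω π _ _
      rw [hzim, e1] at a1 a2
      have a4 : (avg fun π : Pairing n D => sT 0 ω E (2 ^ j * (K / n)) π) / b j ≤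
          Ct / (2 ^ j * K) / b j := by gcongr; exact a2
      refine (frac_mono fun π hπ => hπ.2).trans ((frac_or_le _ _).trans ?_)
      rw [← e2]
      have e4 : (Cf + Ct) * (1 / (2 ^ j * K * b j)) =
          Cf / (2 ^ j * K * b j) + Ct / (2 ^ j * K) / b j := by field_simp
      rw [e4]
      exact add_le_add a1 (a3.trans a4)
    · refine (frac_mono (Q := fun _ => False) fun π hπ => hj hπ.1).trans ?_
      rw [frac_false]; positivity
  have hsum : ∑ j ∈ Finset.range N, frac (Q j) ≤ ε / 2 := by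
    refine (Finset.sum_le_sum fun j _ => hQle j).trans (le_trans ?_ hK₁')
    rw [← Finset.mul_sum, ← Finset.mul_sum]
    gcongr
    rw [← tsum_geometric_of_lt_one hr0.le hr1]
    exact (summable_geometric_of_lt_one hr0.le hr1).sum_le_tsum _ fun _ _ => by positivity
  have h3 := h2 0 (by simpa using hs₀.le) E hE ω
  refine le_trans (frac_mono (Q := fun π => (∃ η : ℝ, Kb / n ≤ η ∧ η ≤ η₁ ∧ δ₂ < sB 0 ω E η π) ∨
    ∃ j ∈ Finset.range N, Q j π) fun π hπ => ?_) ((frac_or_le _ _).trans ?_)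
  · unfold OmC at hπ
    push Not at hπ
    obtain ⟨j, hj, hj'⟩ := hπ
    by_cases hd : sB 0 ω E (2 ^ j * (K / n)) π ≤ δ₂
    · refine Or.inr ⟨j, Finset.mem_range.2 ?_, hj, ?_⟩
      · by_contra hjN
        have : (2 : ℝ) ^ N ≤ 2 ^ j := pow_le_pow_right₀ (by norm_num) (not_lt.1 hjN)
        nlinarith
      · by_cases h1 : sB 0 ω E (2 ^ j * (K / n)) π ≤ b j
        · exact Or.inr (hj' h1)
        · exact Or.inl ⟨not_le.1 h1, hd⟩
    · refine Or.inl ⟨_, ?_, hj, not_le.1 hd⟩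
      have h1 : (1 : ℝ) ≤ 2 ^ j := one_le_pow₀ (by norm_num)
      have h4 : Kb / n ≤ K / n := by gcongr
      nlinarith
  · linarith [frac_exists_le (Finset.range N) Q]

end Crest.Agent.R166.PA
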