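import Crest.Agent.R166.A.Weg
import Crest.Agent.R166.A.Edge

/-! # Part A: uniform integrability, uniform potential -/

set_option autoImplicit false
set_option linter.unusedVariables false
set_option linter.unusedSectionVars false

open MeasureTheory ProbabilityTheory Filter Topology Matrix
open scoped ENNReal BoundedContinuousFunction

namespace Crest.Agent.R166.PA

/-- `T` from `TreeTight (ε/4)`, `LocLaw` with accuracy `min (ε/4) (1/(16T³))`, `im_neg_inv_ge`, `frac_fst`;
`δ = 1/(2T)` -/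
theorem sig_low {D : ℕ} {s E : ℝ} (β : Measure J) [IsProbabilityMeasure β] (hL : LocLaw D s β E)
    (hT : TreeTight D s β E) {ε : ℝ} (hε : 0 < ε) : ∃ δ K₂ : ℝ, 0 < δ ∧ 0 < K₂ ∧ ∀ K : ℝ, K₂ ≤ K →
      ∀ᶠ n in atTop, POm n D β {o | ε < frac fun x : Fin n =>
        (-1 / res (ham s o.1.1 o.2) (E + (K / n : ℝ) * Complex.I) x x).im < δ} ≤
        ENNReal.ofReal ε := by
  obtain ⟨T, j₀, hT1, hT⟩ := hT (ε / 2) (half_pos hε)
  obtain ⟨ε₁, hε₁⟩ : ∃ ε₁, ε₁ = min (ε / 2) (1 / (16 * T ^ 3)) := ⟨_, rfl⟩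
  have h1 : ε₁ ≤ ε / 2 := hε₁ ▸ min_le_left _ _
  have h2 : ε₁ ≤ 1 / (16 * T ^ 3) := hε₁ ▸ min_le_right _ _
  have h0 : 0 < ε₁ := hε₁ ▸ lt_min (half_pos hε) (by positivity)
  obtain ⟨K₀, j₁, hL⟩ := hL ε₁ h0
  refine ⟨1 / (2 * T), max K₀ 1, by positivity, by positivity, fun K hK => ?_⟩
  filter_upwards [hT (max j₀ j₁) (le_max_left _ _), hL K ((le_max_left _ _).trans hK)
    (one_pos.trans_le ((le_max_right _ _).trans hK)) (max j₀ j₁) (le_max_right _ _)] with n g1 g2
  refine (measure_mono ?_).trans ((measure_union_le _ _).trans ((add_le_add g1 g2).trans ?_))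
  · intro o ho
    by_contra hn
    simp only [Set.mem_union, Set.mem_ofPred_eq, not_or, not_lt] at hn ho
    rw [← frac_fst (B := Fin (D + 1))] at ho
    refine absurd (ho.trans_le ((frac_mono fun h hh => ?_).trans ((frac_or_le _ _).trans
      (add_le_add hn.1 hn.2)))) (by linarith)
    by_contra hc
    simp only [not_or, not_not, not_exists, not_lt] at hc
    exact absurd (im_neg_inv_ge hT1 hc.1.1 hc.1.2 ((hc.2 0 0).trans h2)) (not_le.2 hh)
  · rw [← ENNReal.ofReal_add (half_pos hε).le h0.le]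
    exact ENNReal.ofReal_le_ofReal (by linarith)

theorem UIu_meas {n D : ℕ} (s : ℝ) {z : ℂ} (hz : 0 < z.im) (π : Pairing n D) (x : Fin n) :
    Measurable fun ω : Fin n → J => res (ham s π.1 ω) z x x := by
  have h := (measurable_res_ham (D := D) s hz.ne' x x).comp (measurable_prodMk_left (x := π))
  simpa only [Function.comp_def] using h

theorem UIu_meas_top {X : Type} [MeasurableSpace X] {g : X → ℂ} (hg : Measurable g) (L : ℝ) :
    Measurable fun ω => if L < (g ω).im then (g ω).im else 0 :=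
  Measurable.ite (measurableSet_lt measurable_const (Complex.measurable_im.comp hg))
    (Complex.measurable_im.comp hg) measurable_const

theorem UIu_meas_set {X : Type} [MeasurableSpace X] {g : X → ℂ} (hg : Measurable g) (δ : ℝ) :
    MeasurableSet {ω | (-1 / g ω).im < δ} :=
  measurableSet_lt (Complex.measurable_im.comp (measurable_const.div hg)) measurable_const

theorem UIu_avg {X A : Type} [MeasurableSpace X] [Fintype A] (μ : Measure X) {f : X → A → ℝ}
    (hf : ∀ a, Measurable fun ω => f ω a) (h0 : ∀ ω a, 0 ≤ f ω a) :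
    ∫⁻ ω, ENNReal.ofReal (avg (f ω)) ∂μ =
      ENNReal.ofReal (Fintype.card A : ℝ)⁻¹ * ∑ a, ∫⁻ ω, ENNReal.ofReal (f ω a) ∂μ := by
  rw [← lintegral_finsetSum _ fun a _ => (hf a).ennreal_ofReal,
    ← lintegral_const_mul' _ _ ENNReal.ofReal_ne_top]
  refine lintegral_congr fun ω => ?_
  rw [avg, div_eq_inv_mul, ENNReal.ofReal_mul (by positivity),
    ENNReal.ofReal_sum_of_nonneg fun a _ => h0 ω a]

/-- one site: `G_xx (update ω x v) = 1/(s v - Q)` with `Q = s ω_x - 1/G_xx(ω)`, `Im Q = Im (-1/G_xx ω)`, and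
`Im G ≤ 1/Im Q`; `lintegral_pi_update`, `weg_im` -/
theorem weg_top {n D : ℕ} {s : ℝ} (hs : 0 < s) {z : ℂ} (hz : 0 < z.im) {L : ℝ} (hL : 0 < L)
    (π : Pairing n D) (x : Fin n) :
    ∫⁻ ω, ENNReal.ofReal (if L < (res (ham s π.1 ω) z x x).im then (res (ham s π.1 ω) z x x).im else 0)
        ∂(Measure.pi fun _ => unifJ) ≤
      ENNReal.ofReal (Real.pi / (2 * s)) *
        (Measure.pi fun _ : Fin n => unifJ) {ω | (-1 / res (ham s π.1 ω) z x x).im < 1 / L} := by
  have := Adm.prob (s := s) (Or.inr ⟨hs, rfl⟩)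
  rw [lintegral_pi_update unifJ x (UIu_meas_top (UIu_meas s hz π x) L).ennreal_ofReal]
  refine (lintegral_mono fun ω => ?_).trans (lintegral_indicator_const_le _ _)
  obtain ⟨Q, hQ⟩ : ∃ Q : ℂ, Q = (s * (ω x : ℝ) : ℝ) - 1 / res (ham s π.1 ω) z x x := ⟨_, rfl⟩
  have hQi : Q.im = (-1 / res (ham s π.1 ω) z x x).im := by
    rw [hQ, neg_div]
    simp
  have hQ0 : 0 < Q.im := by
    rw [hQi, res_eq_Bz]
    exact Loc_inv_im ((Bz_dis s ω π z).im_pos hz x)
  have hG : ∀ v : J, res (ham s π.1 (Function.update ω x v)) z x x =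
      1 / (((s * (v : ℝ) : ℝ) : ℂ) - Q) := fun v => by
    have h := (Bz_dis s ω π z).inv_add_single hz x (s * (v : ℝ) - s * (ω x : ℝ))
    rw [← Bz_update, ← res_eq_Bz, ← res_eq_Bz] at h
    rw [← one_div_one_div (res (ham s π.1 (Function.update ω x v)) z x x), h, hQ]
    congr 1
    push_cast
    ring
  simp only [hG]
  by_cases h : (-1 / res (ham s π.1 ω) z x x).im < 1 / L
  · rw [Set.indicator_of_mem (by exact h)]
    refine (lintegral_mono fun v => ?_).trans (weg_im hs hQ0)
    split_ifs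
    · exact le_rfl
    · simp
  · refine le_of_eq_of_le (lintegral_eq_zero_of_ae_eq_zero (ae_of_all _ fun v => ?_)) zero_le
    have h1 := norm_inv_sub_le hQ0.ne' (s * (v : ℝ))
    rw [abs_of_pos hQ0] at h1
    have h2 : Q.im⁻¹ ≤ L := by
      rw [← hQi, not_lt, one_div] at h
      exact inv_le_of_inv_le₀ hL h
    have h3 := Complex.im_le_norm (1 / (((s * (v : ℝ) : ℝ) : ℂ) - Q))
    rw [one_div] at h3
    simp only [one_div, Pi.zero_apply]
    rw [if_neg (by linarith), ENNReal.ofReal_zero]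

/-- `K₀ = 1`.  Given `ε, ε'` take `sig_low` with `ε₂ = s ε ε'/π`-ish, `L = max 1 K₂/δ`; for `K ≥ 1` let `K' = max K K₂`:
`Im(-1/G_K) ≥ (K/K') Im(-1/G_{K'})` (`im_neg_inv_mono`), so `Im(-1/G_K) < 1/L` forces `Im(-1/G_{K'}) < δ`.
`E topY ≤ (π/2s) E frac ≤ (π/2s) 2ε₂` (`weg_top`, `lintegral_le_of_small`), Markov. -/
theorem uig_unif {D : ℕ} {s E : ℝ} (hs : 0 < s) (hL : LocLaw D s unifJ E) (hT : TreeTight D s unifJ E) :
    UIG D s unifJ E := by
  have := Adm.prob (s := s) (Or.inr ⟨hs, rfl⟩)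
  have hπ := Real.pi_pos
  refine fun ε hε => ⟨1, fun ε' hε' => ?_⟩
  have hε₂ : 0 < s * ε * ε' / Real.pi := by positivity
  obtain ⟨δ, K₂, hδ, hK₂, h⟩ := sig_low unifJ hL hT hε₂
  have hM : 0 < max 1 K₂ := by positivity
  refine ⟨max 1 K₂ / δ, fun K hK hK0 => ?_⟩
  filter_upwards [h (max K K₂) (le_max_right _ _), eventually_gt_atTop 0] with n h hn
  have hn' : (0 : ℝ) < n := by exact_mod_cast hn
  have ha : 0 < K / n := by positivity
  have hab : K / n ≤ max K K₂ / n := div_le_div_of_nonneg_right (le_max_left _ _) hn'.le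
  have hz : 0 < (E + (K / n : ℝ) * Complex.I : ℂ).im := by simpa using ha
  have hz' : 0 < (E + (max K K₂ / n : ℝ) * Complex.I : ℂ).im := by simpa using ha.trans_le hab
  have hv := measurable_frac fun x : Fin n =>
    UIu_meas_set (measurable_res_ham (D := D) s hz'.ne' x x) δ
  have h1 := lintegral_le_of_small unifJ hv (fun o => frac_le_one _) hε₂.le h
  have hu := measurable_topY (n := n) (D := D) s hz (max 1 K₂ / δ)
  refine (POm_markov_lintegral unifJ hu (a := ε * ε') hε' ?_).trans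
    (by rw [mul_div_cancel_right₀ _ hε'.ne'])
  have e : ENNReal.ofReal (ε * ε') =
      ENNReal.ofReal (Real.pi / (2 * s)) * ENNReal.ofReal (2 * (s * ε * ε' / Real.pi)) := by
    rw [← ENNReal.ofReal_mul (by positivity)]
    congr 1
    field_simp
  rw [e]
  refine le_trans ?_ (mul_le_mul_right h1 _)
  rw [POm, lintegral_prod _ hu.ennreal_ofReal.aemeasurable,
    lintegral_prod _ hv.ennreal_ofReal.aemeasurable,
    ← lintegral_const_mul' _ _ ENNReal.ofReal_ne_top]
  refine lintegral_mono fun π => ?_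
  simp only [topY, frac]
  rw [UIu_avg _ (fun x => UIu_meas_top (UIu_meas s hz π x) _) fun ω x => ?_,
    UIu_avg _ (fun x => Measurable.ite (UIu_meas_set (UIu_meas s hz' π x) δ) measurable_const
      measurable_const) fun ω x => by positivity, mul_left_comm]
  · refine mul_le_mul_right ?_ _
    rw [Finset.mul_sum]
    refine Finset.sum_le_sum fun x _ => ?_
    refine (weg_top hs hz (by positivity) π x).trans (mul_le_mul_right ?_ _)
    refine (measure_mono fun ω hω => ?_).trans (le_of_eq_of_le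
      (lintegral_indicator_one (UIu_meas_set (UIu_meas s hz' π x) δ)).symm
      (lintegral_mono fun ω => ?_))
    · have h2 := im_neg_inv_mono (ham_isSymm π.2.1 s ω) E ha hab x
      simp only [Set.mem_ofPred_eq] at hω ⊢
      generalize (-1 / res (ham s π.1 ω) (E + (K / n : ℝ) * Complex.I) x x).im = p at *
      generalize (-1 / res (ham s π.1 ω) (E + (max K K₂ / n : ℝ) * Complex.I) x x).im = q at *
      rw [one_div_div, lt_div_iff₀ hM] at hω
      rw [div_mul_eq_mul_div, div_mul_eq_mul_div, div_le_div_iff_of_pos_right hn'] at h2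
      have h3 : max K K₂ ≤ K * max 1 K₂ :=
        max_le (le_mul_of_one_le_right hK0.le (le_max_left _ _))
          ((le_max_right 1 K₂).trans (le_mul_of_one_le_left hM.le hK))
      by_contra hq
      have h4 : K * δ ≤ K * q := mul_le_mul_of_nonneg_left (not_lt.1 hq) hK0.le
      have h5 : 0 < max K K₂ := by positivity
      have h6 : 0 < p := by
        by_contra hp
        nlinarith [mul_pos hK0 hδ]
      nlinarith [mul_le_mul_of_nonneg_right h3 h6.le]
    · by_cases hω : (-1 / res (ham s π.1 ω) (E + (max K K₂ / n : ℝ) * Complex.I) x x).im < δ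
      · rw [Set.indicator_of_mem (by exact hω), if_pos hω]
        simp
      · rw [Set.indicator_of_notMem (by exact hω)]
        exact zero_le
  · split_ifs with h
    · exact le_trans (by positivity) h.le
    · exact le_rfl

end Crest.Agent.R166.PA
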