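import Crest.Agent.R166.A.Meas

/-! # Part A: Wegner estimates (uniform potential) -/

set_option autoImplicit false
set_option linter.unusedVariables false
set_option linter.unusedSectionVars false

open MeasureTheory ProbabilityTheory Filter Topology Matrix
open scoped ENNReal BoundedContinuousFunction

namespace Crest.Agent.R166.PA

theorem lintegral_pi_update {n : ℕ} (β : Measure J) [IsProbabilityMeasure β] (x : Fin n)
    {F : (Fin n → J) → ℝ≥0∞} (hF : Measurable F) :
    ∫⁻ ω, F ω ∂(Measure.pi fun _ => β) =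
      ∫⁻ ω, ∫⁻ v, F (Function.update ω x v) ∂β ∂(Measure.pi fun _ => β) := by
  have hG : Measurable fun ω : Fin n → J => ∫⁻ v, F (Function.update ω x v) ∂β := by
    have := hF.lmarginal (fun _ : Fin n => β) (s := {x})
    rwa [lmarginal_singleton] at this
  refine lintegral_eq_of_lmarginal_eq {x} hF hG ?_
  simp only [lmarginal_singleton, Function.update_idem, lintegral_const, measure_univ, mul_one]

theorem Weg_half (a : ℝ) : (2⁻¹ : NNReal) • ENNReal.ofReal a = ENNReal.ofReal (a / 2) := by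
  rw [ENNReal.ofReal_div_of_pos two_pos, ENNReal.smul_def, smul_eq_mul, mul_comm, div_eq_mul_inv]
  simp

theorem weg_ball {s : ℝ} (hs : 0 < s) (ξ : ℂ) (r : ℝ) :
    unifJ {v : J | ‖((s * (v : ℝ) : ℝ) : ℂ) + ξ‖ < r} ≤ ENNReal.ofReal (r / s) := by
  rw [unifJ, Measure.smul_apply, (MeasurableEmbedding.subtype_coe measurableSet_Icc).comap_apply]
  have h : Subtype.val '' {v : J | ‖((s * (v : ℝ) : ℝ) : ℂ) + ξ‖ < r} ⊆
      Set.Ioo ((-r - ξ.re) / s) ((r - ξ.re) / s) := by
    rintro _ ⟨v, hv, rfl⟩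
    have h1 := abs_lt.1 ((Complex.abs_re_le_norm _).trans_lt hv)
    rw [Complex.add_re, Complex.ofReal_re] at h1
    rw [Set.mem_Ioo, div_lt_iff₀' hs, lt_div_iff₀' hs]
    constructor <;> linarith [h1.1, h1.2]
  refine (smul_le_smul_of_nonneg_left (measure_mono h) zero_le).trans (le_of_eq ?_)
  rw [Real.volume_Ioo, Weg_half]
  congr 1
  ring

/-- `Im 1/(sv - Q) = Im Q/((sv - Re Q)² + (Im Q)²)`, integral over `ℝ` is `π/s` -/
theorem weg_im {s : ℝ} (hs : 0 < s) {Q : ℂ} (hQ : 0 < Q.im) :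
    ∫⁻ v : J, ENNReal.ofReal (1 / (((s * (v : ℝ) : ℝ) : ℂ) - Q)).im ∂unifJ ≤
      ENNReal.ofReal (Real.pi / (2 * s)) := by
  have e : ∀ v : ℝ, (1 / (((s * v : ℝ) : ℂ) - Q)).im =
      Q.im⁻¹ * (1 + (s / Q.im * v - Q.re / Q.im) ^ 2)⁻¹ := fun v => by
    rw [one_div, Complex.inv_im, Complex.normSq_apply]
    simp only [Complex.sub_im, Complex.sub_re, Complex.ofReal_im, Complex.ofReal_re]
    have := hQ.ne'
    field_simp
    ring
  have hc : s / Q.im ≠ 0 := by positivity
  have hi : Integrable fun v : ℝ => Q.im⁻¹ * (1 + (s / Q.im * v - Q.re / Q.im) ^ 2)⁻¹ :=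
    ((integrable_inv_one_add_sq.comp_sub_right (Q.re / Q.im)).comp_mul_left' hc).const_mul _
  have hI : ∫ v : ℝ, Q.im⁻¹ * (1 + (s / Q.im * v - Q.re / Q.im) ^ 2)⁻¹ = Real.pi / s := by
    rw [integral_const_mul, Measure.integral_comp_mul_left
      (fun u : ℝ => (1 + (u - Q.re / Q.im) ^ 2)⁻¹), integral_sub_right_eq_self
      (fun u : ℝ => (1 + u ^ 2)⁻¹), integral_univ_inv_one_add_sq, abs_of_pos (by positivity),
      smul_eq_mul]
    field_simp
  rw [unifJ, lintegral_smul_measure, lintegral_subtype_comap measurableSet_Icc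
    fun v : ℝ => ENNReal.ofReal (1 / (((s * v : ℝ) : ℂ) - Q)).im]
  refine (smul_le_smul_of_nonneg_left (setLIntegral_le_lintegral _ _) zero_le).trans (le_of_eq ?_)
  simp only [e]
  rw [← ofReal_integral_eq_lintegral_ofReal hi (Eventually.of_forall fun v => by positivity), hI,
    Weg_half, div_div, mul_comm]

theorem Bz_update {n D : ℕ} (s : ℝ) (ω : Fin n → J) (z : ℂ) (π : Pairing n D) (x : Fin n) (v : J) :
    Bz s (Function.update ω x v) z π =
      Bz s ω z π + ((s * (v : ℝ) - s * (ω x : ℝ) : ℝ) : ℂ) • Matrix.single x x 1 := by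
  ext a b
  by_cases hab : a = b
  · subst hab
    by_cases hx : x = a
    · subst hx
      simp [Bz, ham, cx]
      ring
    · simp [Bz, ham, cx, hx, Ne.symm hx]
  · have : ¬ (x = a ∧ x = b) := fun h => hab (h.1.symm.trans h.2)
    simp [Bz, ham, cx, hab, Matrix.single_apply, this]

theorem Weg_Mh {n D : ℕ} {s : ℝ} (hs : 0 < s) {z m : ℂ} (hz : 0 < z.im) (hm : 0 < m.im)
    (π : Pairing n D) (h : HE n D) {T : ℝ} (hT : 0 < T) :
    (Measure.pi fun _ : Fin n => unifJ) {ω | T < ‖Mh s ω z m π h‖} ≤ ENNReal.ofReal (1 / T / s) := by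
  have hS : MeasurableSet {ω : Fin n → J | T < ‖Mh s ω z m π h‖} :=
    (isOpen_lt continuous_const (continuous_Mh s π hz hm h).norm).measurableSet
  rw [← lintegral_indicator_one hS, lintegral_pi_update unifJ h.1 (measurable_one.indicator hS)]
  refine (lintegral_mono (g := fun _ => ENNReal.ofReal (1 / T / s)) fun ω => ?_).trans (by simp)
  refine le_trans (lintegral_mono fun v => ?_) ((lintegral_indicator_one_le _).trans
    (weg_ball hs (1 / Nh s ω z m π h - ((s * (ω h.1 : ℝ) : ℝ) : ℂ) + m) (1 / T)))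
  by_cases hv : Function.update ω h.1 v ∈ {ω : Fin n → J | T < ‖Mh s ω z m π h‖}
  · rw [Set.indicator_of_mem hv, Set.indicator_of_mem]
    · exact le_rfl
    have e : ((s * (v : ℝ) : ℝ) : ℂ) + (1 / Nh s ω z m π h - ((s * (ω h.1 : ℝ) : ℝ) : ℂ) + m) =
        1 / Mh s (Function.update ω h.1 v) z m π h := by
      rw [one_div_Mh s _ π h hz hm, Nh, Nh, Sh, Sh, Bz_update, add_sub_right_comm,
        (Sh_dis s ω π h hm.le).inv_add_single hz]
      push_cast
      ring
    rw [Set.mem_setOf_eq, e, norm_div, norm_one]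
    exact one_div_lt_one_div_of_lt hT hv
  · rw [Set.indicator_of_notMem hv]
    exact zero_le

/-- `1/Mh = 1/Nh + m` and `1/Nh (update ω x v) = 1/Nh ω + s v - s ω_x` (`Bz_update`, `inv_add_single`), so
`P(T < ‖Mh‖) ≤ 1/(sT)` (`weg_ball`); average over `h`, `POm_lintegral_le`, Markov; `T = 1/(s ε²)` -/
theorem tight_unif {D : ℕ} {s E : ℝ} (hs : 0 < s) (hm : 0 < (mc D E).im) : Tight D s unifJ E := by
  classical
  intro ε hε
  refine ⟨1 / (s * ε ^ 2), 0, fun K _ hK => ?_⟩
  filter_upwards [eventually_gt_atTop 0] with n hn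
  have hz : 0 < ((E : ℂ) + (K / n : ℝ) * Complex.I).im := by
    simp only [Complex.add_im, Complex.ofReal_im, Complex.mul_im, Complex.ofReal_re, Complex.I_im,
      Complex.I_re, mul_zero, mul_one, zero_add, add_zero]
    positivity
  generalize (E : ℂ) + (K / n : ℝ) * Complex.I = z at hz
  have hu := measurable_tailM (n := n) (D := D) s hz hm (1 / (s * ε ^ 2))
  have h := POm_markov_lintegral unifJ hu (a := ε ^ 2) hε
    (POm_lintegral_le unifJ hu.ennreal_ofReal fun π => ?_)
  · rwa [show ε ^ 2 / ε = ε by field_simp] at h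
  have hS : ∀ h : HE n D, MeasurableSet {ω : Fin n → J | 1 / (s * ε ^ 2) < ‖Mh s ω z (mc D E) π h‖} :=
    fun h => (isOpen_lt continuous_const (continuous_Mh s π hz hm h).norm).measurableSet
  have e : ∀ ω : Fin n → J, tailM s ω z (mc D E) (1 / (s * ε ^ 2)) π = avg fun h : HE n D =>
      {ω : Fin n → J | 1 / (s * ε ^ 2) < ‖Mh s ω z (mc D E) π h‖}.indicator 1 ω := fun ω => by
    refine avg_congr fun h => ?_
    simp only [Set.indicator_apply, Set.mem_ofPred_eq, Pi.one_apply]
  have hi : ∀ h : HE n D, Integrable (fun ω =>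
      {ω : Fin n → J | 1 / (s * ε ^ 2) < ‖Mh s ω z (mc D E) π h‖}.indicator (1 : (Fin n → J) → ℝ) ω)
      (Measure.pi fun _ => unifJ) := fun h => (integrable_const (1 : ℝ)).indicator (hS h)
  simp only [e]
  rw [← ofReal_integral_eq_lintegral_ofReal (integrable_avg hi) (Eventually.of_forall fun ω =>
    avg_nonneg fun h => Set.indicator_nonneg (fun _ _ => zero_le_one) _), integral_avg hi]
  refine ENNReal.ofReal_le_ofReal (avg_le_of_le (sq_nonneg _) fun h => ?_)
  rw [integral_indicator_one (hS h)]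
  refine ENNReal.toReal_le_of_le_ofReal (sq_nonneg _)
    ((Weg_Mh hs hz hm π h (by positivity)).trans (le_of_eq ?_))
  rw [one_div_one_div, mul_div_cancel_left₀ _ hs.ne']

end Crest.Agent.R166.PA
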