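import Crest.Agent.R166.A.Q4
import Crest.Agent.R166.A.Boot
import Crest.Agent.R166.A.TreeE
import Crest.Agent.R166.A.Emp

/-! # Part A: graph and tree cavity values agree -/

set_option autoImplicit false
set_option linter.unusedVariables false
set_option linter.unusedSectionVars false

open MeasureTheory ProbabilityTheory Filter Topology Matrix
open scoped ENNReal BoundedContinuousFunction

namespace Crest.Agent.R166.PA

theorem zclose_zj_im (E : ℝ) (j : ℕ) : (zj E j).im = (2⁻¹ : ℝ) ^ j := by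
  simp only [zj, Complex.add_im, Complex.ofReal_im, Complex.mul_im, Complex.ofReal_re, Complex.I_im,
    Complex.I_re, mul_one, mul_zero, add_zero, zero_add]

theorem zclose_ev (K x : ℝ) (hx : 0 < x) : ∀ᶠ n : ℕ in atTop, K / n ≤ x :=
  (tendsto_const_div_atTop_nhds_zero_nat K).eventually (ge_mem_nhds hx)

theorem zclose_norm_t (s : ℝ) (hs : 0 ≤ s) (v : J) {y : ℝ} (hy : 0 ≤ y) :
    ‖(y : ℂ) * Complex.I - ((s * (v : ℝ) : ℝ) : ℂ)‖ ≤ y + s := by
  refine (norm_sub_le _ _).trans ?_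
  rw [norm_mul, Complex.norm_I, mul_one, Complex.norm_real, Complex.norm_real, Real.norm_eq_abs,
    Real.norm_eq_abs, abs_of_nonneg hy, abs_mul, abs_of_nonneg hs]
  have : |(v : ℝ)| ≤ 1 := abs_le.2 ⟨v.2.1, v.2.2⟩
  nlinarith

/-- `band_exists`, `m = mc D E`, `endo_emp` gives `δ τ s₁ C`.  `δ₀` with `C_far · 2δ₀ ≤ τ` (`frac_far_le`), `boot` gives `s₀`
(also `s₀ ≤ min 1 (s₁/2)` and the `s₀` of `tree_close_emp`).  Given `ε`: `Φ, ε'` from `endo_emp` at `(E, m)` with `ε/2`.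
With `η = K/n`, `P h = Mh`, `Q h = mE (zj E j)`, `t o = iη - sω_o`, `u o = zj E j - E - sω_o`, `σ = 2^{-j} + η`, the bad event
lies in `{δ₀ < sB η} ∪ {τ < frac (δ < ‖Q - m‖)} ∪ ⋃_{φ ∈ Φ} {ε'² < (stF - stP)²}`: `scale_stB` (`a = 0`, `‖mz - mc‖ ≤ C₀ η`)
turns `sB ≤ δ₀` into `stB (load m) ≤ 2δ₀`.  Measures: `POm_le_of_frac` + `boot` (`continuous_stB`, `measurable_Om`);
`tree_close_emp`; `POm_markov₂` + `qrec` + `Tight` (choose `T, K₀` from `Tight` after the finitely many constants `C_φ`). -/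
theorem zclose {D : ℕ} (hD : 2 ≤ D) {κ : ℝ} (hκ : 0 < κ) : ∃ s₀ : ℝ, 0 < s₀ ∧
    ∀ s : ℝ, 0 ≤ s → s < s₀ → ∀ (β : Measure J) [IsProbabilityMeasure β] (E : ℝ),
      E ^ 2 ≤ 4 * D - κ → Tight D s β E → ZClose D s β E := by
  obtain ⟨c₀, η₁, C₀, hb⟩ := band_exists hD hκ
  have hc := hb.1
  have hη₁ := hb.2.1
  have hη₁' := hb.2.2.1
  have hC₀ := hb.2.2.2.1
  obtain ⟨δ, τ, s₁, Ce, hδ, hτ, hs₁, hCe, hendo⟩ := endo_emp hD hc
  obtain ⟨Cf, hCf, hfar⟩ := frac_far_le hD hc hδ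
  obtain ⟨Cs, hCs, hscale⟩ := scale_stB hc
  have hδ₀ : 0 < τ / (2 * Cf) := by positivity
  obtain ⟨sb, hsb, hboot⟩ := boot hD hb hδ₀
  obtain ⟨st, jt, hst, htree⟩ := tree_close_emp hD hκ hδ hτ
  refine ⟨min (min sb st) (min 1 (s₁ / 2)), by positivity, fun s hs hs' β _ E hE hTight ε hε => ?_⟩
  have hs_b : s < sb := hs'.trans_le ((min_le_left _ _).trans (min_le_left _ _))
  have hs_t : s < st := hs'.trans_le ((min_le_left _ _).trans (min_le_right _ _))
  have hs_1 : s < 1 := hs'.trans_le ((min_le_right _ _).trans (min_le_left _ _))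
  have hs_s : s < s₁ / 2 := hs'.trans_le ((min_le_right _ _).trans (min_le_right _ _))
  have habs : |s| = s := abs_of_nonneg hs
  have hR := (hb.2.2.2.2 E hE).1
  have hmim : 0 < (mc D E).im := hc.trans_le hR.mim
  obtain ⟨Φ, ε', hε', hΦ⟩ := hendo E (mc D E) hR (ε / 2) (by positivity)
  choose Cq hCq hq using fun φ : C(ℂ × ℂ, ℝ) => qrec hD hc hR φ
  set N : ℝ := Φ.card + 1 with hN
  have hN0 : 0 < N := by positivity
  set Cm : ℝ := 1 + ∑ φ ∈ Φ, Cq φ with hCm
  have hCm1 : ∀ φ ∈ Φ, Cq φ ≤ Cm := fun φ hφ => by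
    have := Finset.single_le_sum (f := Cq) (fun φ _ => (hCq φ).le) hφ
    linarith
  have hCm0 : 0 < Cm := by
    have := Finset.sum_nonneg (s := Φ) (f := Cq) fun φ _ => (hCq φ).le
    linarith
  set a : ℝ := ε * ε' ^ 2 / (6 * N) with ha
  have ha0 : 0 < a := by positivity
  obtain ⟨T, KT, hT⟩ := hTight (a / (2 * Cm)) (by positivity)
  choose Kq hKq using fun φ : C(ℂ × ℂ, ℝ) => hq φ a T ha0
  obtain ⟨Kb, hKb, hbt⟩ := hboot (ε / 3) (by positivity)
  set σ₀ : ℝ := min (s₁ / 2) (min 1 (ε / (8 * Ce))) with hσ₀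
  have hσ0 : 0 < σ₀ := by positivity
  obtain ⟨j₁, hj₁⟩ := exists_pow_lt_of_lt_one hσ0 (by norm_num : (2⁻¹ : ℝ) < 1)
  refine ⟨max (max KT Kb) (∑ φ ∈ Φ, |Kq φ|), max jt j₁, fun K hK hK0 j hj => ?_⟩
  have hKT : KT ≤ K := ((le_max_left _ _).trans (le_max_left _ _)).trans hK
  have hKb' : Kb ≤ K := ((le_max_right _ _).trans (le_max_left _ _)).trans hK
  have hKq' : ∀ φ ∈ Φ, Kq φ ≤ K := fun φ hφ =>
    ((le_abs_self _).trans (Finset.single_le_sum (f := fun φ => |Kq φ|)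
      (fun φ _ => abs_nonneg _) hφ)).trans ((le_max_right _ _).trans hK)
  have hjσ : (2⁻¹ : ℝ) ^ j ≤ σ₀ :=
    (pow_le_pow_of_le_one (by norm_num) (by norm_num) ((le_max_right _ _).trans hj)).trans hj₁.le
  have hj0 : (0 : ℝ) < 2⁻¹ ^ j := by positivity
  have hw : 0 < (zj E j).im := by rw [zclose_zj_im]; exact hj0
  filter_upwards [hT K hKT hK0, hbt,
    htree s hs hs_t β E hE j ((le_max_left _ _).trans hj) (ε / 3) (by positivity),
    (eventually_all_finset Φ).2 fun φ hφ =>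
      hKq φ K (hKq' φ hφ) hK0 s (by rw [habs]; exact hs_1.le) (zj E j) hw,
    zclose_ev K η₁ hη₁, zclose_ev K σ₀ hσ0,
    zclose_ev K (τ / (2 * Cf) / (Cs * C₀ + 1)) (by positivity), eventually_gt_atTop 0]
    with n h1 h2 h3 h4 h5 h6 h7 h8
  have hn : (0 : ℝ) < n := by exact_mod_cast h8
  have hη : 0 < K / n := by positivity
  have hzim : (E + ((K / n : ℝ) : ℂ) * Complex.I : ℂ).im = K / n := by simp
  have hz : 0 < (E + ((K / n : ℝ) : ℂ) * Complex.I : ℂ).im := by rw [hzim]; exact hη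
  obtain ⟨hRz, hmz, -⟩ := (hb.2.2.2.2 E hE).2 (K / n) hη h5
  have hmzim : 0 < (mz D (E + ((K / n : ℝ) : ℂ) * Complex.I)).im := hc.trans_le hRz.mim
  haveI : Nonempty (Fin n) := ⟨⟨0, h8⟩⟩
  set S1 : Set (Om n D) := {o | τ / (2 * Cf) < sB s o.2 E (K / n) o.1} with hS1
  set S2 : Set (Om n D) :=
    {o | τ < frac fun h : HE n D => δ < ‖mE s o.2 (zj E j) o.1 h - mc D E‖} with hS2
  set S3 : C(ℂ × ℂ, ℝ) → Set (Om n D) := fun φ => {o | ε' ^ 2 <
    (stF s o.2 E (K / n) (zj E j) (mc D E) φ o.1 - stP s o.2 E (K / n) (zj E j) (mc D E) φ o.1) ^ 2}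
    with hS3
  have hsub : {o : Om n D | ε < avg fun h : HE n D =>
      ‖Zh s o.2 (E + (K / n : ℝ) * Complex.I) (mc D E) o.1 h -
        zeta (mc D E) (mE s o.2 (zj E j) o.1 h)‖ ^ 2} ⊆ S1 ∪ S2 ∪ ⋃ φ ∈ Φ, S3 φ := by
    intro o ho
    by_contra hcon
    simp only [Set.mem_union, Set.mem_iUnion, not_or, not_exists, hS1, hS2, hS3, Set.mem_setOf_eq,
      not_lt] at hcon
    obtain ⟨⟨c1, c2⟩, c3⟩ := hcon
    have hP : ∀ h, 0 < (Mh s o.2 (E + (K / n : ℝ) * Complex.I) (mc D E) o.1 h).im :=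
      fun h => Mh_im_pos s o.2 o.1 h hz hmim
    have hBm : stB s o.2 (E + (K / n : ℝ) * Complex.I) (mc D E) o.1 ≤ τ / Cf := by
      have := hscale n D s o.2 E (K / n) (K / n) 0 (mz D (E + ((K / n : ℝ) : ℂ) * Complex.I)) (mc D E)
        hη hη (h5.trans hη₁') (h5.trans hη₁') (by simp) (by simp) hRz.mim hR.mim
        (ref_norm_le hRz hD) (ref_norm_le hR hD) o.1
      have h9 := (abs_le.1 this).1
      have h10 : Cs * (0 + ‖mz D (E + ((K / n : ℝ) : ℂ) * Complex.I) - mc D E‖) ≤ τ / (2 * Cf) := by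
        rw [zero_add]
        have h11 : K / n * (Cs * C₀ + 1) ≤ τ / (2 * Cf) := (le_div_iff₀ (by positivity)).1 h7
        calc _ ≤ Cs * (C₀ * (K / n)) := by gcongr
          _ ≤ _ := by nlinarith
      have h12 : τ / Cf = τ / (2 * Cf) + τ / (2 * Cf) := by field_simp; ring
      unfold sB at c1
      linarith
    have key := hΦ (HE n D) (Fin n) (fun h => Mh s o.2 (E + (K / n : ℝ) * Complex.I) (mc D E) o.1 h)
      (fun h => mE s o.2 (zj E j) o.1 h)
      (fun x => ((K / n : ℝ) : ℂ) * Complex.I - ((s * (o.2 x : ℝ) : ℝ) : ℂ))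
      (fun x => zj E j - E - ((s * (o.2 x : ℝ) : ℝ) : ℂ)) (2 * σ₀)
      (fun h => ⟨hP h, mE_im_pos s o.2 o.1 h hw⟩)
      (fun x => by
        have e1 : zj E j - E = (((2⁻¹ : ℝ) ^ j : ℝ) : ℂ) * Complex.I := by unfold zj; ring
        have hσ1 : σ₀ ≤ s₁ / 2 := min_le_left _ _
        rw [e1]
        refine ⟨by simpa using hη.le, ?_, (zclose_norm_t s hs _ hη.le).trans (by linarith),
          (zclose_norm_t s hs _ hj0.le).trans (by linarith), ?_⟩
        · simp only [Complex.sub_im, Complex.mul_im, Complex.ofReal_re, Complex.ofReal_im,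
            Complex.I_im, Complex.I_re, mul_one, mul_zero, add_zero, sub_zero]
          exact hj0.le
        · rw [sub_sub_sub_cancel_right, ← sub_mul, norm_mul, Complex.norm_I, mul_one,
            ← Complex.ofReal_sub, Complex.norm_real, Real.norm_eq_abs, abs_le]
          constructor <;> linarith)
      (by
        refine (hfar E (mc D E) hR (HE n D) _ fun h => (hP h).le).trans ?_
        have : Cf * stB s o.2 (E + (K / n : ℝ) * Complex.I) (mc D E) o.1 ≤ Cf * (τ / Cf) := by gcongr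
        rw [mul_div_cancel₀ _ hCf.ne'] at this
        exact this)
      c2
      (fun φ hφ => abs_le_of_sq_le_sq' (c3 φ hφ) hε'.le |> abs_le.2)
    have hσ2 : Ce * (2 * σ₀) ^ 2 ≤ ε / 2 := by
      have a1 : σ₀ ≤ 1 := (min_le_right _ _).trans (min_le_left _ _)
      have a2 : σ₀ ≤ ε / (8 * Ce) := (min_le_right _ _).trans (min_le_right _ _)
      have a3 : σ₀ * (8 * Ce) ≤ ε := (le_div_iff₀ (by positivity)).1 a2
      nlinarith [mul_pos hσ0 hCe]
    have : (avg fun h : HE n D => ‖Zh s o.2 (E + (K / n : ℝ) * Complex.I) (mc D E) o.1 h -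
        zeta (mc D E) (mE s o.2 (zj E j) o.1 h)‖ ^ 2) ≤ ε := key.trans (by linarith)
    exact absurd ho (not_lt.2 this)
  have m1 : POm n D β S1 ≤ ENNReal.ofReal (ε / 3) := by
    refine POm_le_of_frac β S1 ?_ fun ω => ?_
    · exact measurableSet_lt measurable_const (measurable_Om (F := fun π ω => sB s ω E (K / n) π)
        fun π => (continuous_stB s π hz hmzim).measurable)
    · refine le_trans (frac_mono fun π hπ => ?_) (h2 s (by rw [habs]; exact hs_b.le) E hE ω)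
      exact ⟨K / n, by gcongr, h5, hπ⟩
  have m3 : ∀ φ ∈ Φ, POm n D β (S3 φ) ≤ ENNReal.ofReal (ε / (3 * N)) := by
    intro φ hφ
    have := POm_markov₂ β (u := fun o : Om n D =>
      (stF s o.2 E (K / n) (zj E j) (mc D E) φ o.1 - stP s o.2 E (K / n) (zj E j) (mc D E) φ o.1) ^ 2)
      (v := fun o : Om n D => tailM s o.2 (E + (K / n : ℝ) * Complex.I) (mc D E) T o.1)
      (measurable_Om (F := fun π ω => (stF s ω E (K / n) (zj E j) (mc D E) φ π -
          stP s ω E (K / n) (zj E j) (mc D E) φ π) ^ 2) fun π =>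
        (((continuous_stF s π E hη hw hmim φ.continuous).sub
          (continuous_stP s π E hη hw hmim φ.continuous)).pow 2).measurable)
      (measurable_tailM s hz hmim T) (fun o => sq_nonneg _) (fun o => frac_nonneg _)
      (fun o => frac_le_one _) ha0.le (hCq φ).le (by positivity : 0 ≤ a / (2 * Cm))
      (by positivity : 0 < ε' ^ 2) (h4 φ hφ) h1
    refine this.trans (ENNReal.ofReal_le_ofReal ?_)
    have b1 : Cq φ * (2 * (a / (2 * Cm))) ≤ a := by
      calc _ ≤ Cm * (2 * (a / (2 * Cm))) := by gcongr; exact hCm1 φ hφ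
        _ = a := by field_simp
    rw [div_le_iff₀ (by positivity)]
    have b2 : ε / (3 * N) * ε' ^ 2 = a + a := by rw [ha]; field_simp; ring
    linarith
  calc _ ≤ POm n D β (S1 ∪ S2 ∪ ⋃ φ ∈ Φ, S3 φ) := measure_mono hsub
    _ ≤ POm n D β S1 + POm n D β S2 + ∑ φ ∈ Φ, POm n D β (S3 φ) :=
      (measure_union_le _ _).trans (add_le_add (measure_union_le _ _) (measure_biUnion_finset_le _ _))
    _ ≤ ENNReal.ofReal (ε / 3) + ENNReal.ofReal (ε / 3) + ∑ φ ∈ Φ, ENNReal.ofReal (ε / (3 * N)) :=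
      add_le_add (add_le_add m1 h3) (Finset.sum_le_sum m3)
    _ ≤ ENNReal.ofReal ε := by
      rw [← ENNReal.ofReal_sum_of_nonneg fun _ _ => by positivity, ← ENNReal.ofReal_add (by positivity)
        (by positivity), ← ENNReal.ofReal_add (by positivity)
        (Finset.sum_nonneg fun _ _ => by positivity)]
      refine ENNReal.ofReal_le_ofReal ?_
      rw [Finset.sum_const, nsmul_eq_mul]
      have : (Φ.card : ℝ) * (ε / (3 * N)) ≤ ε / 3 := by
        calc _ ≤ N * (ε / (3 * N)) := by gcongr; linarith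
          _ = ε / 3 := by field_simp
      linarith

end Crest.Agent.R166.PA
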